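import Crest.Agent.N334.G.Defs

/-!
# Row 334, S0519: the torus `(ZMod (2^N))²` as a `Lat`
-/

set_option autoImplicit false

open MeasureTheory Finset Complex
open scoped BigOperators ComplexConjugate

noncomputable section

namespace Crest.Agent.N334.G

abbrev TX (N : ℕ) : Type := Fin 2 → ZMod (2 ^ N)

def tU (N m : ℕ) (i : Fin 2) (x : TX N) : ℂ :=
  Complex.exp (2 * Real.pi * I * ((x i).val : ℂ) / 2 ^ m)

def tA (N : ℕ) : Matrix (TX N) (TX N) ℝ := fun x y =>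
  ∑ j, ((if y = x + Pi.single j 1 then 1 else 0) + if y = x - Pi.single j 1 then 1 else 0)

namespace Tor0

theorem vma_le {n : ℕ} [NeZero n] (a : ℤ) : (a : ZMod n).valMinAbs.natAbs ≤ a.natAbs :=
  ZMod.natAbs_min_of_le_div_two n _ _ (ZMod.coe_valMinAbs _) (ZMod.natAbs_valMinAbs_le _)

theorem vma_sq {n : ℕ} [NeZero n] (a : ℤ) :
    (((a : ZMod n).valMinAbs : ℤ) : ℝ) ^ 2 ≤ (a : ℝ) ^ 2 := by
  exact_mod_cast Int.natAbs_le_iff_sq_le.1 (vma_le a)

end Tor0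

open Tor0

theorem tU_norm (N m : ℕ) (i : Fin 2) (x : TX N) : ‖tU N m i x‖ = 1 := by
  rw [tU, show 2 * Real.pi * I * ((x i).val : ℂ) / 2 ^ m
    = ((2 * Real.pi * (x i).val / 2 ^ m : ℝ) : ℂ) * I by push_cast; ring,
    Complex.norm_exp_ofReal_mul_I]
theorem tU_zero (N : ℕ) (i : Fin 2) (x : TX N) : tU N 0 i x = 1 := by
  rw [tU, pow_zero, div_one, mul_comm, Complex.exp_nat_mul_two_pi_mul_I]
theorem tU_succ (N m : ℕ) (i : Fin 2) (x : TX N) : tU N m i x = tU N (m + 1) i x ^ 2 := by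
  rw [tU, tU, ← Complex.exp_nat_mul]
  congr 1
  field_simp
  push_cast
  ring
theorem tA_symm (N : ℕ) (x y : TX N) : tA N x y = tA N y x := by
  refine sum_congr rfl fun j _ => ?_
  have e : ∀ a b : TX N, a = b - Pi.single j 1 ↔ b = a + Pi.single j 1 := fun a b => by
    rw [eq_sub_iff_add_eq, eq_comm]
  rw [add_comm]
  simp only [e]
theorem tA_row (N : ℕ) (x : TX N) : ∑ y, |tA N x y| ≤ 4 := by
  have : ∀ y, |tA N x y| = tA N x y := fun y =>
    abs_of_nonneg (sum_nonneg fun _ _ => by split_ifs <;> norm_num)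
  simp only [this]
  unfold tA
  rw [sum_comm]
  simp only [sum_add_distrib, sum_ite_eq', mem_univ, if_true]
  norm_num
/-- chord versus the centred representative: `16 u² ≤ chord² ≤ 40 u²` -/
theorem chord_two_sided (N : ℕ) (i : Fin 2) (x y : TX N) :
    16 * (((x i - y i).valMinAbs : ℤ) : ℝ) ^ 2 ≤ (4 : ℝ) ^ N * ‖tU N N i x - tU N N i y‖ ^ 2 ∧
    (4 : ℝ) ^ N * ‖tU N N i x - tU N N i y‖ ^ 2 ≤ 40 * (((x i - y i).valMinAbs : ℤ) : ℝ) ^ 2 := by
  obtain ⟨u, hu⟩ : ∃ u, u = (x i - y i).valMinAbs := ⟨_, rfl⟩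
  have h1 : (u.natAbs : ℝ) ≤ 2 ^ N / 2 := by
    rw [hu]
    exact_mod_cast (Nat.cast_le.2 (ZMod.natAbs_valMinAbs_le _)).trans Nat.cast_div_le
  rw [Nat.cast_natAbs, Int.cast_abs] at h1
  obtain ⟨t, ht⟩ : ((2 ^ N : ℕ) : ℤ) ∣ (x i).val - (y i).val - u := by
    rw [← ZMod.intCast_zmod_eq_zero_iff_dvd, hu]
    simp
  have h2 : ((x i).val : ℂ) = (y i).val + u + 2 ^ N * t := by
    have : ((x i).val : ℤ) = (y i).val + u + 2 ^ N * t := by push_cast at ht; linarith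
    exact_mod_cast this
  have h3 : ‖tU N N i x - tU N N i y‖ = 2 * |Real.sin (Real.pi * u / 2 ^ N)| := by
    have : tU N N i x = tU N N i y * Complex.exp (I * (2 * (Real.pi * u / 2 ^ N) : ℝ)) := by
      rw [tU, tU, ← Complex.exp_add, h2, ← mul_one (Complex.exp (_ + _)),
        ← Complex.exp_int_mul_two_pi_mul_I t, ← Complex.exp_add]
      congr 1
      push_cast
      field_simp
    rw [this, ← mul_sub_one, norm_mul, tU_norm, one_mul, Complex.norm_exp_I_mul_ofReal_sub_one,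
      mul_div_cancel_left₀ _ two_ne_zero, norm_mul, Real.norm_two, Real.norm_eq_abs]
  have h4 : (0 : ℝ) < 2 ^ N := by positivity
  have h5 : |Real.pi * u / 2 ^ N| = Real.pi * |(u : ℝ)| / 2 ^ N := by
    rw [abs_div, abs_mul, abs_of_pos Real.pi_pos, abs_of_pos h4]
  have h6 := Real.mul_abs_le_abs_sin (x := Real.pi * u / 2 ^ N) (by
    rw [h5, div_le_iff₀ h4]
    nlinarith [Real.pi_pos])
  have h7 := Real.abs_sin_le_abs (x := Real.pi * u / 2 ^ N)
  have h8 : (4 : ℝ) ^ N = (2 ^ N) ^ 2 := by rw [← pow_mul, mul_comm, pow_mul]; norm_num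
  rw [h5] at h6 h7
  rw [show 2 / Real.pi * (Real.pi * |(u : ℝ)| / 2 ^ N) = 2 * |(u : ℝ)| / 2 ^ N by
    field_simp, div_le_iff₀ h4] at h6
  rw [le_div_iff₀ h4] at h7
  rw [← hu, h3, h8, ← mul_pow, ← sq_abs (u : ℝ)]
  have h9 := abs_nonneg (u : ℝ)
  constructor
  · nlinarith [pow_le_pow_left₀ (by positivity) h6 2]
  · have := pow_le_pow_left₀ (by positivity) (h7.trans
      (mul_le_mul_of_nonneg_right Real.pi_lt_d2.le h9)) 2
    nlinarith
theorem tA_loc (N : ℕ) (x y : TX N) (h : tA N x y ≠ 0) :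
    (4 : ℝ) ^ N * ∑ i, ‖tU N N i x - tU N N i y‖ ^ 2 ≤ 40 := by
  obtain ⟨j, -, hj⟩ := exists_ne_zero_of_sum_ne_zero h
  obtain ⟨s, hs, e⟩ : ∃ s : ℤ, (s : ℝ) ^ 2 = 1 ∧ x - y = Pi.single j (s : ZMod (2 ^ N)) := by
    by_cases h1 : y = x + Pi.single j 1
    · exact ⟨-1, by simp, by simp [h1, Pi.single_neg]⟩
    by_cases h2 : y = x - Pi.single j 1
    · exact ⟨1, by simp, by simp [h2]⟩
    simp [h1, h2] at hj
  rw [mul_sum]
  refine (sum_le_sum fun i _ => (chord_two_sided N i x y).2).trans ?_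
  rw [sum_eq_single j (fun i _ hi => by simp [← Pi.sub_apply, e, hi]) (by simp), ← Pi.sub_apply, e,
    Pi.single_eq_same]
  linarith [vma_sq (n := 2 ^ N) s]
theorem t_ball_le (N : ℕ) (x : TX N) (R2 : ℝ) (h : 0 ≤ R2) :
    ((univ.filter fun c => (4 : ℝ) ^ N * ∑ i, ‖tU N N i x - tU N N i c‖ ^ 2 ≤ R2).card : ℝ) ≤
      2 + R2 := by
  obtain ⟨k, hk⟩ : ∃ k, k = Nat.sqrt ⌊R2 / 16⌋₊ := ⟨_, rfl⟩
  have h1 : (k : ℝ) ^ 2 ≤ R2 / 16 :=
    le_trans (by exact_mod_cast hk ▸ Nat.sqrt_le' _) (Nat.floor_le (by positivity))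
  have h2 := card_le_card_of_injOn (fun (c : TX N) i => (x i - c i).valMinAbs)
    (s := univ.filter fun c => (4 : ℝ) ^ N * ∑ i, ‖tU N N i x - tU N N i c‖ ^ 2 ≤ R2)
    (t := Fintype.piFinset fun _ => Icc (-k : ℤ) k) (fun c hc => ?_) fun c _ c' _ e =>
      funext fun i => sub_right_injective (ZMod.valMinAbs_inj.1 (congrFun e i))
  · rw [Fintype.card_piFinset, prod_const, Int.card_Icc, card_univ, Fintype.card_fin,
      show (k : ℤ) + 1 - -k = (2 * k + 1 : ℕ) by push_cast; ring, Int.toNat_natCast] at h2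
    refine (Nat.cast_le.2 h2).trans ?_
    push_cast
    nlinarith [sq_nonneg ((k : ℝ) - 1), sq_nonneg (k : ℝ)]
  · refine mem_coe.2 (Fintype.mem_piFinset.2 fun i => ?_)
    have h3 := (mem_filter.1 (mem_coe.1 hc)).2
    rw [mul_sum] at h3
    have h4 := ((chord_two_sided N i x c).1.trans (single_le_sum
      (f := fun i => (4 : ℝ) ^ N * ‖tU N N i x - tU N N i c‖ ^ 2) (fun _ _ => by positivity)
      (mem_univ i))).trans h3
    have h5 : (x i - c i).valMinAbs.natAbs ≤ k := by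
      rw [hk, Nat.le_sqrt', Nat.le_floor_iff (by positivity)]
      push_cast
      rw [Nat.cast_natAbs, Int.cast_abs, sq_abs]
      linarith
    rw [mem_Icc, ← abs_le, ← Int.natCast_natAbs]
    exact_mod_cast h5
theorem t_ball_ge (N : ℕ) (x : TX N) (m : ℕ) (h : m < N) : (4 : ℝ) ^ m ≤
    400 * ((univ.filter fun c =>
      (4 : ℝ) ^ N * ∑ i, ‖tU N N i x - tU N N i c‖ ^ 2 ≤ 4 ^ m).card : ℝ) := by
  obtain ⟨k, hk⟩ : ∃ k, k = 2 ^ m / 9 := ⟨_, rfl⟩
  have h1 : 9 * k ≤ 2 ^ m ∧ 2 ^ m ≤ 9 * (k + 1) := by omega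
  have h0 : k + 1 ≤ 2 ^ N := by
    have := Nat.pow_lt_pow_right (a := 2) (by norm_num) h
    omega
  have h8 : (4 : ℝ) ^ m = (2 ^ m) ^ 2 := by rw [← pow_mul, mul_comm, pow_mul]; norm_num
  have a1 : 9 * (k : ℝ) ≤ 2 ^ m := by exact_mod_cast h1.1
  have a2 : (2 : ℝ) ^ m ≤ 9 * (k + 1) := by exact_mod_cast h1.2
  have h2 := card_le_card_of_injOn (fun (a : Fin 2 → ℕ) i => x i - (a i : ZMod (2 ^ N)))
    (t := univ.filter fun c => (4 : ℝ) ^ N * ∑ i, ‖tU N N i x - tU N N i c‖ ^ 2 ≤ 4 ^ m)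
    (s := Fintype.piFinset fun _ => range (k + 1)) (fun a ha => ?_) fun a ha b hb e =>
      funext fun i => ?_
  · rw [Fintype.card_piFinset, prod_const, card_range, card_univ, Fintype.card_fin] at h2
    refine le_trans ?_ (mul_le_mul_of_nonneg_left (Nat.cast_le.2 h2) (by norm_num))
    push_cast
    nlinarith [pow_le_pow_left₀ (by positivity) a2 2, sq_nonneg ((k : ℝ) + 1)]
  · refine mem_coe.2 (mem_filter.2 ⟨mem_univ _, ?_⟩)
    rw [mul_sum]
    refine (sum_le_sum fun i _ => (chord_two_sided N i x _).2.trans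
      (?_ : _ ≤ 40 * (k : ℝ) ^ 2)).trans ?_
    · have h3 : (a i : ℝ) ≤ k := by
        exact_mod_cast Nat.le_of_lt_succ (mem_range.1 (Fintype.mem_piFinset.1 (mem_coe.1 ha) i))
      have h4 := vma_sq (n := 2 ^ N) (a i)
      rw [Int.cast_natCast, Int.cast_natCast] at h4
      rw [sub_sub_cancel]
      nlinarith [pow_le_pow_left₀ (by positivity) h3 2]
    · rw [Fin.sum_univ_two]
      nlinarith [pow_le_pow_left₀ (by positivity) a1 2, sq_nonneg (k : ℝ)]
  · have e' := congrArg ZMod.val (sub_right_injective (congrFun e i))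
    rwa [ZMod.val_cast_of_lt ((mem_range.1 (Fintype.mem_piFinset.1 (mem_coe.1 ha) i)).trans_le h0),
      ZMod.val_cast_of_lt ((mem_range.1 (Fintype.mem_piFinset.1 (mem_coe.1 hb) i)).trans_le h0)]
      at e'

def torus (N : ℕ) (hN : 1 ≤ N) : Lat where
  X := TX N
  N := N
  hN := hN
  U := tU N
  norm_U := tU_norm N
  U_zero := tU_zero N
  U_succ := fun m i x _ => tU_succ N m i x
  A := tA N
  A_symm := tA_symm N
  A_row := tA_row N
  A_loc := tA_loc N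
  ball_le := t_ball_le N
  ball_ge := t_ball_ge N

end Crest.Agent.N334.G
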