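import Crest.Agent.N334.G.Geo2

/-!
# Row 334, S0519 GAIN: (A) drift of the logarithmic potential
-/

set_option autoImplicit false

open MeasureTheory Finset Complex
open scoped BigOperators ComplexConjugate

noncomputable section

namespace Crest.Agent.N334.G

namespace DA

def bb (l w : ℝ) : ℝ := if w ≤ l then w ^ 4 / l ^ 2 else l ^ 2
def hh (l w : ℝ) : ℝ := if w ≤ l then w ^ 2 else 0
def jj (l w : ℝ) : ℝ := if w ≤ l then 0 else w ^ 2
def ps (l w : ℝ) : ℝ := w * l / (w + l) ^ 2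
def kk (l w w' : ℝ) : ℝ :=
  5 * (bb l w * bb l w') + 2 * (hh l w * bb l w') + 2 * (hh l w * jj l w')

lemma ps_nonneg {l w : ℝ} (hl : 0 < l) (hw : 0 ≤ w) : 0 ≤ ps l w := by unfold ps; positivity

lemma sum_ps {w : ℝ} (hw : 0 ≤ w) (N : ℕ) : ∑ m ∈ range N, ps √(2 ^ m) w ≤ 4 := by
  have hl : ∀ m : ℕ, 0 < √((2 : ℝ) ^ m) := fun m => Real.sqrt_pos.2 (by positivity)
  have step : ∀ m ∈ range N, ps √(2 ^ m) w ≤
      4 * (√(2 ^ (m + 1)) / (w + √(2 ^ (m + 1)))) - 4 * (√(2 ^ m) / (w + √(2 ^ m))) := fun m _ => by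
    have e : √((2 : ℝ) ^ (m + 1)) ^ 2 = 2 * √(2 ^ m) ^ 2 := by
      rw [Real.sq_sqrt (by positivity), Real.sq_sqrt (by positivity)]; ring
    have h0 := hl m
    have h1 := hl (m + 1)
    generalize √((2 : ℝ) ^ (m + 1)) = b at *
    generalize √((2 : ℝ) ^ m) = a at *
    have h2 : 1.4 * a ≤ b := (abs_le_of_sq_le_sq' (by nlinarith) h1.le).2
    have h3 : b ≤ 1.5 * a := (abs_le_of_sq_le_sq' (by nlinarith) (by positivity)).2
    have e2 : 4 * (b / (w + b)) - 4 * (a / (w + a)) = 4 * w * (b - a) / ((w + b) * (w + a)) := by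
      field_simp; ring
    rw [e2, ps, div_le_div_iff₀ (by positivity) (by positivity)]
    have h4 : a * (w + b) ≤ 4 * (b - a) * (w + a) := by nlinarith
    nlinarith [mul_le_mul_of_nonneg_left h4 (by positivity : 0 ≤ w * (w + a))]
  refine (sum_le_sum step).trans ?_
  rw [sum_range_sub fun m => 4 * (√(2 ^ m) / (w + √(2 ^ m)))]
  have h1 : √((2 : ℝ) ^ N) / (w + √(2 ^ N)) ≤ 1 :=
    div_le_one_of_le₀ (by linarith) (by linarith [hl N])
  have h2 : 0 ≤ √((2 : ℝ) ^ 0) / (w + √(2 ^ 0)) := by positivity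
  linarith

lemma ker {l w w' : ℝ} (hl : 0 < l) (hw' : 0 ≤ w') (h : w' ≤ w) :
    kk l w w' ≤ 36 * (ps l w * (w ^ 3 * w')) ∧ kk l w' w ≤ 36 * (ps l w * (w ^ 3 * w')) := by
  have hw := hw'.trans h
  have hP : 0 ≤ ps l w * (w ^ 3 * w') := mul_nonneg (ps_nonneg hl hw) (by positivity)
  have hb : ∀ v : ℝ, 0 ≤ v → v ≤ w → v ≤ l → v ^ 4 / l ^ 2 ≤ v ^ 2 * (w / l) := fun v a b c => by
    have : v ^ 4 / l ^ 2 = v ^ 2 * (v / l * (v / l)) := by field_simp
    rw [this]
    have h1 : v / l ≤ 1 := (div_le_one hl).2 c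
    have h2 : v / l ≤ w / l := by gcongr
    have h3 : 0 ≤ v / l := by positivity
    gcongr; nlinarith
  by_cases h1 : w ≤ l
  · have h2 := h.trans h1
    have hp : w / l ≤ 4 * ps l w := by
      rw [ps, ← mul_div_assoc, div_le_div_iff₀ hl (by positivity)]
      nlinarith [mul_le_mul_of_nonneg_left (show (w + l) ^ 2 ≤ 4 * l ^ 2 by nlinarith) hw]
    have b1 := hb w hw le_rfl h1
    have b2 := hb w' hw' h h2
    have t1 : w / l ≤ 1 := (div_le_one hl).2 h1
    have t0 : 0 ≤ w / l := by positivity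
    have hww : w ^ 2 * w' ^ 2 ≤ w ^ 3 * w' := by
      nlinarith [mul_le_mul_of_nonneg_left h (by positivity : 0 ≤ w ^ 2 * w')]
    have z : w ^ 2 * w' ^ 2 * (w / l) ≤ 4 * ps l w * (w ^ 3 * w') := by
      rw [mul_comm]; gcongr; exact t0.trans hp
    have c1 : w ^ 2 * (w' ^ 4 / l ^ 2) ≤ w ^ 2 * (w' ^ 2 * (w / l)) := by gcongr
    have c2 : w' ^ 2 * (w ^ 4 / l ^ 2) ≤ w' ^ 2 * (w ^ 2 * (w / l)) := by gcongr
    have c3 : w ^ 4 / l ^ 2 * (w' ^ 4 / l ^ 2) ≤ w ^ 2 * (w' ^ 4 / l ^ 2) := by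
      gcongr; nlinarith [mul_le_mul_of_nonneg_left t1 (sq_nonneg w)]
    simp only [kk, bb, hh, jj, h1, h2, if_true]
    constructor <;> linarith
  · have h1' := (not_le.1 h1).le
    have hp : w ^ 2 * w' * l ≤ 4 * (ps l w * (w ^ 3 * w')) := by
      have : ps l w * (w ^ 3 * w') = w ^ 2 * w' * l * (w ^ 2 / (w + l) ^ 2) := by rw [ps]; ring
      have h3 : 1 / 4 ≤ w ^ 2 / (w + l) ^ 2 := by
        rw [le_div_iff₀ (by positivity)]; nlinarith
      nlinarith [mul_le_mul_of_nonneg_left h3 (by positivity : 0 ≤ w ^ 2 * w' * l)]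
    have hl2 : l ^ 2 ≤ w ^ 2 := by gcongr
    by_cases h2 : w' ≤ l
    · have b2 : w' ^ 4 / l ^ 2 ≤ w' ^ 2 := by
        rw [div_le_iff₀ (by positivity)]
        nlinarith [mul_le_mul_of_nonneg_left (show w' ^ 2 ≤ l ^ 2 by gcongr) (sq_nonneg w')]
      have c0 : w' ^ 2 * w ^ 2 ≤ w ^ 2 * w' * l := by
        nlinarith [mul_le_mul_of_nonneg_left h2 (by positivity : 0 ≤ w ^ 2 * w')]
      have c1 : l ^ 2 * (w' ^ 4 / l ^ 2) ≤ w ^ 2 * w' ^ 2 := by gcongr
      have c2 : w' ^ 2 * l ^ 2 ≤ w' ^ 2 * w ^ 2 := by gcongr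
      simp only [kk, bb, hh, jj, h1, h2, if_true, if_false]
      constructor <;> nlinarith [mul_nonneg (sq_nonneg w) (sq_nonneg w')]
    · have h2' := (not_le.1 h2).le
      have c0 : l ^ 2 * l ^ 2 ≤ w ^ 2 * w' * l := by
        calc l ^ 2 * l ^ 2 = l ^ 2 * l * l := by ring
          _ ≤ _ := by gcongr
      simp only [kk, bb, hh, jj, h1, h2, if_false]
      constructor <;> nlinarith [mul_nonneg (sq_nonneg l) (sq_nonneg l)]

variable {Q : Type} [Fintype Q]

def GG (c w : Q → ℝ) (q : Q) : ℝ := ∑ q', if w q' ≤ w q then c q' * (w q ^ 3 * w q') else 0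

lemma abs_sum_le {c f g : Q → ℝ} (hc : ∀ q, 0 ≤ c q) (h : ∀ q, |f q| ≤ g q) :
    |∑ q, c q * f q| ≤ ∑ q, c q * g q :=
  (abs_sum_le_sum_abs _ _).trans (sum_le_sum fun q _ => by
    rw [abs_mul, abs_of_nonneg (hc q)]; exact mul_le_mul_of_nonneg_left (h q) (hc q))

lemma quad {c w a τ σ : Q → ℝ} {l : ℝ} (hl : 0 < l) (hc : ∀ q, 0 ≤ c q) (hw : ∀ q, 0 ≤ w q)
    (ha : ∀ q, |a q| ≤ 2 * bb l (w q)) (hτ : ∀ q, |τ q| ≤ l ^ 2) (hσ : ∀ q, |σ q| ≤ w q ^ 2)
    (hd : ∀ q, |τ q - σ q| ≤ w q ^ 6 / l ^ 4) :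
    (∑ q, c q * a q) ^ 2 + (∑ q, c q * τ q) ^ 2 - (∑ q, c q * σ q) ^ 2 ≤
      72 * ∑ q, c q * GG c w q * ps l (w q) := by
  have hA := abs_sum_le hc ha
  have hM := abs_sum_le (f := fun q => if w q ≤ l then σ q else 0) (g := fun q => hh l (w q)) hc
    fun q => by unfold hh; split_ifs <;> simp [hσ q]
  have hJ := abs_sum_le (f := fun q => if w q ≤ l then 0 else σ q) (g := fun q => jj l (w q)) hc
    fun q => by unfold jj; split_ifs <;> simp [hσ q]
  have hE := abs_sum_le (f := fun q => τ q - if w q ≤ l then σ q else 0)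
    (g := fun q => bb l (w q)) hc fun q => by
      unfold bb
      split_ifs with h
      · refine (hd q).trans ?_
        rw [div_le_div_iff₀ (by positivity) (by positivity)]
        have := hw q
        nlinarith [mul_le_mul_of_nonneg_left (show w q ^ 2 ≤ l ^ 2 by gcongr)
          (by positivity : 0 ≤ w q ^ 4 * l ^ 2)]
      · simpa using hτ q
  have e1 : ∑ q, c q * σ q = ∑ q, c q * (if w q ≤ l then σ q else 0) +
      ∑ q, c q * (if w q ≤ l then 0 else σ q) := by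
    rw [← sum_add_distrib]; exact sum_congr rfl fun q _ => by split_ifs <;> ring
  have e2 : ∑ q, c q * τ q = ∑ q, c q * (if w q ≤ l then σ q else 0) +
      ∑ q, c q * (τ q - if w q ≤ l then σ q else 0) := by
    rw [← sum_add_distrib]; exact sum_congr rfl fun q _ => by ring
  have e3 : ∑ q, c q * (2 * bb l (w q)) = 2 * ∑ q, c q * bb l (w q) := by
    rw [mul_sum]; exact sum_congr rfl fun q _ => by ring
  have e4 : 5 * (∑ q, c q * bb l (w q)) ^ 2 +
      2 * ((∑ q, c q * hh l (w q)) * ∑ q, c q * bb l (w q)) +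
      2 * ((∑ q, c q * hh l (w q)) * ∑ q, c q * jj l (w q)) =
      ∑ q, ∑ q', c q * c q' * kk l (w q) (w q') := by
    simp only [sq, sum_mul_sum, mul_sum (a := (5 : ℝ)), mul_sum (a := (2 : ℝ)), ← sum_add_distrib]
    exact sum_congr rfl fun q _ => sum_congr rfl fun q' _ => by rw [kk]; ring
  set F : Q → Q → ℝ := fun q q' =>
    c q * (if w q' ≤ w q then c q' * (w q ^ 3 * w q') else 0) * ps l (w q) with hF
  have hF0 : ∀ q q', 0 ≤ F q q' := fun q q' => by
    have := hc q; have := hc q'; have := hw q; have := hw q'; have := ps_nonneg hl (hw q)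
    simp only [hF]; split_ifs <;> positivity
  have e5 : ∑ q, ∑ q', c q * c q' * kk l (w q) (w q') ≤ ∑ q, ∑ q', (36 * F q q' + 36 * F q' q) :=
    sum_le_sum fun q _ => sum_le_sum fun q' _ => by
      have hcc := mul_nonneg (hc q) (hc q')
      rcases le_total (w q') (w q) with h | h
      · have := mul_le_mul_of_nonneg_left (ker hl (hw q') h).1 hcc
        have h2 : F q q' = c q * c q' * (ps l (w q) * (w q ^ 3 * w q')) := by
          simp only [hF, h, if_true]; ring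
        linarith [hF0 q' q]
      · have := mul_le_mul_of_nonneg_left (ker hl (hw q) h).2 hcc
        have h2 : F q' q = c q * c q' * (ps l (w q') * (w q' ^ 3 * w q)) := by
          simp only [hF, h, if_true]; ring
        linarith [hF0 q q']
  have e6 : ∑ q, ∑ q', (36 * F q q' + 36 * F q' q) = 72 * ∑ q, c q * GG c w q * ps l (w q) := by
    simp only [sum_add_distrib, ← mul_sum]
    rw [sum_comm (f := fun q q' => F q' q)]
    have : ∑ q, ∑ q', F q q' = ∑ q, c q * GG c w q * ps l (w q) :=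
      sum_congr rfl fun q _ => by rw [GG, mul_sum, sum_mul]
    linarith
  rw [e1, e2, ← e6]
  rw [e3] at hA
  refine le_trans ?_ (e4.le.trans e5)
  generalize ∑ q, c q * a q = A at *
  generalize ∑ q, c q * (if w q ≤ l then σ q else 0) = M at *
  generalize ∑ q, c q * (if w q ≤ l then 0 else σ q) = J at *
  generalize ∑ q, c q * (τ q - if w q ≤ l then σ q else 0) = E at *
  generalize ∑ q, c q * bb l (w q) = B at *
  generalize ∑ q, c q * hh l (w q) = H at *
  generalize ∑ q, c q * jj l (w q) = Jl at *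
  have h1 : A ^ 2 ≤ (2 * B) ^ 2 := sq_le_sq' (abs_le.1 hA).1 (abs_le.1 hA).2
  have h2 : E ^ 2 ≤ B ^ 2 := sq_le_sq' (abs_le.1 hE).1 (abs_le.1 hE).2
  have h3 : |M * E| ≤ H * B := by
    rw [abs_mul]; exact mul_le_mul hM hE (abs_nonneg _) ((abs_nonneg _).trans hM)
  have h4 : |M * J| ≤ H * Jl := by
    rw [abs_mul]; exact mul_le_mul hM hJ (abs_nonneg _) ((abs_nonneg _).trans hM)
  nlinarith [(abs_le.1 h3).2, (abs_le.1 h4).1, sq_nonneg J]

variable (L : Lat) (y : L.P) (i : Fin 2)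

def uq (m : ℕ) (q : L.P) : ℂ := L.U m i q.1 * conj (L.U m i y.1)
def ta (m : ℕ) (q : L.P) : ℝ := 2 ^ m * (uq L y i m q).im
def ra (m : ℕ) (q : L.P) : ℝ := 2 ^ m * ((uq L y i m q).re - 1)
def ww (q : L.P) : ℝ := √√(L.r2 y q)

lemma unit (m : ℕ) (x : L.X) : (L.U m i x).re ^ 2 + (L.U m i x).im ^ 2 = 1 := by
  have := Complex.sq_norm (L.U m i x)
  rw [L.norm_U, normSq_apply] at this; linarith

lemma uq_unit (m : ℕ) (q : L.P) : (uq L y i m q).re ^ 2 + (uq L y i m q).im ^ 2 = 1 := by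
  have h1 := unit L i m q.1
  have h2 := unit L i m y.1
  simp only [uq, mul_re, mul_im, conj_re, conj_im]
  linear_combination ((L.U m i y.1).re ^ 2 + (L.U m i y.1).im ^ 2) * h1 + h2

lemma del_eq (m : ℕ) (q : L.P) : L.del m i y.1 q.1 = 2 - 2 * (uq L y i m q).re := by
  have h1 := unit L i m q.1
  have h2 := unit L i m y.1
  simp only [Lat.del, Complex.sq_norm, normSq_apply, uq, mul_re, conj_re, conj_im, sub_re, sub_im]
  linear_combination h1 + h2

lemma ww_pow (q : L.P) : ww L y q ^ 4 = L.r2 y q := by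
  rw [show 4 = 2 * 2 from rfl, pow_mul, ww, Real.sq_sqrt (Real.sqrt_nonneg _)]
  exact Real.sq_sqrt (L.rho2_nonneg _ y q)

lemma del_le {m : ℕ} (hm : m ≤ L.N) (q : L.P) :
    4 ^ m * (2 - 2 * (uq L y i m q).re) ≤ ww L y q ^ 4 := by
  rw [ww_pow, ← del_eq]
  refine le_trans ?_ (L.rho2_le_r2 hm y q)
  exact mul_le_mul_of_nonneg_left
    (single_le_sum (f := fun i => L.del m i y.1 q.1) (fun _ _ => sq_nonneg _) (mem_univ i))
    (by positivity)

lemma four_pow (m : ℕ) : ((2 : ℝ) ^ m) ^ 2 = 4 ^ m := by rw [← pow_mul, mul_comm, pow_mul]; norm_num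

lemma ta_le {m : ℕ} (hm : m ≤ L.N) (q : L.P) : |ta L y i m q| ≤ ww L y q ^ 2 := by
  refine abs_le.2 (abs_le_of_sq_le_sq' ?_ (sq_nonneg _))
  have h1 := del_le L y i hm q
  have h2 := uq_unit L y i m q
  have h3 : (uq L y i m q).im ^ 2 ≤ 2 - 2 * (uq L y i m q).re := by
    nlinarith [sq_nonneg ((uq L y i m q).re - 1)]
  rw [ta, mul_pow, four_pow]
  nlinarith [mul_le_mul_of_nonneg_left h3 (by positivity : (0 : ℝ) ≤ 4 ^ m)]

lemma re_le (m : ℕ) (q : L.P) : -1 ≤ (uq L y i m q).re ∧ (uq L y i m q).re ≤ 1 :=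
  abs_le_of_sq_le_sq' (by nlinarith [uq_unit L y i m q, sq_nonneg (uq L y i m q).im]) zero_le_one

lemma ta_sub {m : ℕ} (q : L.P) {n : ℕ} (hmn : m ≤ n) (hn : n ≤ L.N) :
    |ta L y i m q - ta L y i n q| ≤ ww L y q ^ 6 * (1 / 4 ^ m - 1 / 4 ^ n) := by
  induction n, hmn using Nat.le_induction with
  | base => simp
  | succ n hmn ih =>
    have h0 := ih (by omega)
    have e : uq L y i n q = uq L y i (n + 1) q ^ 2 := by
      rw [uq, uq, L.U_succ n i q.1 (by omega), L.U_succ n i y.1 (by omega), map_pow, mul_pow]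
    have e2 : ta L y i n q - ta L y i (n + 1) q =
        -(ta L y i (n + 1) q * (1 - (uq L y i (n + 1) q).re)) := by
      simp only [ta, e, sq, mul_im]; ring
    have h1 : 1 - (uq L y i (n + 1) q).re ≤ ww L y q ^ 4 * (1 / 4 ^ n - 1 / 4 ^ (n + 1)) := by
      have := del_le L y i hn q
      have h2 : (1 : ℝ) / 4 ^ n - 1 / 4 ^ (n + 1) = 3 / 4 ^ (n + 1) := by field_simp; ring
      rw [h2, ← mul_div_assoc, le_div_iff₀ (by positivity)]
      have : 0 ≤ ww L y q ^ 4 := pow_nonneg (Real.sqrt_nonneg _) 4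
      linarith
    have h2 : |ta L y i n q - ta L y i (n + 1) q| ≤
        ww L y q ^ 2 * (ww L y q ^ 4 * (1 / 4 ^ n - 1 / 4 ^ (n + 1))) := by
      have h3 : 0 ≤ 1 - (uq L y i (n + 1) q).re := by linarith [(re_le L y i (n + 1) q).2]
      rw [e2, abs_neg, abs_mul, abs_of_nonneg h3]
      exact mul_le_mul (ta_le L y i hn q) h1 h3 (sq_nonneg _)
    have := abs_sub_le (ta L y i m q) (ta L y i n q) (ta L y i (n + 1) q)
    linarith

lemma mv_sq (K : L.Mat) (m : ℕ) : ∑ b, mv (L.Phi m (i, b)) K y ^ 2 =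
    (∑ q, cc K y q * ra L y i m q) ^ 2 + (∑ q, cc K y q * ta L y i m q) ^ 2 := by
  have h := unit L i m y.1
  have e1 : ∑ q, cc K y q * ra L y i m q = mv (L.Phi m (i, true)) K y * (L.U m i y.1).re +
      mv (L.Phi m (i, false)) K y * (L.U m i y.1).im := by
    simp only [mv, sum_mul, ← sum_add_distrib]
    refine sum_congr rfl fun q _ => ?_
    simp only [ra, uq, Lat.Phi, mul_re, conj_re, conj_im, if_true, Bool.false_eq_true, if_false]
    linear_combination (cc K y q * 2 ^ m) * h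
  have e2 : ∑ q, cc K y q * ta L y i m q = mv (L.Phi m (i, false)) K y * (L.U m i y.1).re -
      mv (L.Phi m (i, true)) K y * (L.U m i y.1).im := by
    simp only [mv, sum_mul, ← sum_sub_distrib]
    refine sum_congr rfl fun q _ => ?_
    simp only [ta, uq, Lat.Phi, mul_im, conj_re, conj_im, if_true, Bool.false_eq_true, if_false]
    ring
  rw [Fintype.sum_bool, e1, e2]
  linear_combination (-(mv (L.Phi m (i, true)) K y ^ 2 + mv (L.Phi m (i, false)) K y ^ 2)) * h

lemma one_scale (K : L.Mat) {m : ℕ} (hm : m ≤ L.N) : Gn (L.Phi m) K y - L.GN K y ≤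
    144 * (∑ q, cc K y q * GG (cc K y) (ww L y) q * ps √(2 ^ m) (ww L y q)) / nu K y := by
  rw [Lat.GN, Gn, Gn, ← sub_div]
  refine div_le_div_of_nonneg_right ?_ ((dd_nonneg K y).trans (dd_le_nu K y))
  have hl : 0 < √((2 : ℝ) ^ m) := Real.sqrt_pos.2 (by positivity)
  have l2 : √((2 : ℝ) ^ m) ^ 2 = 2 ^ m := Real.sq_sqrt (by positivity)
  have l4 : √((2 : ℝ) ^ m) ^ 4 = 4 ^ m := by
    rw [show 4 = 2 * 2 from rfl, pow_mul, l2, four_pow]
  have h2 : (0 : ℝ) < 2 ^ m := by positivity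
  have key : ∀ i, ∑ b, mv (L.Phi m (i, b)) K y ^ 2 - ∑ b, mv (L.Phi L.N (i, b)) K y ^ 2 ≤
      72 * ∑ q, cc K y q * GG (cc K y) (ww L y) q * ps √(2 ^ m) (ww L y q) := fun i => by
    have := quad (a := ra L y i m) (τ := ta L y i m) (σ := ta L y i L.N) (w := ww L y) hl
      (cc_nonneg K y) (fun q => Real.sqrt_nonneg _)
      (fun q => by
        have h1 := re_le L y i m q
        have h3 := del_le L y i hm q
        rw [ra, abs_mul, abs_of_pos h2, abs_sub_comm, abs_of_nonneg (by linarith), bb, l2]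
        split_ifs
        · rw [← mul_div_assoc, le_div_iff₀ h2]
          rw [← four_pow] at h3
          nlinarith [mul_nonneg (sq_nonneg ((2 : ℝ) ^ m)) (sub_nonneg.2 h1.2)]
        · nlinarith)
      (fun q => by
        have : |(uq L y i m q).im| ≤ 1 := abs_le.2 (abs_le_of_sq_le_sq'
          (by nlinarith [uq_unit L y i m q, sq_nonneg (uq L y i m q).re]) zero_le_one)
        rw [ta, abs_mul, abs_of_pos h2, l2]
        nlinarith)
      (ta_le L y i le_rfl)
      (fun q => by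
        refine (ta_sub L y i q hm le_rfl).trans ?_
        rw [l4, div_eq_mul_one_div (ww L y q ^ 6)]
        have : 0 ≤ ww L y q := Real.sqrt_nonneg _
        gcongr
        exact sub_le_self _ (by positivity))
    rw [mv_sq, mv_sq]
    linarith [sq_nonneg (∑ q, cc K y q * ra L y i L.N q)]
  rw [Fintype.sum_prod_type, Fintype.sum_prod_type, Fin.sum_univ_two, Fin.sum_univ_two]
  linarith [key 0, key 1]

lemma young {ε t w : ℝ} (hε : 0 < ε) (ht : 0 ≤ t) (hw : 0 < w) :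
    w ^ 3 * t ≤ w ^ 4 * (ε + (t ^ 4 / w ^ 4) ^ 2 / ε ^ 7) := by
  obtain ⟨s, rfl⟩ : ∃ s, t = s * w := ⟨t / w, by field_simp⟩
  have hs : 0 ≤ s := nonneg_of_mul_nonneg_left ht hw
  have e : ((s * w) ^ 4 / w ^ 4) ^ 2 = s ^ 8 := by field_simp
  have : s ≤ ε + s ^ 8 / ε ^ 7 := by
    rcases le_total s ε with h | h
    · exact le_add_of_le_of_nonneg h (by positivity)
    · refine le_add_of_nonneg_of_le hε.le ?_
      rw [le_div_iff₀ (by positivity), show s ^ 8 = s * s ^ 7 by ring]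
      gcongr
  rw [e]
  nlinarith [mul_le_mul_of_nonneg_left this (by positivity : 0 ≤ w ^ 4)]

lemma GG_le {c : ℝ} (hc : 0 < c) (hwh : ∀ (m : ℕ) (p q : L.P), m < L.N →
      L.r2 p q ≤ 128 * 4 ^ m → c * (L.r2 p q / 4 ^ m) ^ 2 ≤ L.wh m p q)
    (K : L.Mat) (i1 : ℝ) (q : L.P) : GG (cc K y) (ww L y) q ≤ dd K y *
      ((∑ m ∈ range L.N, if Real.exp (-i1) ≤ L.th K y m then 4 ^ m * L.wh m y q else 0) / c +
        (1 + 1 / c) * Real.exp (-i1 / 8) * L.r2 y q) := by
  have hw : ∀ q, 0 ≤ ww L y q := fun q => Real.sqrt_nonneg _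
  have hr : ∀ q, 0 ≤ L.r2 y q := fun q => L.rho2_nonneg _ y q
  have hd := dd_nonneg K y
  have hS : ∀ m ∈ range L.N, 0 ≤ if Real.exp (-i1) ≤ L.th K y m then 4 ^ m * L.wh m y q else 0 :=
    fun m _ => by have := L.wh_nonneg m y q; split_ifs <;> positivity
  have hS0 := sum_nonneg hS
  have hrq := hr q
  rcases (hw q).eq_or_lt with h0 | h0
  · have : GG (cc K y) (ww L y) q = 0 := by simp [GG, ← h0]
    rw [this]; positivity
  have h16 : 16 ≤ L.r2 y q := (L.r2_gap y q).resolve_left (by rw [← ww_pow]; positivity)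
  have h8 : L.r2 y q ≤ 8 * 4 ^ L.N := L.rho2_le_pow L.N y q
  obtain ⟨s1, s2⟩ := L.sc_spec (x := L.r2 y q) (by linarith)
    (by linarith [show (0 : ℝ) ≤ 4 ^ L.N by positivity])
  have hm := L.sc_lt (L.r2 y q)
  generalize L.sc (L.r2 y q) = m at *
  have h4 : (0 : ℝ) < 4 ^ m := by positivity
  by_cases hth : Real.exp (-i1) ≤ L.th K y m
  · have h1 : GG (cc K y) (ww L y) q ≤ dd K y * L.r2 y q := by
      rw [GG, dd, sum_mul, ← ww_pow]
      refine sum_le_sum fun q' _ => ?_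
      have := cc_nonneg K y q'
      split_ifs with h
      · rw [show ww L y q ^ 4 = ww L y q ^ 3 * ww L y q by ring]; gcongr
      · positivity
    have h2 := single_le_sum hS (mem_range.2 hm)
    simp only [hth, if_true] at h2
    have h3 := hwh m y q hm s2
    have h5 : 1 ≤ L.r2 y q / 4 ^ m := (one_le_div h4).2 s1
    have h6 : L.r2 y q * c ≤ 4 ^ m * L.wh m y q := by
      have : c * (L.r2 y q / 4 ^ m) ≤ L.wh m y q :=
        le_trans (mul_le_mul_of_nonneg_left (by nlinarith) hc.le) h3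
      rw [← mul_div_assoc, div_le_iff₀ h4] at this; linarith
    refine h1.trans (mul_le_mul_of_nonneg_left (le_add_of_le_of_nonneg ?_ (by positivity)) hd)
    rw [le_div_iff₀ hc]; linarith
  · have hε := Real.exp_pos (-i1 / 8)
    have e8 : Real.exp (-i1) = Real.exp (-i1 / 8) ^ 8 := by
      rw [← Real.exp_nat_mul]; congr 1; push_cast; ring
    rw [e8] at hth
    generalize Real.exp (-i1 / 8) = ε at *
    have h1 : GG (cc K y) (ww L y) q ≤
        ∑ q', L.r2 y q * (ε * cc K y q' + cc K y q' * L.wh m y q' / (c * ε ^ 7)) := by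
      refine sum_le_sum fun q' _ => ?_
      have := cc_nonneg K y q'
      have := L.wh_nonneg m y q'
      split_ifs with h
      · have h2 := young hε (hw q') h0
        have h3 : L.r2 y q' ≤ L.r2 y q := by
          rw [← ww_pow, ← ww_pow]; exact pow_le_pow_left₀ (hw q') h 4
        have h5 := hwh m y q' hm (h3.trans s2)
        have h6 : (L.r2 y q' / L.r2 y q) ^ 2 ≤ L.wh m y q' / c := by
          rw [le_div_iff₀ hc, mul_comm]
          refine le_trans ?_ h5
          have := hr q'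
          gcongr
        rw [ww_pow, ww_pow] at h2
        calc _ ≤ cc K y q' * (L.r2 y q * (ε + L.wh m y q' / c / ε ^ 7)) :=
              mul_le_mul_of_nonneg_left (h2.trans (by gcongr)) ‹_›
          _ = _ := by field_simp
      · positivity
    rw [← mul_sum, sum_add_distrib, ← mul_sum, ← sum_div] at h1
    have h2 : ∑ q', cc K y q' * L.wh m y q' ≤ ε ^ 8 * dd K y :=
      (L.th_mul K y m).ge.trans (mul_le_mul_of_nonneg_right (not_le.1 hth).le hd)
    refine h1.trans (le_trans ?_ (mul_le_mul_of_nonneg_left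
      (le_add_of_nonneg_left (by positivity)) hd))
    calc _ ≤ L.r2 y q * (ε * dd K y + ε ^ 8 * dd K y / (c * ε ^ 7)) := by gcongr; rfl
      _ = _ := by field_simp

end DA

open DA in
theorem driftA : ∃ C : ℝ, 0 < C ∧ ∀ (L : Lat) (K : L.Mat), IsPort K →
    ∀ (y : L.P) (m0 m1 : ℕ) (i1 : ℝ), m1 ≤ L.N → 0 ≤ i1 →
    ∑ m ∈ Ico m0 m1, (Gn (L.Phi m) K y - L.GN K y) ≤
      C * L.Sh i1 K y + C * Real.exp (-i1 / 8) * Gam L.r2 K y := by
  obtain ⟨c, hc, hwh⟩ := wh_ge
  refine ⟨576 * (1 + 1 / c), by positivity, fun L K _ y m0 m1 i1 hm _ => ?_⟩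
  have hw : ∀ q, 0 ≤ ww L y q := fun q => Real.sqrt_nonneg _
  have hd := dd_nonneg K y
  have hν := hd.trans (dd_le_nu K y)
  have hG : ∀ q, 0 ≤ cc K y q * GG (cc K y) (ww L y) q := fun q =>
    mul_nonneg (cc_nonneg K y q) (sum_nonneg fun q' _ => by
      have := cc_nonneg K y q'; have := hw q; have := hw q'; split_ifs <;> positivity)
  have h1 : ∑ m ∈ Ico m0 m1, ∑ q, cc K y q * GG (cc K y) (ww L y) q * ps √(2 ^ m) (ww L y q) ≤
      4 * ∑ q, cc K y q * GG (cc K y) (ww L y) q := by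
    rw [sum_comm, mul_sum]
    refine sum_le_sum fun q _ => ?_
    rw [← mul_sum, mul_comm 4]
    refine mul_le_mul_of_nonneg_left (le_trans (sum_le_sum_of_subset_of_nonneg
      (fun m h => mem_range.2 (mem_Ico.1 h).2) fun m _ _ =>
        ps_nonneg (Real.sqrt_pos.2 (by positivity)) (hw q)) (sum_ps (hw q) m1)) (hG q)
  have hSh : 0 ≤ L.Sh i1 K y := sum_nonneg fun m _ => by
    have : 0 ≤ L.nn K y m := Gam_nonneg (L.wh_nonneg m) K y
    split_ifs <;> positivity
  have hΓ : 0 ≤ Gam L.r2 K y := Gam_nonneg (L.rho2_nonneg _) K y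
  have h2 : ∑ q, cc K y q * GG (cc K y) (ww L y) q ≤
      dd K y * (L.Sh i1 K y / c + (1 + 1 / c) * Real.exp (-i1 / 8) * Gam L.r2 K y) := by
    refine (sum_le_sum fun q _ => mul_le_mul_of_nonneg_left
      (GG_le L y hc (hwh L) K i1 q) (cc_nonneg K y q)).trans (le_of_eq ?_)
    have e : L.Sh i1 K y = ∑ q, cc K y q *
        ∑ m ∈ range L.N, if Real.exp (-i1) ≤ L.th K y m then 4 ^ m * L.wh m y q else 0 := by
      simp only [mul_sum]
      rw [sum_comm]
      refine sum_congr rfl fun m _ => ?_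
      split_ifs
      · rw [Lat.nn, Gam, mul_sum]; exact sum_congr rfl fun q _ => by ring
      · simp
    rw [e, Gam, sum_div, mul_sum (a := _ * Real.exp _), ← sum_add_distrib, mul_sum (a := dd K y)]
    exact sum_congr rfl fun q _ => by ring
  refine (sum_le_sum fun m h => one_scale L y K ((mem_Ico.1 h).2.le.trans hm)).trans ?_
  rw [← sum_div, ← mul_sum]
  have hX : 0 ≤ L.Sh i1 K y / c + (1 + 1 / c) * Real.exp (-i1 / 8) * Gam L.r2 K y := by positivity
  have h3 := mul_le_mul_of_nonneg_right (dd_le_nu K y) hX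
  refine (div_le_of_le_mul₀ hν (c := 576 * (L.Sh i1 K y / c +
    (1 + 1 / c) * Real.exp (-i1 / 8) * Gam L.r2 K y)) (by positivity) (by linarith)).trans ?_
  have : L.Sh i1 K y / c ≤ (1 + 1 / c) * L.Sh i1 K y := by
    rw [div_eq_mul_one_div]; linarith
  linarith

end Crest.Agent.N334.G
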