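import Crest.Agent.N334.G.Law

/-!
# Row 334, S0519 GAIN: the arc lemmas
-/

set_option autoImplicit false

open MeasureTheory Finset Complex
open scoped BigOperators ComplexConjugate

noncomputable section

namespace Crest.Agent.N334.G

namespace ArcAux

theorem den_pos (t : ℝ) : 0 < 1 + t ^ 2 := by positivity

theorem sub_I_ne (t : ℝ) : (t : ℂ) - I ≠ 0 := by
  intro h
  have := congrArg Complex.im h
  simp at this

theorem uu_re (t : ℝ) : (uu t).re = t / (1 + t ^ 2) := by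
  have := den_pos t
  simp [uu, Complex.normSq_apply]
  field_simp
  ring

theorem uu_im (t : ℝ) : (uu t).im = 1 / (1 + t ^ 2) := by
  have := den_pos t
  simp [uu, Complex.normSq_apply]
  field_simp
  ring

theorem nsq (z : ℂ) : ‖z‖ ^ 2 = z.re ^ 2 + z.im ^ 2 := by
  rw [Complex.sq_norm, Complex.normSq_apply]; ring

theorem continuous_uu : Continuous uu :=
  continuous_const.div (by fun_prop) sub_I_ne

end ArcAux
open ArcAux

theorem uu_normSq (t : ℝ) : ‖uu t‖ ^ 2 = 1 / (1 + t ^ 2) ∧ (uu t).im = 1 / (1 + t ^ 2) ∧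
    (uu t).re = t / (1 + t ^ 2) := by
  refine ⟨?_, uu_im t, uu_re t⟩
  have := den_pos t
  rw [nsq, uu_re, uu_im]
  field_simp
  ring

theorem ArcAux.circ (t : ℝ) : ‖uu t - I / 2‖ ^ 2 = 1 / 4 := by
  have := den_pos t
  rw [nsq]
  simp [uu_re, uu_im]
  field_simp
  ring

theorem IsAff.le_two {q : ℝ → ℝ} {qb : ℝ} (h : IsAff q qb) (h0 : ∀ t, 0 ≤ q t) :
    0 ≤ qb ∧ (∀ t, q t ≤ 2 * qb) ∧ ∃ u0 : ℂ, ∀ t, qb * ‖uu t - u0‖ ^ 2 ≤ q t := by
  obtain ⟨β, hβ⟩ := h
  have key : ∀ t : ℝ, 0 ≤ (qb + β.im / 2) * (t * t) + β.re * t + (qb - β.im / 2) := by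
    intro t
    have hd := den_pos t
    have h1 := mul_nonneg (h0 t) hd.le
    have h2 : q t * (1 + t ^ 2) = (qb + β.im / 2) * (t * t) + β.re * t + (qb - β.im / 2) := by
      rw [hβ t]
      simp [uu_re, uu_im]
      field_simp
      ring
    linarith
  have hq : 0 ≤ qb := by have := key 1; have := key (-1); linarith
  have hdisc : discrim (qb + β.im / 2) β.re (qb - β.im / 2) ≤ 0 := discrim_le_zero key
  have hb : ‖β‖ ^ 2 ≤ (2 * qb) ^ 2 := by
    rw [nsq]; unfold discrim at hdisc; nlinarith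
  have hb' : ‖β‖ ≤ 2 * qb := by
    exact le_of_sq_le_sq hb (by linarith)
  have hc : ∀ t, ‖uu t - I / 2‖ = 1 / 2 := fun t => by
    have := ArcAux.circ t
    nlinarith [norm_nonneg (uu t - I / 2)]
  refine ⟨hq, fun t => ?_, ?_⟩
  · have h1 : (β * (uu t - I / 2)).re ≤ ‖β‖ * (1 / 2) := by
      rw [← hc t, ← norm_mul]; exact Complex.re_le_norm _
    rw [hβ t]; linarith
  · rcases hq.eq_or_lt with h | h
    · exact ⟨0, fun t => by rw [← h, zero_mul]; exact h0 t⟩
    refine ⟨I / 2 - conj β / (4 * qb : ℝ), fun t => ?_⟩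
    have h1 : uu t - (I / 2 - conj β / (4 * qb : ℝ)) =
        (uu t - I / 2) + conj β / (4 * qb : ℝ) := by ring
    have h2 := ArcAux.circ t
    have h3 := h0 t
    rw [h1]
    rw [hβ t] at h3 ⊢
    generalize uu t - I / 2 = w at h2 h3 ⊢
    rw [nsq] at h2 hb ⊢
    simp only [Complex.add_re, Complex.add_im, Complex.div_ofReal_re, Complex.div_ofReal_im,
      Complex.conj_re, Complex.conj_im, Complex.mul_re] at h3 ⊢
    have e : qb * ((w.re + β.re / (4 * qb)) ^ 2 + (w.im + -β.im / (4 * qb)) ^ 2) =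
        qb * (w.re ^ 2 + w.im ^ 2) + (β.re * w.re - β.im * w.im) / 2 +
          (β.re ^ 2 + β.im ^ 2) / (16 * qb) := by
      field_simp; ring
    have e2 : (β.re ^ 2 + β.im ^ 2) / (16 * qb) ≤ qb / 4 := by
      rw [div_le_iff₀ (by positivity)]; nlinarith
    rw [e, h2]; linarith

theorem IsAff.add {q q' : ℝ → ℝ} {qb qb' : ℝ} (h : IsAff q qb) (h' : IsAff q' qb') :
    IsAff (fun t => q t + q' t) (qb + qb') := by
  obtain ⟨β, hβ⟩ := h
  obtain ⟨β', hβ'⟩ := h'
  refine ⟨β + β', fun t => ?_⟩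
  simp only [hβ, hβ', add_mul, Complex.add_re]; ring
theorem IsAff.smul {q : ℝ → ℝ} {qb : ℝ} (h : IsAff q qb) (r : ℝ) :
    IsAff (fun t => r * q t) (r * qb) := by
  obtain ⟨β, hβ⟩ := h
  refine ⟨r * β, fun t => ?_⟩
  simp only [hβ, mul_assoc, Complex.re_ofReal_mul]; ring
theorem IsAff.const (r : ℝ) : IsAff (fun _ => r) r := ⟨0, fun t => by simp⟩
/-- `‖k + u w‖²` is affine on the circle, with mean at least `‖w‖²/4` -/
theorem isAff_normSq (k w : ℂ) :
    IsAff (fun t => ‖k + uu t * w‖ ^ 2) (‖k + I / 2 * w‖ ^ 2 + ‖w‖ ^ 2 / 4) := by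
  refine ⟨2 * conj (k + I / 2 * w) * w, fun t => ?_⟩
  have h1 : k + uu t * w = (k + I / 2 * w) + (uu t - I / 2) * w := by ring
  have h2 := ArcAux.circ t
  show ‖k + uu t * w‖ ^ 2 = _
  rw [h1]
  generalize uu t - I / 2 = v at h2 ⊢
  generalize k + I / 2 * w = m
  simp only [nsq] at h2 ⊢
  simp only [Complex.add_re, Complex.add_im, Complex.mul_re, Complex.mul_im, Complex.conj_re,
    Complex.conj_im, Complex.re_ofNat, Complex.im_ofNat]
  linear_combination (w.re ^ 2 + w.im ^ 2) * h2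

theorem ArcAux.uu_sub (t t' : ℝ) (ht : t ∈ Set.Icc (-1 : ℝ) 1) (ht' : t' ∈ Set.Icc (-1 : ℝ) 1) :
    |t - t'| ≤ 2 * ‖uu t - uu t'‖ := by
  have h1 : uu t - uu t' = ((t' - t : ℝ) : ℂ) * uu t * uu t' := by
    have := sub_I_ne t
    have := sub_I_ne t'
    unfold uu; push_cast; field_simp; ring
  have h2 : ∀ s ∈ Set.Icc (-1 : ℝ) 1, 1 / 2 ≤ ‖uu s‖ ^ 2 := fun s hs => by
    rw [(uu_normSq s).1]
    apply one_div_le_one_div_of_le (den_pos s)
    nlinarith [hs.1, hs.2]
  have h3 : 1 / 2 ≤ ‖uu t‖ * ‖uu t'‖ := by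
    apply le_of_sq_le_sq _ (by positivity)
    have := mul_le_mul (h2 t ht) (h2 t' ht') (by norm_num) (by positivity)
    nlinarith
  rw [h1, norm_mul, norm_mul, Complex.norm_real, Real.norm_eq_abs, abs_sub_comm t']
  nlinarith [abs_nonneg (t - t')]

/-- short arcs -/
theorem arc_small : ∃ C : ℝ, 0 < C ∧ ∀ (u0 : ℂ) (l : ℝ), 0 < l →
    (volume ({t | ‖uu t - u0‖ ≤ l} ∩ Set.Icc (-1 : ℝ) 1)).toReal ≤ C * l := by
  refine ⟨8, by norm_num, fun u0 l hl => ?_⟩
  rcases ({t | ‖uu t - u0‖ ≤ l} ∩ Set.Icc (-1 : ℝ) 1).eq_empty_or_nonempty with h | ⟨t0, h0, h0'⟩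
  · rw [h]; simp; positivity
  have hs : {t | ‖uu t - u0‖ ≤ l} ∩ Set.Icc (-1 : ℝ) 1 ⊆ Set.Icc (t0 - 4 * l) (t0 + 4 * l) := by
    rintro t ⟨h1, h1'⟩
    have h2 := ArcAux.uu_sub t t0 h1' h0'
    have h3 : ‖uu t - uu t0‖ ≤ ‖uu t - u0‖ + ‖uu t0 - u0‖ := by
      have := norm_sub_le (uu t - u0) (uu t0 - u0)
      rwa [sub_sub_sub_cancel_right] at this
    have h4 : ‖uu t - u0‖ ≤ l := h1
    have h5 : ‖uu t0 - u0‖ ≤ l := h0
    have := abs_le.1 (show |t - t0| ≤ 4 * l by linarith)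
    constructor <;> linarith [this.1, this.2]
  have h2 := measure_mono (μ := volume) hs
  rw [Real.volume_Icc] at h2
  have h3 := ENNReal.toReal_mono ENNReal.ofReal_ne_top h2
  rw [ENNReal.toReal_ofReal (by linarith)] at h3
  linarith

namespace ArcAux

def hs (s : ℝ) : ℝ := (Metric.ball (0 : ℝ) 3).indicator (fun x => ‖x‖ ^ (-(1 / 2 : ℝ))) s

theorem hs_int : Integrable hs := by
  unfold hs
  rw [integrable_indicator_iff Metric.isOpen_ball.measurableSet]
  refine integrableOn_ball_of_norm_le_rpow (C := 1) (α := 1 / 2) (by simp) (by simp; norm_num)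
    (ae_of_all _ fun x => ?_) (Measurable.aestronglyMeasurable (by fun_prop))
  rw [one_mul, Real.norm_of_nonneg (by positivity)]

theorem hs_nonneg (s : ℝ) : 0 ≤ hs s :=
  Set.indicator_nonneg (fun x _ => by positivity) s

theorem core (u0 : ℂ) (g : ℝ → ℝ) {B : ℝ} (hB : 0 ≤ B) (h0 : ∀ t, 0 ≤ g t) {S : Set ℝ}
    (hS : MeasurableSet S) (hS1 : S ⊆ Set.Icc (-1 : ℝ) 1)
    (hg : ∀ t ∈ S, g t ^ 2 * ‖uu t - u0‖ ≤ B ^ 2) :
    ∫ t in S, g t ≤ 2 * (∫ s, hs s) * B := by
  obtain ⟨t0, ht0, hmin⟩ := (isCompact_Icc (a := (-1 : ℝ)) (b := 1)).exists_isMinOn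
    ⟨0, by simp⟩ (f := fun t => ‖uu t - u0‖)
    ((continuous_uu.sub continuous_const).norm.continuousOn)
  rw [← integral_indicator hS]
  have hi : Integrable fun t => 2 * B * hs (t - t0) := (hs_int.comp_sub_right t0).const_mul _
  refine (integral_mono_of_nonneg (ae_of_all _ fun t => Set.indicator_nonneg (fun x _ => h0 x) t)
    hi ?_).trans (le_of_eq ?_)
  · filter_upwards [compl_mem_ae_iff.2 (measure_singleton t0)] with t ht
    by_cases htS : t ∈ S
    · rw [Set.indicator_of_mem htS]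
      have hr : 0 < |t - t0| := abs_pos.2 (sub_ne_zero.2 ht)
      have h1 := ArcAux.uu_sub t t0 (hS1 htS) ht0
      have h2 : ‖uu t0 - u0‖ ≤ ‖uu t - u0‖ := hmin (hS1 htS)
      have h3 : ‖uu t - uu t0‖ ≤ ‖uu t - u0‖ + ‖uu t0 - u0‖ := by
        have := norm_sub_le (uu t - u0) (uu t0 - u0)
        rwa [sub_sub_sub_cancel_right] at this
      have h4 : g t ^ 2 * |t - t0| ≤ 4 * B ^ 2 := by
        have := hg t htS
        nlinarith [sq_nonneg (g t)]
      have h5 : t - t0 ∈ Metric.ball (0 : ℝ) 3 := by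
        rw [mem_ball_zero_iff, Real.norm_eq_abs, abs_lt]
        have := hS1 htS
        constructor <;> linarith [this.1, this.2, ht0.1, ht0.2]
      unfold hs
      rw [Set.indicator_of_mem h5, Real.norm_eq_abs]
      refine le_of_sq_le_sq ?_ (by positivity)
      have h6 : (|t - t0| ^ (-(1 / 2 : ℝ))) ^ 2 = |t - t0|⁻¹ := by
        rw [← Real.rpow_natCast, ← Real.rpow_mul hr.le, ← Real.rpow_neg_one]; norm_num
      rw [mul_pow, h6, ← div_eq_mul_inv, le_div_iff₀ hr]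
      linarith
    · rw [Set.indicator_of_notMem htS]
      exact mul_nonneg (by positivity) (hs_nonneg _)
  · rw [integral_const_mul, integral_sub_right_eq_self]; ring

theorem uu_inv {t : ℝ} (ht : t ≠ 0) : uu (-t⁻¹) = I - uu t := by
  have h1 := sub_I_ne t
  have h2 := sub_I_ne (-t⁻¹)
  have h3 : (t : ℂ) ≠ 0 := by exact_mod_cast ht
  unfold uu
  rw [div_eq_iff h2]
  push_cast
  field_simp
  linear_combination ((t : ℂ) ^ 2 - t * I - 1) * I_mul_I

theorem image_inv : (fun t : ℝ => -t⁻¹) '' (Set.Ioo (-1) 1 \ {0}) = (Set.Icc (-1 : ℝ) 1)ᶜ := by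
  ext x
  simp only [Set.mem_image, Set.mem_sdiff, Set.mem_Ioo, Set.mem_singleton_iff, Set.mem_compl_iff,
    Set.mem_Icc, ← abs_lt, ← abs_le, not_le]
  constructor
  · rintro ⟨t, ⟨h1, h2⟩, rfl⟩
    rw [abs_neg, abs_inv]
    exact (one_lt_inv₀ (abs_pos.2 h2)).2 h1
  · intro h
    have hx : x ≠ 0 := by rintro rfl; norm_num at h
    refine ⟨-x⁻¹, ⟨?_, by simpa using hx⟩, by simp⟩
    rw [abs_neg, abs_inv]
    exact inv_lt_one_of_one_lt₀ h

theorem bm_int {f : ℝ → ℝ} (hf : BM f) : Integrable fun t => f t / (1 + t ^ 2) := by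
  obtain ⟨M, hM⟩ := hf.bdd
  simp only [div_eq_mul_inv]
  exact integrable_inv_one_add_sq.bdd_mul hf.meas.aestronglyMeasurable (ae_of_all _ hM)

end ArcAux

/-- `|u - u0|^{-1/2}` is integrable for the arc measure -/
theorem arc_sing : ∃ C : ℝ, 0 < C ∧ ∀ (u0 : ℂ) (f : ℝ → ℝ) (B : ℝ), BM f → 0 ≤ B → (∀ t, 0 ≤ f t) →
    (∀ t, f t ^ 2 * ‖uu t - u0‖ ≤ B ^ 2) → ∫ t, f t / (1 + t ^ 2) ≤ C * B := by
  have hC : 0 ≤ ∫ s, hs s := integral_nonneg hs_nonneg
  refine ⟨4 * (∫ s, hs s) + 1, by positivity, fun u0 f B hf hB h0 hb => ?_⟩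
  have aux : ∀ (x n t : ℝ), 0 ≤ n → x ^ 2 * n ≤ B ^ 2 → (x / (1 + t ^ 2)) ^ 2 * n ≤ B ^ 2 := by
    intro x n t hn h
    refine le_trans (mul_le_mul_of_nonneg_right ?_ hn) h
    rw [div_pow]
    exact div_le_self (sq_nonneg _) (one_le_pow₀ (by nlinarith [sq_nonneg t]))
  rw [← integral_add_compl (s := Set.Icc (-1 : ℝ) 1) measurableSet_Icc (bm_int hf)]
  have h1 := core u0 (fun t => f t / (1 + t ^ 2)) hB (fun t => div_nonneg (h0 t) (den_pos t).le)
    measurableSet_Icc subset_rfl fun t _ => aux _ _ _ (norm_nonneg _) (hb t)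
  have hm : MeasurableSet (Set.Ioo (-1 : ℝ) 1 \ {0}) :=
    measurableSet_Ioo.diff (measurableSet_singleton _)
  have h2 := core (I - u0) (fun t => f (-t⁻¹) / (1 + t ^ 2)) hB
    (fun t => div_nonneg (h0 _) (den_pos t).le) hm
    (fun t ht => Set.Ioo_subset_Icc_self ht.1) fun t ht => aux _ _ _ (norm_nonneg _) (by
      have := hb (-t⁻¹)
      rw [uu_inv ht.2] at this
      rwa [← norm_neg, show -(uu t - (I - u0)) = I - uu t - u0 by ring])
  have h3 : ∫ t in (Set.Icc (-1 : ℝ) 1)ᶜ, f t / (1 + t ^ 2) =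
      ∫ t in Set.Ioo (-1 : ℝ) 1 \ {0}, f (-t⁻¹) / (1 + t ^ 2) := by
    rw [← image_inv, integral_image_eq_integral_abs_deriv_smul hm (f' := fun t => (t ^ 2)⁻¹)]
    · refine setIntegral_congr_fun hm fun t ht => ?_
      have ht0 : t ≠ 0 := ht.2
      simp only [smul_eq_mul]
      rw [abs_of_nonneg (by positivity)]
      field_simp
      ring
    · intro t ht
      have := (hasDerivAt_inv (show t ≠ 0 from ht.2)).neg
      rw [neg_neg] at this
      exact this.hasDerivWithinAt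
    · intro x _ y _ h
      simpa using h
  rw [h3]
  nlinarith

namespace ArcAux

theorem quad_int (a b c : ℝ) : ∫ t in Set.Icc (-1 : ℝ) 1, (a * t ^ 2 + b * t + c) ^ 2 =
    2 * a ^ 2 / 5 + 2 * b ^ 2 / 3 + 2 * c ^ 2 + 4 * a * c / 3 := by
  rw [integral_Icc_eq_integral_Ioc, ← intervalIntegral.integral_of_le (by norm_num)]
  have h : ∀ t ∈ Set.uIcc (-1 : ℝ) 1, HasDerivAt (fun t : ℝ => a ^ 2 * t ^ 5 / 5 +
      a * b * t ^ 4 / 2 + (b ^ 2 + 2 * a * c) * t ^ 3 / 3 + b * c * t ^ 2 + c ^ 2 * t)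
      ((a * t ^ 2 + b * t + c) ^ 2) t := by
    intro t _
    have h5 := ((hasDerivAt_pow 5 t).const_mul (a ^ 2)).div_const 5
    have h4 := ((hasDerivAt_pow 4 t).const_mul (a * b)).div_const 2
    have h3 := ((hasDerivAt_pow 3 t).const_mul (b ^ 2 + 2 * a * c)).div_const 3
    have h2 := (hasDerivAt_pow 2 t).const_mul (b * c)
    have h1 := (hasDerivAt_id' t).const_mul (c ^ 2)
    refine ((((h5.fun_add h4).fun_add h3).fun_add h2).fun_add h1).congr_deriv ?_
    norm_num; ring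
  rw [intervalIntegral.integral_eq_sub_of_hasDerivAt h
    (Continuous.intervalIntegrable (by fun_prop) _ _)]
  ring

/-- real case of the lower bound on the full arc -/
theorem low_re (a b c : ℝ) : (a ^ 2 + b ^ 2 + c ^ 2) / 80 ≤
    ∫ t in Set.Icc (-1 : ℝ) 1, (a + b * (uu t).re + c * (uu t).im) ^ 2 := by
  have hc : Continuous fun t => (a + b * (uu t).re + c * (uu t).im) ^ 2 := by
    have := continuous_uu
    fun_prop
  have h1 : ∫ t in Set.Icc (-1 : ℝ) 1, (1 / 4 : ℝ) * (a * t ^ 2 + b * t + (a + c)) ^ 2 ≤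
      ∫ t in Set.Icc (-1 : ℝ) 1, (a + b * (uu t).re + c * (uu t).im) ^ 2 := by
    refine setIntegral_mono_on (Continuous.integrableOn_Icc (by fun_prop)) hc.integrableOn_Icc
      measurableSet_Icc fun t ht => ?_
    have hd := den_pos t
    have e : a + b * (uu t).re + c * (uu t).im = (a * t ^ 2 + b * t + (a + c)) / (1 + t ^ 2) := by
      rw [uu_re, uu_im]; field_simp; ring
    rw [e, div_pow, le_div_iff₀ (by positivity)]
    have h2 : t ^ 2 ≤ 1 := by nlinarith [ht.1, ht.2]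
    have h3 : (1 + t ^ 2) ^ 2 ≤ 4 := by nlinarith
    nlinarith [sq_nonneg (a * t ^ 2 + b * t + (a + c))]
  rw [integral_const_mul, quad_int] at h1
  nlinarith [sq_nonneg (a + c), sq_nonneg (5 * a + 3 * c), sq_nonneg (3 * a + 2 * c), sq_nonneg b,
    sq_nonneg a, sq_nonneg c]

theorem low (f0 f1 f2 : ℂ) : (‖f0‖ ^ 2 + ‖f1‖ ^ 2 + ‖f2‖ ^ 2) / 80 ≤
    ∫ t in Set.Icc (-1 : ℝ) 1, ‖f0 + f1 * (uu t).re + f2 * (uu t).im‖ ^ 2 := by
  have hc : ∀ a b c : ℝ, IntegrableOn (fun t => (a + b * (uu t).re + c * (uu t).im) ^ 2)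
      (Set.Icc (-1 : ℝ) 1) := fun a b c => by
    have := continuous_uu
    exact Continuous.integrableOn_Icc (by fun_prop)
  have e : ∀ t, ‖f0 + f1 * (uu t).re + f2 * (uu t).im‖ ^ 2 =
      (f0.re + f1.re * (uu t).re + f2.re * (uu t).im) ^ 2 +
      (f0.im + f1.im * (uu t).re + f2.im * (uu t).im) ^ 2 := fun t => by
    rw [nsq]; simp
  simp only [e]
  rw [integral_add (hc _ _ _) (hc _ _ _), nsq, nsq, nsq]
  linarith [low_re f0.re f1.re f2.re, low_re f0.im f1.im f2.im]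

theorem up (f0 f1 f2 : ℂ) (t : ℝ) : ‖f0 + f1 * (uu t).re + f2 * (uu t).im‖ ^ 2 ≤
    3 * (‖f0‖ ^ 2 + ‖f1‖ ^ 2 + ‖f2‖ ^ 2) := by
  have hd := den_pos t
  have h0 : ‖uu t‖ ≤ 1 := by
    refine le_of_sq_le_sq ?_ zero_le_one
    rw [(uu_normSq t).1, one_pow, div_le_one hd]; nlinarith [sq_nonneg t]
  have h1 : ‖f1 * (uu t).re‖ ≤ ‖f1‖ := by
    rw [norm_mul, Complex.norm_real]
    exact mul_le_of_le_one_right (norm_nonneg _) ((Complex.abs_re_le_norm _).trans h0)
  have h2 : ‖f2 * (uu t).im‖ ≤ ‖f2‖ := by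
    rw [norm_mul, Complex.norm_real]
    exact mul_le_of_le_one_right (norm_nonneg _) ((Complex.abs_im_le_norm _).trans h0)
  have h3 : ‖f0 + f1 * (uu t).re + f2 * (uu t).im‖ ≤ ‖f0‖ + ‖f1‖ + ‖f2‖ :=
    (norm_add₃_le).trans (by linarith)
  have h4 := pow_le_pow_left₀ (norm_nonneg _) h3 2
  nlinarith [sq_nonneg (‖f0‖ - ‖f1‖), sq_nonneg (‖f0‖ - ‖f2‖), sq_nonneg (‖f1‖ - ‖f2‖)]

end ArcAux

/-- Remez: a complex affine function off finitely many short arcs -/
theorem remez : ∀ k : ℕ, ∃ C l : ℝ, 0 < C ∧ 0 < l ∧ ∀ (f0 f1 f2 : ℂ) (u0 : Fin k → ℂ),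
    ‖f0‖ ^ 2 + ‖f1‖ ^ 2 + ‖f2‖ ^ 2 ≤ C * ∫ t in Set.Icc (-1 : ℝ) 1,
      if ∀ j, l ≤ ‖uu t - u0 j‖ then ‖f0 + f1 * (uu t).re + f2 * (uu t).im‖ ^ 2 else 0 := by
  intro k
  obtain ⟨C, hC, hs⟩ := arc_small
  set l : ℝ := 1 / (480 * C * (k + 1)) with hl
  have hl0 : 0 < l := by positivity
  refine ⟨160, l, by norm_num, hl0, fun f0 f1 f2 u0 => ?_⟩
  set N := ‖f0‖ ^ 2 + ‖f1‖ ^ 2 + ‖f2‖ ^ 2 with hN
  have hN0 : 0 ≤ N := by positivity
  set F : ℝ → ℝ := fun t => ‖f0 + f1 * (uu t).re + f2 * (uu t).im‖ ^ 2 with hF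
  have hu := continuous_uu
  have hFc : Continuous F := by rw [hF]; fun_prop
  have hm : ∀ j, MeasurableSet {t | ‖uu t - u0 j‖ ≤ l} := fun j =>
    measurableSet_le (Continuous.measurable (by fun_prop)) measurable_const
  have hm' : MeasurableSet {t | ∀ j, l ≤ ‖uu t - u0 j‖} := by
    rw [Set.ofPred_forall]
    exact MeasurableSet.iInter fun j =>
      measurableSet_le measurable_const (Continuous.measurable (by fun_prop))
  have hI : IntegrableOn (fun t => if ∀ j, l ≤ ‖uu t - u0 j‖ then F t else 0)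
      (Set.Icc (-1 : ℝ) 1) := by
    have := (hFc.integrableOn_Icc (a := -1) (b := 1) (μ := volume)).indicator hm'
    refine this.congr_fun (fun t _ => ?_) measurableSet_Icc
    simp only [Set.indicator_apply, Set.mem_ofPred_eq]
  have hJ : ∀ j, IntegrableOn ({t | ‖uu t - u0 j‖ ≤ l}.indicator fun _ => (1 : ℝ))
      (Set.Icc (-1 : ℝ) 1) := fun j =>
    (continuous_const.integrableOn_Icc (μ := volume)).indicator (hm j)
  have h1 : ∫ t in Set.Icc (-1 : ℝ) 1, F t ≤ ∫ t in Set.Icc (-1 : ℝ) 1,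
      ((if ∀ j, l ≤ ‖uu t - u0 j‖ then F t else 0) +
        3 * N * ∑ j, {t | ‖uu t - u0 j‖ ≤ l}.indicator (fun _ => (1 : ℝ)) t) := by
    refine setIntegral_mono_on hFc.integrableOn_Icc
      (hI.add ((integrable_finsetSum _ fun j _ => hJ j).const_mul _))
      measurableSet_Icc fun t _ => ?_
    have hn : ∀ j ∈ (univ : Finset (Fin k)),
        0 ≤ {t | ‖uu t - u0 j‖ ≤ l}.indicator (fun _ => (1 : ℝ)) t :=
      fun j _ => Set.indicator_nonneg (fun _ _ => zero_le_one) t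
    split_ifs with h
    · have := sum_nonneg hn
      nlinarith
    · push Not at h
      obtain ⟨j, hj⟩ := h
      have h2 := single_le_sum hn (mem_univ j)
      rw [Set.indicator_of_mem (show t ∈ {t | ‖uu t - u0 j‖ ≤ l} from hj.le)] at h2
      have h3 : F t ≤ 3 * N := up f0 f1 f2 t
      nlinarith
  rw [integral_add hI ((integrable_finsetSum _ fun j _ => hJ j).const_mul _), integral_const_mul,
    integral_finsetSum _ fun j _ => hJ j] at h1
  have h2 : ∑ j, ∫ t in Set.Icc (-1 : ℝ) 1, {t | ‖uu t - u0 j‖ ≤ l}.indicator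
      (fun _ => (1 : ℝ)) t ≤ k * (C * l) := by
    refine (sum_le_card_nsmul _ _ (C * l) fun j _ => ?_).trans (by simp)
    rw [integral_indicator (hm j), Measure.restrict_restrict (hm j)]
    simpa [Measure.real] using hs (u0 j) l hl0
  have h3 : (k : ℝ) * (C * l) ≤ 1 / 480 := by
    rw [hl, show (k : ℝ) * (C * (1 / (480 * C * (k + 1)))) = k / (480 * (k + 1)) by field_simp,
      div_le_div_iff₀ (by positivity) (by positivity)]
    linarith
  have h4 : N / 80 ≤ ∫ t in Set.Icc (-1 : ℝ) 1, F t := low f0 f1 f2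
  have h5 := mul_le_mul_of_nonneg_left (h2.trans h3) (show 0 ≤ 3 * N by positivity)
  linarith

namespace ArcAux

/-- change of variables `a = Re s + J t` -/
theorem cov (H : ℝ → ℝ) (x : ℝ) {J : ℝ} (hJ : 0 < J) : ∫ a, H a = J * ∫ t, H (x + J * t) := by
  rw [Measure.integral_comp_mul_left (fun a => H (x + a)) J, integral_add_left_eq_self,
    abs_of_pos (inv_pos.2 hJ), smul_eq_mul, ← mul_assoc, mul_inv_cancel₀ hJ.ne', one_mul]

theorem zz_arc {s : ℂ} {γ : ℝ} (h : 0 < γ + s.im) (t : ℝ) :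
    ‖zz s (s.re + (γ + s.im) * t) γ‖ ^ 2 = 1 / ((γ + s.im) ^ 2 * (1 + t ^ 2)) := by
  have h1 := congrArg (fun z => ‖z‖ ^ 2) (zz_eq_uu h t)
  simp only [norm_mul, Complex.norm_real, Real.norm_eq_abs, mul_pow, sq_abs] at h1
  rw [(uu_normSq t).1] at h1
  have := den_pos t
  field_simp at h1 ⊢
  linarith

theorem zz_re (s : ℂ) (a γ : ℝ) : ‖zz s a γ‖ ^ 2 * (a - s.re) ^ 2 ≤ 1 := by
  unfold zz
  have h1 : |a - s.re| ≤ ‖(a : ℂ) - I * γ - s‖ := by
    have := Complex.abs_re_le_norm ((a : ℂ) - I * γ - s)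
    simpa using this
  rw [norm_div, norm_one, ← sq_abs (a - s.re), ← mul_pow, one_div, inv_mul_eq_div]
  exact pow_le_one₀ (by positivity) (div_le_one_of_le₀ h1 (norm_nonneg _))

end ArcAux

open Classical in
/-- comparison on a good site -/
theorem cmp : ∃ C : ℝ, 0 < C ∧ ∀ (s : ℂ) (a0 b γ Λ : ℝ) (f g : ℝ → ℝ), 0 < s.im → 0 ≤ γ → 0 < b →
    0 ≤ Λ → BM f → BM g → (∀ t, 0 ≤ f t) → (∀ t, 0 ≤ g t) →
    ∫ t, f t / (1 + t ^ 2) ≤ Λ * ∫ t in Set.Icc (-1 : ℝ) 1, g t →
    ∫ a, (if Good a0 b γ s a then ‖zz s a γ‖ ^ 2 * f ((a - s.re) / (γ + s.im)) else 0)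
        ∂law a0 b ≤
      C * Λ * ∫ a, ‖zz s a γ‖ ^ 2 * g ((a - s.re) / (γ + s.im)) ∂law a0 b := by
  refine ⟨144, by norm_num, fun s a0 b γ Λ f g hs hγ hb hΛ hf hg hf0 hg0 H => ?_⟩
  have hJ : 0 < γ + s.im := by linarith
  by_cases hD : 0 < b - |s.re - a0| ∧ 2 * (γ + s.im) * b ≤ (b - |s.re - a0|) ^ 2
  swap
  · have : ∀ a, ¬ Good a0 b γ s a := fun a h => hD ⟨h.1, h.2.1⟩
    simp only [this, if_false, integral_zero]
    exact mul_nonneg (by positivity) (integral_nonneg fun a => mul_nonneg (by positivity) (hg0 _))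
  obtain ⟨hD, hD2⟩ := hD
  rw [integral_law a0 hb, integral_law a0 hb, cov _ s.re hJ, cov (fun a => lawD a0 b a * _) s.re hJ]
  set J := γ + s.im with hJd
  set D := b - |s.re - a0| with hDd
  have hJD : J ≤ D / 2 := by
    have : D ≤ b := by have := abs_nonneg (s.re - a0); linarith
    nlinarith
  have e : ∀ t, (s.re + J * t - s.re) / J = t := fun t => by field_simp; ring
  have hz : ∀ t, ‖zz s (s.re + J * t) γ‖ ^ 2 = 1 / (J ^ 2 * (1 + t ^ 2)) := zz_arc hJ
  simp only [e, hz]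
  have near : ∀ a, |a - s.re| ≤ D / 2 → D ^ 2 / (8 * b ^ 3) ≤ lawD a0 b a ∧
      lawD a0 b a ≤ 9 * D ^ 2 / b ^ 3 := by
    intro a ha
    have h1 : |a - a0| ≤ |a - s.re| + |s.re - a0| := abs_sub_le _ _ _
    have h2 : |s.re - a0| ≤ |s.re - a| + |a - a0| := abs_sub_le _ _ _
    rw [abs_sub_comm s.re a] at h2
    obtain ⟨h3, h4⟩ := lawD_two_sided (a0 := a0) (a := a) hb (by linarith)
    have h5 : D / 2 ≤ b - |a - a0| := by linarith
    have h6 : b - |a - a0| ≤ 3 * D / 2 := by linarith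
    constructor
    · refine le_trans ?_ h3
      rw [div_le_div_iff₀ (by positivity) (by positivity)]
      have := pow_le_pow_left₀ (by linarith) h5 2
      have h7 : 0 < b ^ 3 := by positivity
      nlinarith
    · refine h4.trans (div_le_div_of_nonneg_right ?_ (by positivity))
      have := pow_le_pow_left₀ (by linarith) h6 2
      nlinarith
  have h1 : ∫ t, lawD a0 b (s.re + J * t) *
      (if Good a0 b γ s (s.re + J * t) then 1 / (J ^ 2 * (1 + t ^ 2)) * f t else 0) ≤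
      ∫ t, 9 * D ^ 2 / b ^ 3 / J ^ 2 * (f t / (1 + t ^ 2)) := by
    refine integral_mono_of_nonneg (ae_of_all _ fun t => ?_) ((bm_int hf).const_mul _)
      (ae_of_all _ fun t => ?_)
    · have := hf0 t
      exact mul_nonneg (lawD_nonneg _ hb _) (by split_ifs <;> positivity)
    · have := hf0 t
      have hd := den_pos t
      dsimp only
      split_ifs with h
      · refine (mul_le_mul_of_nonneg_right (near _ h.2.2).2 (by positivity)).trans (le_of_eq ?_)
        field_simp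
      · rw [mul_zero]; positivity
  have hgI : Integrable fun t => lawD a0 b (s.re + J * t) * (1 / (J ^ 2 * (1 + t ^ 2)) * g t) := by
    have := ((bm_int hg).const_mul (1 / J ^ 2)).bdd_mul (c := 1 / b)
      (f := fun t => lawD a0 b (s.re + J * t))
      ((continuous_lawD a0 b).comp (by fun_prop)).aestronglyMeasurable
      (ae_of_all _ fun t => by
        rw [Real.norm_of_nonneg (lawD_nonneg _ hb _)]; exact lawD_le _ hb _)
    refine this.congr (ae_of_all _ fun t => ?_)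
    have hd := den_pos t
    dsimp only
    field_simp
  have h2 : ∫ t, (Set.Icc (-1 : ℝ) 1).indicator (fun t => D ^ 2 / (16 * b ^ 3) / J ^ 2 * g t) t ≤
      ∫ t, lawD a0 b (s.re + J * t) * (1 / (J ^ 2 * (1 + t ^ 2)) * g t) := by
    refine integral_mono_of_nonneg (ae_of_all _ fun t => Set.indicator_nonneg (fun t _ => ?_) t)
      hgI (ae_of_all _ fun t => ?_)
    · have := hg0 t; positivity
    · have := hg0 t
      have hd := den_pos t
      dsimp only
      by_cases ht : t ∈ Set.Icc (-1 : ℝ) 1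
      · rw [Set.indicator_of_mem ht]
        have h3 : |s.re + J * t - s.re| ≤ D / 2 := by
          rw [add_sub_cancel_left, abs_mul, abs_of_pos hJ]
          have := abs_le.2 ht
          nlinarith
        refine le_trans ?_ (mul_le_mul_of_nonneg_right (near _ h3).1 (by positivity))
        have h4 : 1 / 2 ≤ 1 / (1 + t ^ 2) :=
          one_div_le_one_div_of_le hd (by nlinarith [ht.1, ht.2])
        have h5 := mul_le_mul_of_nonneg_left h4
          (show 0 ≤ D ^ 2 / (8 * b ^ 3) / J ^ 2 * g t by positivity)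
        refine le_trans (le_of_eq ?_) (h5.trans (le_of_eq ?_)) <;> field_simp
        ring
      · rw [Set.indicator_of_notMem ht]
        exact mul_nonneg (lawD_nonneg _ hb _) (by positivity)
  rw [integral_indicator measurableSet_Icc, integral_const_mul] at h2
  rw [integral_const_mul] at h1
  have h3 := mul_le_mul_of_nonneg_left H (show 0 ≤ 9 * D ^ 2 / b ^ 3 / J ^ 2 by positivity)
  have h4 := mul_le_mul_of_nonneg_left h2 (show 0 ≤ 144 * Λ by positivity)
  have h5 : 9 * D ^ 2 / b ^ 3 / J ^ 2 * (Λ * ∫ t in Set.Icc (-1 : ℝ) 1, g t) =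
      144 * Λ * (D ^ 2 / (16 * b ^ 3) / J ^ 2 * ∫ t in Set.Icc (-1 : ℝ) 1, g t) := by
    field_simp; ring
  rw [mul_left_comm (144 * Λ)]
  exact mul_le_mul_of_nonneg_left (by linarith) hJ.le

open Classical in
/-- the share of bad values -/
theorem bad1 : ∃ C : ℝ, 0 < C ∧ ∀ (s : ℂ) (a0 b γ : ℝ), 0 < s.im → 0 ≤ γ → γ ≤ b → 0 < b →
    ∫ a, (if Good a0 b γ s a then 0 else ‖zz s a γ‖ ^ 2) ∂law a0 b ≤ C * ‖zz s a0 b‖ ^ 2 := by
  refine ⟨2304, by norm_num, fun s a0 b γ hs hγ hγb hb => ?_⟩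
  have hJ : 0 < γ + s.im := by linarith
  have hR : 0 < ‖(a0 : ℂ) - I * b - s‖ := by
    refine norm_pos_iff.2 fun h => ?_
    have := congrArg Complex.im h
    simp at this; linarith
  have hzr : ‖zz s a0 b‖ = ‖(a0 : ℂ) - I * b - s‖⁻¹ := by simp [zz]
  by_cases hc : 4 * b ≤ ‖(a0 : ℂ) - I * b - s‖
  · have := law_prob a0 hb
    have h1 : ∫ a, (if Good a0 b γ s a then 0 else ‖zz s a γ‖ ^ 2) ∂law a0 b ≤
        ∫ _a, 4 * ‖zz s a0 b‖ ^ 2 ∂law a0 b := by
      refine integral_mono_of_nonneg (ae_of_all _ fun a => ?_) (integrable_const _) ?_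
      · dsimp only; split_ifs <;> positivity
      · filter_upwards [law_ae a0 hb] with a ha
        split_ifs
        · positivity
        have h2 : ‖(a0 : ℂ) - I * b - s‖ ≤ ‖(a : ℂ) - I * γ - s‖ + 2 * b := by
          have e : (a0 : ℂ) - I * b - s =
              ((a : ℂ) - I * γ - s) + (-((a - a0 : ℝ) : ℂ) + -(I * ((b - γ : ℝ) : ℂ))) := by
            push_cast; ring
          rw [e]
          refine (norm_add_le _ _).trans (add_le_add le_rfl ((norm_add_le _ _).trans ?_))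
          rw [norm_neg, norm_neg, norm_mul, norm_I, one_mul, Complex.norm_real, Complex.norm_real,
            Real.norm_eq_abs, Real.norm_of_nonneg (by linarith)]
          linarith
        have h3 : ‖zz s a γ‖ ≤ 2 * ‖zz s a0 b‖ := by
          rw [hzr, show ‖zz s a γ‖ = ‖(a : ℂ) - I * γ - s‖⁻¹ by simp [zz], ← div_eq_mul_inv,
            inv_eq_one_div, div_le_div_iff₀ (by linarith) hR]
          linarith
        have := pow_le_pow_left₀ (norm_nonneg _) h3 2
        linarith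
    rw [integral_const, probReal_univ, one_smul] at h1
    nlinarith [sq_nonneg ‖zz s a0 b‖]
  push Not at hc
  have h0 : 1 / (16 * b ^ 2) ≤ ‖zz s a0 b‖ ^ 2 := by
    rw [hzr, inv_pow, one_div]
    refine inv_anti₀ (by positivity) ?_
    nlinarith
  obtain ⟨hI, hπ⟩ := integral_J_zz hJ
  have hI2 : Integrable ((Set.Icc (a0 - b) (a0 + b)).indicator fun _ => 40 / b ^ 3) :=
    (integrable_indicator_iff measurableSet_Icc).2 continuous_const.integrableOn_Icc
  have h1 : ∫ a, lawD a0 b a * (if Good a0 b γ s a then 0 else ‖zz s a γ‖ ^ 2) ≤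
      ∫ a, ((Set.Icc (a0 - b) (a0 + b)).indicator (fun _ => 40 / b ^ 3) a +
        16 / b ^ 2 * ((γ + s.im) * ‖zz s a γ‖ ^ 2)) := by
    refine integral_mono_of_nonneg (ae_of_all _ fun a => ?_) (hI2.add (hI.const_mul _))
      (ae_of_all _ fun a => ?_)
    · exact mul_nonneg (lawD_nonneg _ hb _) (by split_ifs <;> positivity)
    dsimp only
    have hp : 0 ≤ (Set.Icc (a0 - b) (a0 + b)).indicator (fun _ => 40 / b ^ 3) a :=
      Set.indicator_nonneg (fun _ _ => by positivity) a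
    split_ifs with hG
    · rw [mul_zero]; positivity
    by_cases ha : |a - a0| ≤ b
    swap
    · rw [lawD_zero hb (not_le.1 ha).le, zero_mul]; positivity
    rw [Set.indicator_of_mem (show a ∈ Set.Icc (a0 - b) (a0 + b) from
      ⟨by linarith [(abs_le.1 ha).1], by linarith [(abs_le.1 ha).2]⟩)]
    have h2 : |s.re - a0| ≤ |s.re - a| + |a - a0| := abs_sub_le _ _ _
    rw [abs_sub_comm s.re a] at h2
    have h3 := (lawD_two_sided hb ha).2
    have h4 := zz_re s a γ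
    rw [← sq_abs (a - s.re)] at h4
    have h5 : (b - |a - a0|) ^ 2 ≤ 10 * |a - s.re| ^ 2 + 4 * (γ + s.im) * b := by
      have hx := abs_nonneg (a - s.re)
      have hJb : 0 < (γ + s.im) * b := by positivity
      have h6 : b - |a - a0| ≤ (b - |s.re - a0|) + |a - s.re| := by linarith
      have h8 : 0 ≤ b - |a - a0| := by linarith
      have h7 := pow_le_pow_left₀ h8 h6 2
      unfold Good at hG
      generalize b - |s.re - a0| = D at *
      generalize b - |a - a0| = d at *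
      generalize |a - s.re| = x at *
      by_cases k1 : 0 < D
      · by_cases k2 : 2 * (γ + s.im) * b ≤ D ^ 2
        · have k3 : D / 2 < x := not_le.1 fun k3 => hG ⟨k1, k2, k3⟩
          nlinarith
        · nlinarith [sq_nonneg (D - x)]
      · have := pow_le_pow_left₀ h8 (show d ≤ x by linarith) 2
        nlinarith
    have h6 : lawD a0 b a ≤ 4 * (10 * |a - s.re| ^ 2 + 4 * (γ + s.im) * b) / b ^ 3 :=
      h3.trans (div_le_div_of_nonneg_right (by linarith) (by positivity))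
    refine (mul_le_mul_of_nonneg_right h6 (by positivity)).trans ?_
    have e : 4 * (10 * |a - s.re| ^ 2 + 4 * (γ + s.im) * b) / b ^ 3 * ‖zz s a γ‖ ^ 2 =
        40 / b ^ 3 * (‖zz s a γ‖ ^ 2 * |a - s.re| ^ 2) +
          16 / b ^ 2 * ((γ + s.im) * ‖zz s a γ‖ ^ 2) := by field_simp; ring
    rw [e]
    have := mul_le_of_le_one_right (show 0 ≤ 40 / b ^ 3 by positivity) h4
    linarith
  rw [integral_add hI2 (hI.const_mul _), integral_const_mul, hπ,
    integral_indicator measurableSet_Icc, setIntegral_const, Real.volume_real_Icc_of_le (by linarith),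
    smul_eq_mul] at h1
  rw [integral_law a0 hb]
  refine h1.trans (le_trans ?_ (mul_le_mul_of_nonneg_left h0 (by norm_num)))
  have h2 := mul_le_mul_of_nonneg_left Real.pi_le_four (show 0 ≤ 16 / b ^ 2 by positivity)
  have e1 : (a0 + b - (a0 - b)) * (40 / b ^ 3) = 80 * (1 / b ^ 2) := by field_simp; ring
  have e2 : 16 / b ^ 2 * 4 = 64 * (1 / b ^ 2) := by ring
  have e3 : 2304 * (1 / (16 * b ^ 2)) = 144 * (1 / b ^ 2) := by field_simp; norm_num
  linarith

theorem measurableSet_good (a0 b γ : ℝ) :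
    MeasurableSet {x : ℂ × ℝ | Good a0 b γ x.1 x.2} := by
  have h1 : MeasurableSet {x : ℂ × ℝ | 0 < b - |x.1.re - a0|} :=
    measurableSet_lt measurable_const (Continuous.measurable (by fun_prop))
  have h2 : MeasurableSet {x : ℂ × ℝ | 2 * (γ + x.1.im) * b ≤ (b - |x.1.re - a0|) ^ 2} :=
    measurableSet_le (Continuous.measurable (by fun_prop)) (Continuous.measurable (by fun_prop))
  have h3 : MeasurableSet {x : ℂ × ℝ | |x.2 - x.1.re| ≤ (b - |x.1.re - a0|) / 2} :=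
    measurableSet_le (Continuous.measurable (by fun_prop)) (Continuous.measurable (by fun_prop))
  exact h1.inter (h2.inter h3)

end Crest.Agent.N334.G
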