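import Crest.Agent.N334.G.Quad0

/-!
# Row 334, S0519 GAIN: energies of vector-valued functions: expansion, drift, trivial bias, bad share
-/

set_option autoImplicit false

open MeasureTheory Finset Complex
open scoped BigOperators ComplexConjugate

noncomputable section

namespace Crest.Agent.N334.G

/-- exact second-order expansion of the energy -/
theorem en_expand : ∃ C : ℝ, 0 < C ∧ ∀ (P : Type) [Fintype P] [DecidableEq P] (y : P) (c : Cav y)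
    (ι : Type) [Fintype ι] (Φ : ι → P → ℝ) (a γ γ' : ℝ), 0 ≤ γ' → γ' ≤ γ →
    ∃ (c2 : ℝ) (c1 : ℂ), ‖c1‖ ≤ C * c.V (wt Φ) ∧ 0 ≤ c2 ∧ c2 ≤ C * c.J γ' * c.V (wt Φ) ∧
      (∀ a', En (wt Φ) (c.K a' γ') - En (wt Φ) (c.K a γ) =
        -(8 * (γ - γ') * ‖c.z a γ‖ ^ 2 * c.V (wt Φ)) + (c1 * (c.z a' γ' - c.z a γ)).re +
          c2 * ‖c.z a' γ' - c.z a γ‖ ^ 2) ∧
      -(8 * (γ - γ') * ‖c.z a γ‖ ^ 2 * c.V (wt Φ)) + c2 * ((γ - γ') * ‖c.z a γ‖ ^ 2 / c.J γ') =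
        -(8 * (γ - γ') * ‖c.z a γ‖ ^ 2 / c.J γ' *
          ∑ j, (∑ p, ‖c.rho p‖ ^ 2 * (Φ j p - Φ j y)) ^ 2) := by
  refine ⟨48, by norm_num, fun P _ _ y c ι _ Φ a γ γ' h0 h => ⟨Qd.C2 c (wt Φ) γ',
    Qd.c1 c (wt Φ) a γ γ', Qd.c1_wt c Φ h0 h a, Qd.C2_nonneg c (Qd.wt_nonneg Φ) γ', ?_,
    fun a' => Qd.expand c (Qd.wt_symm Φ) (Qd.wt_self Φ y) (h0.trans h) h0 a a',
    Qd.ideal_wt c Φ h0 a⟩⟩
  have h1 := Qd.C2_wt_le c Φ h0
  have h2 := mul_nonneg (c.J_pos h0).le (Qd.V_nonneg c (Qd.wt_nonneg Φ))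
  nlinarith
theorem en_osc : ∃ C : ℝ, 0 < C ∧ ∀ (P : Type) [Fintype P] [DecidableEq P] (y : P) (c : Cav y)
    (ι : Type) [Fintype ι] (Φ : ι → P → ℝ) (a a' γ γ' : ℝ), 0 ≤ γ' → 0 ≤ γ →
    (∀ p q, wt Φ p q ≤ 4) → |En (wt Φ) (c.K a' γ') - En (wt Φ) (c.K a γ)| ≤ C :=
  ⟨320, by norm_num, fun _ _ _ _ c _ _ Φ a a' _ _ h' h h4 => Qd.osc c Φ h4 h' h a a'⟩

namespace Qd

/-- the one-site drift of the energy, both signs -/
theorem siteQ : ∃ C : ℝ, 0 < C ∧ ∀ (P : Type) [Fintype P] [DecidableEq P] (y : P) (c : Cav y)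
    (ι : Type) [Fintype ι] (Φ : ι → P → ℝ) (a0 b γ γ' σ : ℝ), 0 ≤ γ' → γ' ≤ γ → γ ≤ b → 0 < b →
    |σ| = 1 →
    σ * (∫ t, En (wt Φ) (c.K t γ') ∂law a0 b - ∫ t, En (wt Φ) (c.K t γ) ∂law a0 b) ≤
      ∫ t, (C * c.Bq a0 b γ (wt Φ) -
        σ * (8 * (γ - γ') * ‖c.z t γ‖ ^ 2 / c.J γ' * mm c Φ)) ∂law a0 b := by
  obtain ⟨C, hC, h⟩ := step
  refine ⟨22 * C, by positivity, fun P _ _ y c ι _ Φ a0 b γ γ' σ h0 h1 h2 hb hσ => ?_⟩
  have := law_prob a0 hb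
  have hγ := h0.trans h1
  have hB := Bq_nonneg c a0 b hγ (wt_nonneg Φ)
  have hV := V_nonneg c (wt_nonneg Φ)
  rcases h1.eq_or_lt with rfl | h1'
  · simp only [sub_self, mul_zero, zero_mul, zero_div, sub_zero]
    exact integral_nonneg fun _ => by positivity
  have bz : BM fun t => σ * (8 * (γ - γ') * ‖c.z t γ‖ ^ 2 / c.J γ' * mm c Φ) := by
    have := (bm_z c hγ).const_mul (σ * (8 * (γ - γ') / c.J γ' * mm c Φ))
    convert this using 2; ring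
  obtain ⟨k, hk⟩ : ∃ k, k = (γ - γ') * ‖c.z a0 b‖ ^ 2 * c.V (wt Φ) := ⟨_, rfl⟩
  have hk2 : 4 * k ≤ c.Bq a0 b γ (wt Φ) := by
    have : 0 ≤ γ' * ‖c.z a0 b‖ ^ 2 * c.V (wt Φ) := by positivity
    rw [hk]; unfold Cav.Bq; nlinarith
  have key := h P y c a0 b γ γ' (8 * c.V (wt Φ)) h0 h1' h2 (by positivity)
    (fun t => σ * En (wt Φ) (c.K t γ')) (fun t => σ * En (wt Φ) (c.K t γ))
    (fun t => 48 * C * k - σ * (8 * (γ - γ') * ‖c.z t γ‖ ^ 2 / c.J γ' * mm c Φ))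
    ((bm_K c (nice_En _) h0).const_mul σ) ((bm_K c (nice_En _) hγ).const_mul σ)
    ((BM.const _).sub bz) fun a _ => by
      have e : ∀ a', σ * -(8 * (γ - γ') * ‖c.z a γ‖ ^ 2 * c.V (wt Φ)) +
          ((σ * c1 c (wt Φ) a γ γ') * (c.z a' γ' - c.z a γ)).re +
          σ * C2 c (wt Φ) γ' * ‖c.z a' γ' - c.z a γ‖ ^ 2 =
          σ * En (wt Φ) (c.K a' γ') - σ * En (wt Φ) (c.K a γ) := by
        intro a'
        rw [← mul_sub σ, expand c (wt_symm Φ) (wt_self Φ y) hγ h0 a a', mul_assoc (σ : ℂ),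
          re_ofReal_mul]
        ring
      refine ⟨_, _, 0, _, fun a' => (e a').le, by simp only [e, sub_self, mul_zero]; simp, ?_, ?_⟩
      · rw [abs_mul, hσ, one_mul, abs_of_nonneg (C2_nonneg c (wt_nonneg Φ) γ')]
        linarith [C2_wt_le c Φ h0]
      · have e2 := congrArg (σ * ·) (ideal_wt c Φ (γ := γ) h0 a)
        have e3 : ‖(σ : ℂ) * c1 c (wt Φ) a γ γ'‖ ≤ 48 * c.V (wt Φ) := by
          rw [norm_mul, Complex.norm_real, Real.norm_eq_abs, hσ, one_mul]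
          exact c1_wt c Φ h0 h1 a
        have e4 := mul_le_mul_of_nonneg_left e3
          (show 0 ≤ C * ((γ - γ') * ‖c.z a0 b‖ ^ 2) by
            have : 0 ≤ γ - γ' := by linarith
            positivity)
        beta_reduce at e2
        rw [hk]; nlinarith
  rw [integral_const_mul, integral_const_mul,
    integral_sub (integrable_const _) (bz.integrable _)] at key
  rw [integral_sub (integrable_const _) (bz.integrable _)]
  simp only [integral_const, probReal_univ, smul_eq_mul, one_mul] at key ⊢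
  have e5 : 5 * C * ((γ - γ') * ‖c.z a0 b‖ ^ 2 * (8 * c.V (wt Φ))) = 40 * C * k := by
    rw [hk]; ring
  have e6 := mul_le_mul_of_nonneg_left hk2 hC.le
  rw [e5] at key
  nlinarith

theorem Gn_eq {P : Type} [Fintype P] [DecidableEq P] {y : P} (c : Cav y) {ι : Type} [Fintype ι]
    (Φ : ι → P → ℝ) {γ : ℝ} (hγ : 0 ≤ γ) (t : ℝ) :
    2 * Gn Φ (c.K t γ) y = 8 * (γ - γ / 2) * ‖c.z t γ‖ ^ 2 / c.J (γ / 2) * mm c Φ := by
  have e : ∀ j, mv (Φ j) (c.K t γ) y =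
      4 * γ * ‖c.z t γ‖ ^ 2 * ∑ p, ‖c.rho p‖ ^ 2 * (Φ j p - Φ j y) := by
    intro j
    rw [← sum_nv c hγ (f := fun p => Φ j p - Φ j y) (sub_self _), mul_sum]
    exact sum_congr rfl fun q _ => by rw [c.cc_y t γ hγ]; ring
  have hJ := (c.J_pos (γ := γ / 2) (by linarith)).ne'
  have e2 : 2 * c.J γ - γ = 2 * c.J (γ / 2) := by unfold Cav.J; ring
  simp only [Gn, e, mul_pow, ← mul_sum, c.nu_y t γ hγ, e2]
  change _ = _ * ∑ j, _
  by_cases h0 : γ = 0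
  · simp [h0]
  by_cases h1 : ‖c.z t γ‖ = 0
  · simp [h1]
  field_simp
  ring

end Qd

theorem driftQ : ∃ C : ℝ, 0 < C ∧ ∀ (L : Lat) (st : Stat L) (Y1 : Finset L.X), Y1 ⊆ st.Y →
    ∀ (ι : Type) [Fintype ι] (Φ : ι → L.P → ℝ) (γ' : L.X → ℝ),
    (∀ y ∈ Y1, 0 ≤ γ' y ∧ γ' y ≤ st.γ y) →
    st.dr Y1 γ' (En (wt Φ)) ≤ C * st.IB Y1 (fun _ => 1) (wt Φ) := by
  obtain ⟨C, hC, h⟩ := Qd.siteQ
  refine ⟨C, hC, fun L st Y1 hY ι _ Φ γ' hγ' => ?_⟩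
  rw [Qd.mul_IB, ← one_mul (st.dr _ _ _)]
  refine Qd.dr_le st hY (nice_En _) (fun y hy => (hγ' y hy).1) 1
    (fun y hy => (Qd.bm_bias st hY (Nice.const 1) _ y hy).const_mul C) fun y hy a c e2 e3 => ?_
  obtain ⟨-, hb, -, hγb⟩ := st.hY y (hY hy)
  have := law_prob (st.a0 y) hb
  refine (h _ _ c ι Φ _ _ _ _ 1 (hγ' y hy).1 (hγ' y hy).2 hγb hb abs_one).trans ?_
  simp only [e3, one_mul, c.Bq_eq hb (Qd.wt_self Φ _)]
  have bz : BM fun t => 8 * (st.γ y - γ' y) * ‖c.z t (st.γ y)‖ ^ 2 / c.J (γ' y) * Qd.mm c Φ := by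
    have := (Qd.bm_z c (st.γ_nonneg y)).const_mul (8 * (st.γ y - γ' y) / c.J (γ' y) * Qd.mm c Φ)
    convert this using 2; ring
  refine integral_mono (((BM.const _).sub bz).integrable _) (integrable_const _) fun t => ?_
  have h1 := sub_nonneg.2 (hγ' y hy).2
  have h2 := c.J_pos (hγ' y hy).1
  have h3 := Qd.mm_nonneg c Φ
  exact sub_le_self _ (by positivity)
theorem driftQ_half : ∃ C : ℝ, 0 < C ∧ ∀ (L : Lat) (st : Stat L) (Y1 : Finset L.X), Y1 ⊆ st.Y →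
    ∀ (ι : Type) [Fintype ι] (Φ : ι → L.P → ℝ),
    |st.dr Y1 st.half (En (wt Φ)) + 2 * st.I0 (fun K => ∑ y ∈ Y1, Gn Φ K (y, true))| ≤
      C * st.IB Y1 (fun _ => 1) (wt Φ) := by
  obtain ⟨C, hC, h⟩ := Qd.siteQ
  refine ⟨C, hC, fun L st Y1 hY ι _ Φ => ?_⟩
  have b1 := fun y hy => (Qd.bm_bias st hY (Nice.const 1) (wt Φ) y hy).const_mul C
  have b2 : ∀ σ : ℝ, ∀ y ∈ Y1, BM fun a => σ * (2 * Gn Φ (L.Km st.E st.η st.γ a) (y, true)) :=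
    fun σ y _ => ((st.bm_Km (nice_Gn Φ (y, true)) st.γ_nonneg).const_mul 2).const_mul σ
  have key : ∀ σ : ℝ, |σ| = 1 → σ * st.dr Y1 st.half (En (wt Φ)) ≤
      C * st.IB Y1 (fun _ => 1) (wt Φ) -
        σ * (2 * st.I0 (fun K => ∑ y ∈ Y1, Gn Φ K (y, true))) := by
    intro σ hσ
    have e : σ * (2 * st.I0 (fun K => ∑ y ∈ Y1, Gn Φ K (y, true))) = st.Ia fun a =>
        ∑ y ∈ Y1, σ * (2 * Gn Φ (L.Km st.E st.η st.γ a) (y, true)) := by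
      simp only [← mul_sum]; rw [st.Ia_mul, st.Ia_mul]; rfl
    rw [Qd.mul_IB, e, ← st.Ia_sub (BM.sum _ b1) (BM.sum _ (b2 σ))]
    simp only [← sum_sub_distrib]
    have hh : ∀ y, 0 ≤ st.half y := fun y => div_nonneg (st.γ_nonneg y) two_pos.le
    refine Qd.dr_le st hY (nice_En _) (fun y _ => hh y) σ
      (fun y hy => (b1 y hy).sub (b2 σ y hy)) fun y hy a c e2 e3 => ?_
    obtain ⟨-, hb, -, hγb⟩ := st.hY y (hY hy)
    refine (h _ _ c ι Φ _ _ _ _ σ (hh y) (half_le_self (st.γ_nonneg y)) hγb hb hσ).trans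
      (le_of_eq ?_)
    simp only [e2, e3, one_mul, c.Bq_eq hb (Qd.wt_self Φ _), Qd.Gn_eq c Φ (st.γ_nonneg y),
      Stat.half]
  have k1 := key 1 abs_one
  have k2 := key (-1) (by simp)
  rw [abs_le]; constructor <;> linarith
/-- trivial bias -/
theorem triv : ∃ C : ℝ, 0 < C ∧ ∀ (L : Lat) (st : Stat L) (Y1 : Finset L.X), Y1 ⊆ st.Y →
    ∀ w : L.P → L.P → ℝ, (∀ p q, 0 ≤ w p q) → (∀ p, w p p = 0) →
    st.IB Y1 (fun _ => 1) w ≤ C * st.I0 (fun K => ∑ y ∈ Y1, Gam w K (y, true)) := by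
  refine ⟨9, by norm_num, fun L st Y1 hY w hw hs => ?_⟩
  have e : 9 * st.I0 (fun K => ∑ y ∈ Y1, Gam w K (y, true)) = st.Ia fun a =>
      ∑ y ∈ Y1, 9 * Gam w (L.Km st.E st.η st.γ a) (y, true) := by
    simp only [← mul_sum]; rw [st.Ia_mul]; rfl
  rw [e]
  refine Qd.sum_lift_ae st hY (Qd.bm_bias st hY (Nice.const 1) w)
    (fun y _ => (st.bm_Km (nice_Gam w (y, true)) st.γ_nonneg).const_mul 9) fun y hy a t ht => ?_
  obtain ⟨-, hb, -, hγb⟩ := st.hY y (hY hy)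
  obtain ⟨c, -, e2, e3, -⟩ := st.cav a (hY hy)
  rw [e2, e3, one_mul, c.Bq_eq hb (hs _)]
  exact Qd.Bq_le c (st.γ_nonneg y) hγb ht hw (hs _)
theorem badShare : ∃ C : ℝ, 0 < C ∧ ∀ (L : Lat) (st : Stat L) (w : L.P → L.P → ℝ),
    (∀ p q, 0 ≤ w p q) → (∀ p, w p p = 0) →
    st.Ia (fun a => ∑ y ∈ st.Y \ st.Gd a, Gam w (L.Km st.E st.η st.γ a) (y, true)) ≤
      C * st.IB st.Y (fun _ => 1) w := by
  classical
  obtain ⟨C, hC, h⟩ := bad1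
  refine ⟨C, hC, fun L st w hw hs => ?_⟩
  have e : ∀ a, ∑ y ∈ st.Y \ st.Gd a, Gam w (L.Km st.E st.η st.γ a) (y, true) =
      ∑ y ∈ st.Y, if y ∈ st.Gd a then 0 else Gam w (L.Km st.E st.η st.γ a) (y, true) := by
    intro a
    rw [sdiff_eq_filter, sum_filter]
    exact sum_congr rfl fun y _ => by split_ifs <;> simp_all
  simp only [e]
  rw [Qd.mul_IB]
  refine Qd.sum_lift st subset_rfl (fun y _ => BM.ite (st.measurableSet_Gd y) (BM.const 0)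
    (st.bm_Km (nice_Gam w (y, true)) st.γ_nonneg))
    (fun y hy => (Qd.bm_bias st subset_rfl (Nice.const 1) w y hy).const_mul C) fun y hy a => ?_
  obtain ⟨-, hb, -, hγb⟩ := st.hY y hy
  obtain ⟨c, -, e2, e3, e4⟩ := st.cav a hy
  have := law_prob (st.a0 y) hb
  have hγ := st.γ_nonneg y
  have hV := Qd.V_nonneg c hw
  have e5 : ∀ t, (if y ∈ st.Gd (Function.update a y t) then 0 else
      Gam w (L.Km st.E st.η st.γ (Function.update a y t)) (y, true)) = 4 * st.γ y * c.V w *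
      (if Good (st.a0 y) (st.b y) (st.γ y) c.s t then 0 else ‖zz c.s t (st.γ y)‖ ^ 2) := by
    intro t
    rw [e2, c.Gam_y t _ hγ (hs _)]
    by_cases hg : Good (st.a0 y) (st.b y) (st.γ y) c.s t
    · rw [if_pos hg, if_pos ((e4 t).2 hg), mul_zero]
    · rw [if_neg hg, if_neg fun h' => hg ((e4 t).1 h')]; unfold Cav.z; ring
  simp only [e5, e3, one_mul, c.Bq_eq hb (hs _)]
  rw [integral_const_mul]
  simp only [integral_const, probReal_univ, smul_eq_mul, one_mul]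
  calc _ ≤ 4 * st.γ y * c.V w * (C * ‖zz c.s (st.a0 y) (st.b y)‖ ^ 2) :=
        mul_le_mul_of_nonneg_left (h c.s _ _ _ c.s_pos hγ hγb hb) (by positivity)
    _ = _ := by unfold Cav.Bq Cav.z; ring

end Crest.Agent.N334.G
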