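import Crest.Agent.N334.G.B0c
import Crest.Agent.N334.G.Quad

/-!
# Row 334, S0519 GAIN: (B) drift of the depth potential
-/

set_option autoImplicit false

open MeasureTheory Finset Complex
open scoped BigOperators ComplexConjugate

noncomputable section

namespace Crest.Agent.N334.G

namespace B0

/-- the one-site error functional -/
def G2 (L : Lat) (Y : Finset L.X) (i C : ℝ) (y : L.P) (K : L.Mat) : ℝ :=
  C * (Gam L.r2 K y + i ^ 2 * L.GN K y + EE L K y + TT L Y i K y / i ^ 2) - L.Red Y i K y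

theorem nice_G2 (L : Lat) (Y : Finset L.X) {i : ℝ} (hi : 1 ≤ i) (C : ℝ) (y : L.P) :
    Nice (G2 L Y i C y) :=
  ((Nice.const C).mul ((((nice_Gam L.r2 y).add ((Nice.const _).mul (L.nice_GN y))).add
    (nice_EE y)).add (nice_TT Y hi y))).sub (L.nice_Red Y (by linarith) y)

theorem bm_Jz {s : ℂ} {γ b : ℝ} (h : 0 < γ + s.im) (hb : 0 ≤ b) :
    BM fun a => b * (γ + s.im) * ‖zz s a γ‖ ^ 2 := by
  refine ⟨((measurable_zz s γ).norm.pow_const 2).const_mul _, b / (γ + s.im), fun a => ?_⟩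
  have h1 := norm_zz_le h a
  have h0 : 0 ≤ (γ + s.im) * ‖zz s a γ‖ := by positivity
  rw [abs_of_nonneg (by positivity), le_div_iff₀ h]
  calc _ = b * ((γ + s.im) * ‖zz s a γ‖) ^ 2 := by ring
    _ ≤ b * 1 ^ 2 := by gcongr
    _ = b := by ring

theorem site : ∃ C : ℝ, 0 < C ∧ ∀ (L : Lat) (y0 : L.X) (c : Cav ((y0, true) : L.P))
    (Y : Finset L.X) (i a0 b γ : ℝ), y0 ∈ Y → 1 ≤ i → 0 ≤ γ → γ ≤ b → 0 < b →
    ∫ t, (L.Pot Y i (c.K t γ) - L.Pot Y i (c.K t (γ / 2))) ∂law a0 b ≤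
      ∫ t, (G2 L Y i C (y0, true) (c.K t γ) + C * i ^ 2 * c.Bq a0 b γ L.r2) ∂law a0 b := by
  obtain ⟨C0, hC0, hqs⟩ := qs
  obtain ⟨C1, hC1, hid⟩ := ideal_ge
  obtain ⟨C2, hC2, hbr⟩ := breg
  refine ⟨C1 + 200 * C0 + C0 * C2, by positivity, fun L y0 c Y i a0 b γ hy hi hγ hγb hb => ?_⟩
  have := law_prob a0 hb
  have hi0 : 0 ≤ i := by linarith
  have hV := V_nonneg c (r2_nonneg (L := L))
  have hB0 : 0 ≤ c.Bq a0 b γ L.r2 := by unfold Cav.Bq; positivity
  have hGam : ∀ K : L.Mat, 0 ≤ Gam L.r2 K (y0, true) := fun K => Gam_nonneg r2_nonneg _ _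
  have hGN : ∀ K : L.Mat, 0 ≤ i ^ 2 * L.GN K (y0, true) := fun K =>
    mul_nonneg (sq_nonneg _) (Gn_nonneg _ _ _)
  have hTT : ∀ K : L.Mat, 0 ≤ TT L Y i K (y0, true) / i ^ 2 := fun K =>
    div_nonneg (TT_nonneg _ _ _ _) (sq_nonneg _)
  have hEE : ∀ K : L.Mat, 0 ≤ EE L K (y0, true) := fun K => EE_nonneg _ _
  rcases hγ.eq_or_lt with h0 | hγ0
  · subst h0
    simp only [zero_div, sub_self, integral_zero]
    refine integral_nonneg fun t => add_nonneg ?_ (by positivity)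
    have : L.Red Y i (c.K t 0) (y0, true) = 0 := by
      unfold Lat.Red
      exact sum_eq_zero fun m _ => by rw [nn_y c t le_rfl]; simp
    unfold G2
    rw [this, sub_zero]
    have := hGam (c.K t 0); have := hGN (c.K t 0); have := hTT (c.K t 0); have := hEE (c.K t 0)
    positivity
  have hγ' : 0 ≤ γ / 2 := by linarith
  have bm : ∀ {F : L.Mat → ℝ}, Nice F → ∀ g, 0 ≤ g → BM fun t => F (c.K t g) :=
    fun hF g hg => hF.bm (c.measurable_K g) fun t => c.port t hg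
  obtain ⟨ρ, hρ, hρ1, hρ2⟩ := hbr L (y0, true) c a0 b γ i (act Y (y0, true)) hγ0 hγb hi
    (by simp [act])
  have hJ : 0 < γ + c.s.im := by linarith [c.s_pos]
  have hJ' : 0 < c.J (γ / 2) := c.J_pos hγ'
  have bP := bm (L.nice_Pot Y hi0) γ hγ
  have bP' := bm (L.nice_Pot Y hi0) (γ / 2) hγ'
  have bG := bm (nice_G2 L Y hi (C1 + 9 * C0) (y0, true)) γ hγ
  have bJ := bm_Jz hJ hb.le
  have bX := bm ((nice_Gam L.r2 (y0, true)).add (nice_EE (y0, true))) γ hγ
  have key := hqs c.s a0 b γ (γ / 2) c.s_pos hγ' (by linarith) hγb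
    (fun t => -L.Pot Y i (c.K t (γ / 2))) (fun t => -L.Pot Y i (c.K t γ))
    (fun t => G2 L Y i (C1 + 9 * C0) (y0, true) (c.K t γ) + 67 * C0 * i ^ 2 * c.Bq a0 b γ L.r2 +
      17 * C0 * i * c.Bq a0 b γ L.r2 * (b * (γ + c.s.im) * ‖zz c.s t γ‖ ^ 2) + C0 * ρ t)
    bP'.neg bP.neg (((bG.add (BM.const _)).add (bJ.const_mul _)).add (hρ.const_mul _))
    (fun a ha => by
      have hex := expand c (Y := Y) (i := i) a hy hγ0
      refine ⟨-q0 c Y i a γ, -q2 c Y i a γ, ρ a, -q1 c Y i a γ, fun a' => ?_, ?_, ?_⟩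
      · have h1 := hex a'
        have h2 := BS_nonneg Y i (y0, true) (c.K a γ) (c.K a' (γ / 2))
        unfold Cav.z at h1
        rw [neg_mul, neg_re]
        linarith
      · refine le_of_eq_of_le (integral_congr_ae (ae_of_all _ fun a' => ?_)) (hρ1 a ha)
        have h1 := hex a'
        unfold Cav.z BS at h1
        simp only
        congr 1
        rw [neg_mul, neg_re]
        linarith
      · have h1 := hid L y0 c Y i a γ hy hi hγ0
        have h2 := q1_le c (Y := Y) a hi hγ0 hγb ha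
        have h3 := q2_abs c (Y := Y) a hi hγ0
        have e1 : γ / 2 + c.s.im = c.J (γ / 2) := rfl
        have hB : c.Bq a0 b γ L.r2 = 4 * γ * ‖zz c.s a0 b‖ ^ 2 * c.V L.r2 := rfl
        unfold Cav.z at h1 h2
        rw [e1, norm_neg, abs_neg]
        have h4 : (γ - γ / 2) * ‖zz c.s a0 b‖ ^ 2 * (|q2 c Y i a γ| *
            (1 / c.J (γ / 2) + b * ‖zz c.s a γ‖ ^ 2)) ≤ 17 * i * c.Bq a0 b γ L.r2 +
              17 * i * c.Bq a0 b γ L.r2 * (b * (γ + c.s.im) * ‖zz c.s a γ‖ ^ 2) := by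
          have h5 : c.J (γ / 2) ≤ γ + c.s.im := by rw [← e1]; linarith
          have h6 : 0 ≤ γ - γ / 2 := by linarith
          calc _ ≤ (γ - γ / 2) * ‖zz c.s a0 b‖ ^ 2 * (136 * i * c.J (γ / 2) * c.V L.r2 *
                (1 / c.J (γ / 2) + b * ‖zz c.s a γ‖ ^ 2)) := by gcongr
            _ = 17 * i * c.Bq a0 b γ L.r2 +
                17 * i * c.Bq a0 b γ L.r2 * (b * c.J (γ / 2) * ‖zz c.s a γ‖ ^ 2) := by
                rw [hB]; field_simp; ring
            _ ≤ _ := by gcongr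
        have h5 : (γ - γ / 2) * ‖zz c.s a0 b‖ ^ 2 * ‖q1 c Y i a γ‖ ≤
            γ * ‖zz c.s a0 b‖ ^ 2 * ‖q1 c Y i a γ‖ := by gcongr; linarith
        have h6 : i * c.Bq a0 b γ L.r2 ≤ i ^ 2 * c.Bq a0 b γ L.r2 := by gcongr; nlinarith
        have h7 : (γ - γ / 2) * ‖zz c.s a0 b‖ ^ 2 * (‖q1 c Y i a γ‖ + |q2 c Y i a γ| *
            (1 / c.J (γ / 2) + b * ‖zz c.s a γ‖ ^ 2)) + ρ a ≤
            TT L Y i (c.K a γ) (y0, true) / i ^ 2 + 9 * EE L (c.K a γ) (y0, true) +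
              67 * i ^ 2 * c.Bq a0 b γ L.r2 +
              17 * i * c.Bq a0 b γ L.r2 * (b * (γ + c.s.im) * ‖zz c.s a γ‖ ^ 2) + ρ a := by
          rw [mul_add]; linarith
        have h8 := mul_le_mul_of_nonneg_left h7 hC0.le
        have p1 := mul_nonneg hC0.le (hGam (c.K a γ))
        have p2 := mul_nonneg hC0.le (hGN (c.K a γ))
        have p3 := mul_nonneg hC0.le (hTT (c.K a γ))
        have p4 := mul_nonneg hC1.le (hTT (c.K a γ))
        have p5 := mul_nonneg hC1.le (hEE (c.K a γ))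
        unfold G2
        linarith)
  have iP := bP.integrable (law a0 b)
  have iP' := bP'.integrable (law a0 b)
  have iG := bG.integrable (law a0 b)
  have iJ := bJ.integrable (law a0 b)
  have iρ := hρ.integrable (law a0 b)
  have iX := bX.integrable (law a0 b)
  have iG' := (bm (nice_G2 L Y hi (C1 + 200 * C0 + C0 * C2) (y0, true)) γ hγ).integrable (law a0 b)
  rw [integral_neg, integral_neg, integral_add (((bG.add (BM.const _)).add
    (bJ.const_mul _)).integrable _) (iρ.const_mul _),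
    integral_add ((bG.add (BM.const _)).integrable _) (iJ.const_mul _), integral_add iG (integrable_const _), integral_const,
    integral_const_mul (17 * C0 * i * _), integral_const_mul C0] at key
  rw [integral_sub iP iP', integral_add iG' (integrable_const _), integral_const]
  simp only [probReal_univ, one_smul] at key ⊢
  have h1 := law_J_zz hJ a0 hb
  have h2 : ∫ t, G2 L Y i (C1 + 9 * C0) (y0, true) (c.K t γ) ∂law a0 b +
      C0 * C2 * ∫ t, (Gam L.r2 (c.K t γ) (y0, true) + EE L (c.K t γ) (y0, true)) ∂law a0 b ≤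
      ∫ t, G2 L Y i (C1 + 200 * C0 + C0 * C2) (y0, true) (c.K t γ) ∂law a0 b := by
    rw [← integral_const_mul, ← integral_add iG (iX.const_mul _)]
    refine integral_mono (iG.add (iX.const_mul _)) iG' fun t => ?_
    have hCC := mul_pos hC0 hC2
    have p1 := mul_nonneg hC0.le (hGam (c.K t γ))
    have p2 := mul_nonneg hC0.le (hGN (c.K t γ))
    have p3 := mul_nonneg hC0.le (hTT (c.K t γ))
    have p4 := mul_nonneg hC0.le (hEE (c.K t γ))
    have p5 := mul_nonneg hCC.le (hGN (c.K t γ))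
    have p6 := mul_nonneg hCC.le (hTT (c.K t γ))
    simp only [G2]
    linarith
  have h3 := mul_le_mul_of_nonneg_left hρ2 hC0.le
  have h4 : 17 * C0 * i * c.Bq a0 b γ L.r2 *
      ∫ t, b * (γ + c.s.im) * ‖zz c.s t γ‖ ^ 2 ∂law a0 b ≤
      17 * C0 * i ^ 2 * c.Bq a0 b γ L.r2 * 4 := by
    have : 0 ≤ ∫ t, b * (γ + c.s.im) * ‖zz c.s t γ‖ ^ 2 ∂law a0 b :=
      integral_nonneg fun t => by positivity
    gcongr
    · nlinarith
    · linarith [Real.pi_le_four]
  have h5 : i * c.Bq a0 b γ L.r2 ≤ i ^ 2 * c.Bq a0 b γ L.r2 := by gcongr; nlinarith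
  have h6 := mul_le_mul_of_nonneg_left h5 (mul_pos hC0 hC2).le
  have h7 : 0 ≤ i ^ 2 * c.Bq a0 b γ L.r2 := by positivity
  have h8 := mul_nonneg hC0.le h7
  have h9 := mul_nonneg hC1.le h7
  unfold EE at h2
  linarith

end B0

open B0 in
theorem driftB : ∃ C : ℝ, 0 < C ∧ ∀ (L : Lat) (st : Stat L) (Y1 : Finset L.X), Y1 ⊆ st.Y →
    ∀ i : ℝ, 1 ≤ i →
    st.I0 (fun K => ∑ y ∈ Y1, L.Red st.Y i K (y, true)) - C * st.I0 (En L.r2) -
      C * i ^ 2 * st.I0 (fun K => ∑ y ∈ Y1, L.GN K (y, true)) -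
      C * i ^ 2 * st.IB Y1 (fun _ => 1) L.r2 ≤ st.dr Y1 st.half (L.Pot st.Y i) := by
  obtain ⟨C, hC0, hC⟩ := site
  obtain ⟨C3, hC3, hT⟩ := sum_TT
  refine ⟨C * (2 + C3), by positivity, fun L st Y1 hY i hi => ?_⟩
  have hi0 : 0 ≤ i := by linarith
  have bR : ∀ y ∈ Y1, BM fun a => (1 : ℝ) * (st.γ y / st.b y * Gam L.r2 (st.Kr a y) (y, true)) :=
    fun y hy => ((st.bm_Kr (nice_Gam L.r2 (y, true)) (hY hy)).const_mul _).const_mul _
  have bG : ∀ y : L.X, BM fun a => G2 L st.Y i C (y, true) (L.Km st.E st.η st.γ a) :=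
    fun y => st.bm_Km (nice_G2 L st.Y hi C (y, true)) st.γ_nonneg
  have h1 : ∀ y ∈ Y1, -(st.Ig (Function.update st.γ y (st.half y)) (L.Pot st.Y i) -
      st.I0 (L.Pot st.Y i)) ≤ st.Ia fun a => G2 L st.Y i C (y, true) (L.Km st.E st.η st.γ a) +
        C * i ^ 2 * (1 * (st.γ y / st.b y * Gam L.r2 (st.Kr a y) (y, true))) := by
    intro y hy
    have hh : 0 ≤ st.half y := div_nonneg (st.γ_nonneg y) (by norm_num)
    have hγ' : ∀ x, 0 ≤ Function.update st.γ y (st.half y) x := fun x => by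
      by_cases h : x = y
      · subst h; simpa using hh
      · simpa [h] using st.γ_nonneg x
    have b1 := st.bm_Km (L.nice_Pot st.Y hi0) st.γ_nonneg
    have b2 := st.bm_Km (L.nice_Pot st.Y hi0) hγ'
    rw [neg_sub]
    unfold Stat.I0 Stat.Ig
    rw [← st.Ia_sub b1 b2]
    refine st.lift (b1.sub b2) ((bG y).add ((bR y hy).const_mul _)) y fun a => ?_
    obtain ⟨c, e1, e2, e3, -⟩ := st.cav a (hY hy)
    obtain ⟨hmu, hb, -, hγb⟩ := st.hY y (hY hy)
    simp only [e1 _ _ hh, e2, e3, hmu, one_mul, c.Bq_eq hb (r2_self _)]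
    exact hC L y c st.Y i _ _ _ (hY hy) hi (st.γ_nonneg y) hγb hb
  have h2 := sum_le_sum h1
  rw [sum_neg_distrib, ← st.Ia_sum _ fun y hy => (bG y).add ((bR y hy).const_mul _)] at h2
  have bRed := st.bm_Km (Nice.sum Y1 fun y _ => L.nice_Red st.Y hi0 (y, true)) st.γ_nonneg
  have bEn := st.bm_Km (nice_En L.r2) st.γ_nonneg
  have bGN := st.bm_Km (Nice.sum Y1 fun y _ => L.nice_GN (y, true)) st.γ_nonneg
  have bIB := BM.sum Y1 bR
  have h3 : (st.Ia fun a => ∑ y ∈ Y1, (G2 L st.Y i C (y, true) (L.Km st.E st.η st.γ a) +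
        C * i ^ 2 * (1 * (st.γ y / st.b y * Gam L.r2 (st.Kr a y) (y, true))))) ≤
      st.Ia fun a => C * (2 + C3) * En L.r2 (L.Km st.E st.η st.γ a) +
        C * i ^ 2 * ∑ y ∈ Y1, L.GN (L.Km st.E st.η st.γ a) (y, true) +
        C * i ^ 2 * ∑ y ∈ Y1, 1 * (st.γ y / st.b y * Gam L.r2 (st.Kr a y) (y, true)) -
        ∑ y ∈ Y1, L.Red st.Y i (L.Km st.E st.η st.γ a) (y, true) := by
    refine st.Ia_mono (BM.sum _ fun y hy => (bG y).add ((bR y hy).const_mul _))
      ((((bEn.const_mul _).add (bGN.const_mul _)).add (bIB.const_mul _)).sub bRed) fun a => ?_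
    have hK := L.port_Km st.E st.η_pos st.γ_nonneg a
    set K := L.Km st.E st.η st.γ a
    have t1 : ∑ y ∈ Y1, Gam L.r2 K (y, true) ≤ En L.r2 K :=
      sum_act_le Y1 (f := fun p => Gam L.r2 K p) fun p => Gam_nonneg r2_nonneg _ _
    have t2 : ∑ y ∈ Y1, EE L K (y, true) ≤ En L.r2 K :=
      (sum_act_le Y1 (f := fun p => EE L K p) fun p => EE_nonneg _ _).trans (sum_EE hK)
    have t3 : ∑ y ∈ Y1, TT L st.Y i K (y, true) / i ^ 2 ≤ C3 * En L.r2 K :=
      (sum_act_le Y1 (f := fun p => TT L st.Y i K p / i ^ 2) fun p =>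
        div_nonneg (TT_nonneg _ _ _ _) (sq_nonneg _)).trans (hT L st.Y i hi K hK)
    have t4 := mul_le_mul_of_nonneg_left (add_le_add (add_le_add t1 t2) t3) hC0.le
    simp only [G2, sum_add_distrib, sum_sub_distrib, ← mul_sum]
    linarith
  rw [st.Ia_sub (((bEn.const_mul _).add (bGN.const_mul _)).add (bIB.const_mul _)) bRed,
    st.Ia_add ((bEn.const_mul _).add (bGN.const_mul _)) (bIB.const_mul _),
    st.Ia_add (bEn.const_mul _) (bGN.const_mul _), st.Ia_mul, st.Ia_mul, st.Ia_mul] at h3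
  have n1 : 0 ≤ st.I0 (fun K => ∑ y ∈ Y1, L.GN K (y, true)) :=
    st.Ia_nonneg fun a => sum_nonneg fun y _ => Gn_nonneg _ _ _
  have n2 : 0 ≤ st.IB Y1 (fun _ => 1) L.r2 := st.IB_nonneg hY (fun _ => zero_le_one) r2_nonneg
  have hc : 0 ≤ C * (1 + C3) * i ^ 2 := by positivity
  have n3 := mul_nonneg hc n1
  have n4 := mul_nonneg hc n2
  unfold Stat.dr
  unfold Stat.IB Stat.I0 Stat.Ig at *
  linarith

end Crest.Agent.N334.G
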