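import Crest.Agent.N334.G.Cav

/-!
# Row 334, S0519 GAIN (B), part 0: exact quadratic expansion of weighted rows under a halving
(helper83)
-/

set_option autoImplicit false

open MeasureTheory Finset Complex
open scoped BigOperators ComplexConjugate

noncomputable section

namespace Crest.Agent.N334.G.B0

variable {P : Type} [Fintype P] [DecidableEq P] {y : P} (c : Cav y)

theorem normSq_add (m w ζ : ℂ) :
    ‖m + w * ζ‖ ^ 2 = ‖m‖ ^ 2 + (2 * conj m * w * ζ).re + ‖w‖ ^ 2 * ‖ζ‖ ^ 2 := by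
  rw [← mul_pow, ← norm_mul]
  simp only [Complex.sq_norm, Complex.normSq_apply, add_re, add_im, mul_re, mul_im, conj_re,
    conj_im, re_ofNat, im_ofNat]
  ring

/-- `K(a,γ)` with the `y` row and column scaled by `√(1/2)` -/
def M (a γ : ℝ) (p q : P) : ℂ :=
  c.K0 p q + 2 * I * c.z a γ * c.vec (γ / 2) p * c.vec (γ / 2) q

theorem K_half (a a' γ : ℝ) (p q : P) :
    c.K a' (γ / 2) p q = M c a γ p q +
      (2 * I * c.vec (γ / 2) p * c.vec (γ / 2) q) * (c.z a' (γ / 2) - c.z a γ) := by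
  unfold Cav.K M; ring

theorem vec_ne (γ : ℝ) {p : P} (hp : p ≠ y) : c.vec γ p = c.rho p := by
  simp [Cav.vec, hp]

theorem vec_y (γ : ℝ) : c.vec γ y = (Real.sqrt γ : ℂ) := by simp [Cav.vec]

theorem norm_vec_y {γ : ℝ} (hγ : 0 ≤ γ) : ‖c.vec γ y‖ ^ 2 = γ := by
  rw [vec_y, Complex.norm_real, Real.norm_eq_abs, sq_abs, Real.sq_sqrt hγ]

theorem M_ne (a γ : ℝ) {p q : P} (hp : p ≠ y) (hq : q ≠ y) : M c a γ p q = c.K a γ p q := by
  unfold Cav.K M; simp only [vec_ne c _ hp, vec_ne c _ hq]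

theorem K_y (a γ : ℝ) (p : P) : c.K a γ p y = 2 * I * c.z a γ * c.vec γ p * c.vec γ y := by
  unfold Cav.K; rw [c.K0_y, zero_add]

theorem M_y (a γ : ℝ) (p : P) :
    M c a γ p y = 2 * I * c.z a γ * c.vec (γ / 2) p * c.vec (γ / 2) y := by
  unfold M; rw [c.K0_y, zero_add]

theorem cc_ne (a : ℝ) {γ : ℝ} (hγ : 0 ≤ γ) {p : P} (hp : p ≠ y) :
    cc (c.K a γ) y p = 4 * γ * ‖c.z a γ‖ ^ 2 * ‖c.rho p‖ ^ 2 := by
  rw [c.cc_y a γ hγ, vec_ne c _ hp]

theorem norm_M_y (a : ℝ) {γ : ℝ} (hγ : 0 ≤ γ) {p : P} (hp : p ≠ y) :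
    ‖M c a γ p y‖ ^ 2 = cc (c.K a γ) y p / 2 := by
  rw [M_y, cc_ne c a hγ hp, vec_ne c _ hp]
  simp only [norm_mul, mul_pow, norm_vec_y c (show 0 ≤ γ / 2 by linarith), Complex.norm_I,
    Complex.norm_ofNat]
  ring

theorem z_ne {γ : ℝ} (hγ : 0 ≤ γ) (a : ℝ) : c.z a γ ≠ 0 := by
  unfold Cav.z zz
  refine one_div_ne_zero fun h => ?_
  have := congrArg Complex.im h
  simp at this
  linarith [c.s_pos]

theorem J_z {γ : ℝ} (hγ : 0 ≤ γ) (a : ℝ) : γ * ‖c.z a γ‖ ≤ 1 := by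
  have h := norm_zz_le (s := c.s) (γ := γ) (by linarith [c.s_pos]) a
  have h0 : 0 ≤ ‖zz c.s a γ‖ := norm_nonneg _
  unfold Cav.z
  nlinarith [c.s_pos]

theorem V_eq (w : P → P → ℝ) : c.V w = ∑ p ∈ univ.erase y, ‖c.rho p‖ ^ 2 * w y p := by
  unfold Cav.V
  rw [← Finset.add_sum_erase _ _ (mem_univ y), c.rho_y]; simp

theorem im_eq : c.s.im = ∑ p ∈ univ.erase y, ‖c.rho p‖ ^ 2 := by
  rw [c.im_s, ← Finset.add_sum_erase _ _ (mem_univ y), c.rho_y]; simp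

theorem V_nonneg {w : P → P → ℝ} (hw : ∀ p q, 0 ≤ w p q) : 0 ≤ c.V w :=
  sum_nonneg fun p _ => mul_nonneg (sq_nonneg _) (hw _ _)

def A0 (W : P → P → ℝ) (a γ : ℝ) : ℝ :=
  -(1 / 2) * ∑ p ∈ univ.erase y, W p y * cc (c.K a γ) y p
def A1 (W : P → P → ℝ) (a γ : ℝ) : ℂ :=
  ∑ p ∈ univ.erase y, ∑ q,
    (W p q : ℂ) * (2 * conj (M c a γ p q) * (2 * I * c.vec (γ / 2) p * c.vec (γ / 2) q))
def A2 (W : P → P → ℝ) (γ : ℝ) : ℝ :=
  ∑ p ∈ univ.erase y, ∑ q, W p q * (4 * ‖c.rho p‖ ^ 2 * ‖c.vec (γ / 2) q‖ ^ 2)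

theorem quad_rows (W : P → P → ℝ) (a a' : ℝ) {γ : ℝ} (hγ : 0 ≤ γ) :
    ∑ p ∈ univ.erase y, ∑ q, W p q * (cc (c.K a' (γ / 2)) p q - cc (c.K a γ) p q) =
      A0 c W a γ + (A1 c W a γ * (c.z a' (γ / 2) - c.z a γ)).re +
        A2 c W γ * ‖c.z a' (γ / 2) - c.z a γ‖ ^ 2 := by
  set ζ := c.z a' (γ / 2) - c.z a γ with hζ
  unfold A0 A1 A2
  rw [mul_sum, sum_mul, re_sum, sum_mul, ← sum_add_distrib, ← sum_add_distrib]
  refine sum_congr rfl fun p hp => ?_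
  have hp' : p ≠ y := ne_of_mem_erase hp
  have h1 : ∑ q, W p q * (‖M c a γ p q‖ ^ 2 - cc (c.K a γ) p q) =
      -(1 / 2) * (W p y * cc (c.K a γ) y p) := by
    rw [← Finset.add_sum_erase _ _ (mem_univ y), norm_M_y c a hγ hp',
      (c.port a hγ).cc_symm p y, sum_eq_zero, add_zero]
    · ring
    · intro q hq
      rw [M_ne c a γ hp' (ne_of_mem_erase hq)]; simp [cc]
  rw [← h1, sum_mul, re_sum, sum_mul, ← sum_add_distrib, ← sum_add_distrib]
  refine sum_congr rfl fun q _ => ?_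
  have h2 : cc (c.K a' (γ / 2)) p q = ‖M c a γ p q‖ ^ 2 +
      (2 * conj (M c a γ p q) * (2 * I * c.vec (γ / 2) p * c.vec (γ / 2) q) * ζ).re +
      (4 * ‖c.rho p‖ ^ 2 * ‖c.vec (γ / 2) q‖ ^ 2) * ‖ζ‖ ^ 2 := by
    unfold cc
    rw [K_half c a a' γ, ← hζ, normSq_add, vec_ne c _ hp']
    simp only [norm_mul, mul_pow, Complex.norm_I, Complex.norm_ofNat]
    ring
  rw [h2, mul_assoc (W p q : ℂ), re_ofReal_mul]
  ring

theorem nu_half (a : ℝ) {γ : ℝ} (hγ : 0 ≤ γ) :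
    nu (c.K a γ) y = 8 * γ * ‖c.z a γ‖ ^ 2 * c.J (γ / 2) := by
  rw [c.nu_y a γ hγ]; unfold Cav.J; ring

theorem ideal (W : P → P → ℝ) (a : ℝ) {γ : ℝ} (hγ : 0 < γ) :
    A0 c W a γ + A2 c W γ * ((γ - γ / 2) * ‖c.z a γ‖ ^ 2 / c.J (γ / 2)) =
      ∑ p ∈ univ.erase y, ∑ q ∈ univ.erase y,
        cc (c.K a γ) y p * cc (c.K a γ) y q / nu (c.K a γ) y * (W p q - W p y) := by
  have hJ : 0 < c.J (γ / 2) := c.J_pos (by linarith)
  have hz : 0 < ‖c.z a γ‖ := norm_pos_iff.2 (z_ne c hγ.le a)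
  unfold A0 A2
  rw [mul_sum, sum_mul, ← sum_add_distrib]
  refine sum_congr rfl fun p hp => ?_
  have hp' : p ≠ y := ne_of_mem_erase hp
  rw [← Finset.add_sum_erase _ _ (mem_univ y), norm_vec_y c (show 0 ≤ γ / 2 by linarith),
    add_mul, sum_mul]
  have h1 : ∑ q ∈ univ.erase y,
      cc (c.K a γ) y p * cc (c.K a γ) y q / nu (c.K a γ) y * (W p q - W p y) =
      ∑ q ∈ univ.erase y, W p q * (4 * ‖c.rho p‖ ^ 2 * ‖c.vec (γ / 2) q‖ ^ 2) *
        ((γ - γ / 2) * ‖c.z a γ‖ ^ 2 / c.J (γ / 2)) -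
      W p y * (2 * γ * ‖c.z a γ‖ ^ 2 * ‖c.rho p‖ ^ 2 / c.J (γ / 2)) * c.s.im := by
    rw [im_eq c, mul_sum, ← sum_sub_distrib]
    refine sum_congr rfl fun q hq => ?_
    have hq' : q ≠ y := ne_of_mem_erase hq
    rw [cc_ne c a hγ.le hp', cc_ne c a hγ.le hq', nu_half c a hγ.le, vec_ne c _ hq']
    field_simp
    ring
  rw [h1, cc_ne c a hγ.le hp']
  have h2 : c.s.im = c.J (γ / 2) - γ / 2 := by unfold Cav.J; ring
  rw [h2]
  field_simp
  ring

theorem A2_le {W r : P → P → ℝ} {H : ℝ} (hH : 0 ≤ H) (hW : ∀ p q, |W p q| ≤ H * r p q)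
    (hr : ∀ p q, 0 ≤ r p q) (hr0 : r y y = 0) (htri : ∀ p q, r p q ≤ 2 * r y p + 2 * r y q)
    {γ : ℝ} (hγ : 0 ≤ γ) : |A2 c W γ| ≤ 16 * H * c.J (γ / 2) * c.V r := by
  have hγ' : 0 ≤ γ / 2 := by linarith
  have hV := V_nonneg c hr
  have hV' : ∑ q, ‖c.vec (γ / 2) q‖ ^ 2 * r y q = c.V r := by
    rw [V_eq, ← Finset.add_sum_erase _ _ (mem_univ y), hr0, mul_zero, zero_add]
    exact sum_congr rfl fun q hq => by rw [vec_ne c _ (ne_of_mem_erase hq)]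
  unfold A2
  calc _ ≤ ∑ p ∈ univ.erase y, ∑ q, 8 * H * (‖c.rho p‖ ^ 2 * r y p * ‖c.vec (γ / 2) q‖ ^ 2 +
        ‖c.rho p‖ ^ 2 * (‖c.vec (γ / 2) q‖ ^ 2 * r y q)) := by
        refine (abs_sum_le_sum_abs _ _).trans (sum_le_sum fun p _ =>
          (abs_sum_le_sum_abs _ _).trans (sum_le_sum fun q _ => ?_))
        have h0 : 0 ≤ 4 * ‖c.rho p‖ ^ 2 * ‖c.vec (γ / 2) q‖ ^ 2 := by positivity
        rw [abs_mul, abs_of_nonneg h0]
        have h1 : |W p q| ≤ H * (2 * r y p + 2 * r y q) :=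
          (hW p q).trans (mul_le_mul_of_nonneg_left (htri p q) hH)
        calc _ ≤ H * (2 * r y p + 2 * r y q) * (4 * ‖c.rho p‖ ^ 2 * ‖c.vec (γ / 2) q‖ ^ 2) :=
              mul_le_mul_of_nonneg_right h1 h0
          _ = _ := by ring
    _ = 8 * H * (c.V r * c.J (γ / 2) + c.s.im * c.V r) := by
        simp only [← mul_sum, sum_add_distrib, c.sum_vec hγ', hV', ← sum_mul]
        rw [← V_eq, ← im_eq]
    _ ≤ _ := by
        have : c.s.im ≤ c.J (γ / 2) := by unfold Cav.J; linarith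
        have h2 : c.s.im * c.V r ≤ c.J (γ / 2) * c.V r := mul_le_mul_of_nonneg_right this hV
        nlinarith

/-- the cubic form with a general weight -/
def T3 (W : P → P → ℝ) (K : P → P → ℂ) (y : P) : ℂ :=
  ∑ p, ∑ q, (W p q : ℂ) * (conj (K p q) * K p y * K q y)

theorem A1_le {W r : P → P → ℝ} {H : ℝ} (hH : 0 ≤ H) (hW : ∀ p q, |W p q| ≤ H * r p q)
    (hr : ∀ p q, 0 ≤ r p q) (hr0 : r y y = 0) (hs : ∀ p, r p y = r y p)
    (a : ℝ) {γ : ℝ} (hγ : 0 ≤ γ) :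
    γ * ‖c.z a γ‖ ^ 2 * ‖A1 c W a γ‖ ≤
      ‖T3 W (c.K a γ) y‖ + 20 * H * (γ * ‖c.z a γ‖ ^ 2) * c.V r := by
  have hγ' : 0 ≤ γ / 2 := by linarith
  have hV := V_nonneg c hr
  have hz1 := J_z c hγ a
  have hz0 : 0 ≤ ‖c.z a γ‖ := norm_nonneg _
  have hK := c.port a hγ
  set K := c.K a γ with hKdef
  set z := c.z a γ with hz
  set An : ℂ := ∑ p ∈ univ.erase y, ∑ q ∈ univ.erase y,
    (W p q : ℂ) * (2 * conj (K p q) * (2 * I * c.rho p * c.rho q)) with hAn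
  set Ay : ℂ := ∑ p ∈ univ.erase y,
    (W p y : ℂ) * (2 * conj (M c a γ p y) * (2 * I * c.rho p * c.vec (γ / 2) y)) with hAy
  have hA : A1 c W a γ = An + Ay := by
    unfold A1
    rw [hAn, hAy, ← sum_add_distrib]
    refine sum_congr rfl fun p hp => ?_
    have hp' : p ≠ y := ne_of_mem_erase hp
    rw [← Finset.add_sum_erase _ _ (mem_univ y), add_comm, vec_ne c _ hp']
    congr 1
    exact sum_congr rfl fun q hq => by
      rw [M_ne c a γ hp' (ne_of_mem_erase hq), vec_ne c _ (ne_of_mem_erase hq)]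
  have hAy' : ‖Ay‖ ≤ 4 * H * c.V r := by
    rw [hAy, V_eq, mul_sum]
    refine (norm_sum_le _ _).trans (sum_le_sum fun p hp => ?_)
    have hp' : p ≠ y := ne_of_mem_erase hp
    rw [M_y, vec_ne c _ hp', ← hz]
    simp only [norm_mul, Complex.norm_I, Complex.norm_ofNat, Complex.norm_real,
      Real.norm_eq_abs, Complex.norm_conj]
    have e1 : ‖c.vec (γ / 2) y‖ * ‖c.vec (γ / 2) y‖ = γ / 2 := by
      rw [← sq, norm_vec_y c hγ']
    have e2 : |W p y| ≤ H * r y p := by rw [← hs]; exact hW p y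
    have e3 : 0 ≤ H * r y p := mul_nonneg hH (hr _ _)
    calc _ = |W p y| * (4 * (γ * ‖z‖)) * ‖c.rho p‖ ^ 2 := by
          linear_combination (|W p y| * 8 * ‖z‖ * ‖c.rho p‖ ^ 2) * e1
      _ ≤ H * r y p * (4 * 1) * ‖c.rho p‖ ^ 2 := by gcongr
      _ = _ := by ring
  have hKyy : ‖K y y‖ ≤ 2 * (γ * ‖z‖) := by
    rw [hKdef, K_y, ← hz]
    simp only [norm_mul, Complex.norm_I, Complex.norm_ofNat]
    have e1 : ‖c.vec γ y‖ * ‖c.vec γ y‖ = γ := by rw [← sq, norm_vec_y c hγ]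
    exact le_of_eq (by linear_combination (2 * ‖z‖) * e1)
  have hG : ∑ q, cc K y q * r y q = 4 * γ * ‖z‖ ^ 2 * c.V r := c.Gam_y a γ hγ hr0
  set E1 : ℂ := ∑ q, (W y q : ℂ) * (conj (K y q) * K y y * K q y) with hE1
  set E2 : ℂ := ∑ p ∈ univ.erase y, (W p y : ℂ) * (conj (K p y) * K p y * K y y) with hE2
  have hE1' : ‖E1‖ ≤ 8 * H * (γ * ‖z‖ ^ 2) * c.V r := by
    calc _ ≤ ∑ q, 2 * H * (cc K y q * r y q) := by
          refine (norm_sum_le _ _).trans (sum_le_sum fun q _ => ?_)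
          simp only [norm_mul, Complex.norm_real, Real.norm_eq_abs, Complex.norm_conj]
          rw [hK.symm q y]
          have e3 : 0 ≤ H * r y q := mul_nonneg hH (hr _ _)
          calc _ = |W y q| * ‖K y y‖ * ‖K y q‖ ^ 2 := by ring
            _ ≤ H * r y q * 2 * ‖K y q‖ ^ 2 := by gcongr; exacts [hW y q, by linarith]
            _ = _ := by unfold cc; ring
      _ = _ := by rw [← mul_sum, hG]; ring
  have hE2' : ‖E2‖ ≤ 8 * H * (γ * ‖z‖ ^ 2) * c.V r := by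
    calc _ ≤ ∑ q ∈ univ.erase y, 2 * H * (cc K y q * r y q) := by
          refine (norm_sum_le _ _).trans (sum_le_sum fun q _ => ?_)
          simp only [norm_mul, Complex.norm_real, Real.norm_eq_abs, Complex.norm_conj]
          rw [hK.symm q y]
          have e2 : |W q y| ≤ H * r y q := by rw [← hs]; exact hW q y
          have e3 : 0 ≤ H * r y q := mul_nonneg hH (hr _ _)
          calc _ = |W q y| * ‖K y y‖ * ‖K y q‖ ^ 2 := by ring
            _ ≤ H * r y q * 2 * ‖K y q‖ ^ 2 := by gcongr; linarith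
            _ = _ := by unfold cc; ring
      _ ≤ ∑ q, 2 * H * (cc K y q * r y q) :=
          sum_le_sum_of_subset_of_nonneg (subset_univ _) fun q _ _ =>
            mul_nonneg (by linarith) (mul_nonneg (cc_nonneg _ _ _) (hr _ _))
      _ = _ := by rw [← mul_sum, hG]; ring
  have hT : An * (-(γ * z ^ 2)) = I * (T3 W K y - E1 - E2) := by
    have : T3 W K y - E1 - E2 = ∑ p ∈ univ.erase y, ∑ q ∈ univ.erase y,
        (W p q : ℂ) * (conj (K p q) * K p y * K q y) := by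
      unfold T3
      rw [← Finset.add_sum_erase _ _ (mem_univ y), hE1, hE2, add_sub_cancel_left,
        ← sum_sub_distrib]
      refine sum_congr rfl fun p _ => ?_
      rw [← Finset.add_sum_erase _ _ (mem_univ y), add_sub_cancel_left]
    rw [this, hAn, sum_mul, mul_sum]
    refine sum_congr rfl fun p hp => ?_
    rw [sum_mul, mul_sum]
    refine sum_congr rfl fun q hq => ?_
    have e1 : c.vec γ y * c.vec γ y = γ := by
      rw [vec_y, ← ofReal_mul, Real.mul_self_sqrt hγ]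
    have e2 : K p y = 2 * I * z * c.rho p * c.vec γ y := by
      rw [hKdef, K_y, vec_ne c _ (ne_of_mem_erase hp)]
    have e3 : K q y = 2 * I * z * c.rho q * c.vec γ y := by
      rw [hKdef, K_y, vec_ne c _ (ne_of_mem_erase hq)]
    rw [e2, e3]
    linear_combination (-4 * I * (W p q : ℂ) * conj (K p q) * z ^ 2 * c.rho p * c.rho q *
      (c.vec γ y * c.vec γ y)) * I_mul_I +
      (4 * I * (W p q : ℂ) * conj (K p q) * z ^ 2 * c.rho p * c.rho q) * e1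
  have hAn' : γ * ‖z‖ ^ 2 * ‖An‖ ≤ ‖T3 W K y‖ + ‖E1‖ + ‖E2‖ := by
    have := congrArg norm hT
    simp only [norm_mul, norm_neg, norm_pow, Complex.norm_real, Real.norm_eq_abs,
      abs_of_nonneg hγ, Complex.norm_I, one_mul] at this
    calc _ = ‖T3 W K y - E1 - E2‖ := by rw [← this]; ring
      _ ≤ _ := (norm_sub_le _ _).trans (by gcongr; exact norm_sub_le _ _)
  have h0 : 0 ≤ γ * ‖z‖ ^ 2 := by positivity
  rw [hA]
  calc _ ≤ γ * ‖z‖ ^ 2 * (‖An‖ + 4 * H * c.V r) := by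
        gcongr; exact (norm_add_le _ _).trans (by linarith)
    _ ≤ _ := by nlinarith

end Crest.Agent.N334.G.B0
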