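import Crest.Agent.N334.G.Geo

/-!
# Row 334, S0519 GAIN: scale localisation of the weights, stereographic weights
-/

set_option autoImplicit false

open MeasureTheory Finset Complex
open scoped BigOperators ComplexConjugate

noncomputable section

namespace Crest.Agent.N334.G

open Geo0

theorem sum_pow_le (N : ℕ) {x : ℝ} (hx : 0 ≤ x) :
    ∑ m ∈ (range N).filter (fun m => (4 : ℝ) ^ m ≤ x), (4 : ℝ) ^ m ≤ 4 / 3 * x := by
  induction N with
  | zero => simpa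
  | succ N ih =>
    by_cases h : (4 : ℝ) ^ N ≤ x
    · refine (sum_le_sum_of_subset_of_nonneg (filter_subset _ _) fun _ _ _ => by positivity).trans ?_
      rw [geom_sum_eq (by norm_num), pow_succ]
      linarith
    · rwa [range_add_one, filter_insert, if_neg h]

namespace Geo0

theorem sum_inv_le (s : Finset ℕ) {x : ℝ} (hx : 0 < x) :
    ∑ m ∈ s.filter (fun m => x ≤ (4 : ℝ) ^ m), ((1 : ℝ) / 4) ^ m ≤ 4 / 3 / x := by
  have hex : ∃ k : ℕ, x ≤ 4 ^ k := (pow_unbounded_of_one_lt x (by norm_num)).imp fun _ h => h.le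
  have h1 := geo_up (r := 1 / 4) (by norm_num) (by norm_num) s (Nat.find hex)
  have h2 : ((1 : ℝ) / 4) ^ Nat.find hex ≤ 1 / x := by
    rw [one_div_pow]
    exact one_div_le_one_div_of_le hx (Nat.find_spec hex)
  calc _ ≤ ∑ m ∈ s, 1 / x * if Nat.find hex ≤ m then ((1 : ℝ) / 4) ^ (m - Nat.find hex) else 0 := by
        rw [sum_filter]
        refine sum_le_sum fun m _ => ?_
        by_cases h : x ≤ 4 ^ m
        · have h3 := Nat.find_min' hex h
          rw [if_pos h, if_pos h3]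
          conv_lhs => rw [← Nat.add_sub_cancel' h3, pow_add]
          exact mul_le_mul_of_nonneg_right h2 (by positivity)
        · rw [if_neg h]
          split_ifs <;> positivity
    _ ≤ 1 / x * (1 - 1 / 4)⁻¹ := by
        rw [← mul_sum]
        exact mul_le_mul_of_nonneg_left h1 (by positivity)
    _ = _ := by field_simp; norm_num

theorem two_side (s : Finset ℕ) (k : ℕ) {f : ℕ → ℝ} {C : ℝ} (hC : 0 ≤ C)
    (h : ∀ m ∈ s, f m ≤ C * (1 / 4) ^ m.dist k) : ∑ m ∈ s, f m * |(m : ℝ) - k| ≤ 4 * C := by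
  have h1 := geo_up (r := 1 / 2) (by norm_num) (by norm_num) s k
  have h2 := geo_dn (r := 1 / 2) (by norm_num) (by norm_num) s k
  have h3 : ∀ j : ℕ, ((1 : ℝ) / 4) ^ j * j ≤ (1 / 2) ^ j := fun j => by
    have : (j : ℝ) ≤ 2 ^ j := by exact_mod_cast j.lt_two_pow_self.le
    refine (mul_le_mul_of_nonneg_left this (by positivity)).trans (le_of_eq ?_)
    rw [← mul_pow]
    norm_num
  refine (sum_le_sum fun m hm => (mul_le_mul_of_nonneg_right (h m hm) (abs_nonneg _)).trans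
    (?_ : _ ≤ C * ((if k ≤ m then ((1 : ℝ) / 2) ^ (m - k) else 0)
      + if m ≤ k then ((1 : ℝ) / 2) ^ (k - m) else 0))).trans ?_
  · rw [mul_assoc]
    refine mul_le_mul_of_nonneg_left ?_ hC
    rcases le_total k m with e | e
    · rw [if_pos e, Nat.dist_eq_sub_of_le_right e, ← Nat.cast_sub e, Nat.abs_cast]
      exact le_add_of_le_of_nonneg (h3 _) (by split_ifs <;> positivity)
    · rw [if_pos e, Nat.dist_eq_sub_of_le e, abs_sub_comm, ← Nat.cast_sub e, Nat.abs_cast]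
      exact le_add_of_nonneg_of_le (by split_ifs <;> positivity) (h3 _)
  · rw [← mul_sum, sum_add_distrib, mul_comm 4]
    norm_num at h1 h2 ⊢
    exact mul_le_mul_of_nonneg_left (by linarith) hC

theorem pow_al0 (m k : ℕ) : 4 ^ m * Lat.al0 m k ≤ 4 ^ k * (1 / 4) ^ m.dist k := by
  unfold Lat.al0
  split_ifs with h
  · obtain ⟨j, rfl⟩ := Nat.exists_eq_add_of_le h
    rw [Nat.dist_eq_sub_of_le_right h, Nat.add_sub_cancel_left, pow_add, mul_assoc, ← mul_pow]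
    norm_num
  · obtain ⟨j, rfl⟩ := Nat.exists_eq_add_of_le (not_le.1 h).le
    rw [Nat.dist_eq_sub_of_le (not_le.1 h).le, Nat.add_sub_cancel_left, pow_add, mul_assoc,
      ← mul_pow]
    exact mul_le_mul_of_nonneg_left (pow_le_pow_left₀ (by norm_num) (by norm_num) j)
      (by positivity)

theorem stereo {ι : Type} [Fintype ι] (P Q : ι → ℝ) {a b : ℝ} (ha : a = ∑ j, P j ^ 2)
    (hb : b = ∑ j, Q j ^ 2) : ((a - 1) / (1 + a) - (b - 1) / (1 + b)) ^ 2 +
      ∑ j, (2 * P j / (1 + a) - 2 * Q j / (1 + b)) ^ 2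
      = 4 * (∑ j, (P j - Q j) ^ 2) / ((1 + a) * (1 + b)) := by
  have ha0 : 0 ≤ a := ha ▸ sum_nonneg fun _ _ => sq_nonneg _
  have hb0 : 0 ≤ b := hb ▸ sum_nonneg fun _ _ => sq_nonneg _
  have e1 : ∑ j, (P j - Q j) ^ 2 = a + b - 2 * ∑ j, P j * Q j := by
    rw [ha, hb, mul_sum, ← sum_add_distrib, ← sum_sub_distrib]
    exact sum_congr rfl fun j _ => by ring
  have e2 : ∑ j, (2 * P j / (1 + a) - 2 * Q j / (1 + b)) ^ 2 = 4 / (1 + a) ^ 2 * (∑ j, P j ^ 2)
      + 4 / (1 + b) ^ 2 * (∑ j, Q j ^ 2) - 8 / ((1 + a) * (1 + b)) * ∑ j, P j * Q j := by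
    rw [mul_sum, mul_sum, mul_sum, ← sum_add_distrib, ← sum_sub_distrib]
    exact sum_congr rfl fun j _ => by field_simp; ring
  rw [e1, e2, ← ha, ← hb]
  field_simp
  ring

end Geo0

theorem wh_le_r2 (L : Lat) {m : ℕ} (hm : m < L.N) (p q : L.P) :
    4 ^ m * L.wh m p q ≤ L.r2 p q :=
  L.sum_wh p q ▸ single_le_sum (f := fun m => 4 ^ m * L.wh m p q)
    (fun k _ => mul_nonneg (by positivity) (L.wh_nonneg k p q)) (mem_range.2 hm)
/-- lower bound for jumps shorter than the scale -/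
theorem wh_ge : ∃ c : ℝ, 0 < c ∧ ∀ (L : Lat) (m : ℕ) (p q : L.P), m < L.N →
    L.r2 p q ≤ 128 * 4 ^ m → c * (L.r2 p q / 4 ^ m) ^ 2 ≤ L.wh m p q := by
  refine ⟨1 / (3 * 128 ^ 3), by norm_num, fun L m p q hm hr => ?_⟩
  rcases (L.rho2_nonneg L.N p q).eq_or_lt with h0 | h0
  · rw [Lat.r2, ← h0]
    simpa using L.wh_nonneg m p q
  change 0 < L.r2 p q at h0
  obtain ⟨r, e⟩ : ∃ r, r = L.r2 p q := ⟨_, rfl⟩
  have h1 := sum_pow_le L.N (x := r / 171) (by rw [e]; positivity)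
  have h2 := sum_inv_le (range L.N) (e ▸ h0 : 0 < r)
  have h3 := L.r2_eq_sum p q
  have hs := fun k hk => L.s4_le (m := k) hk p q
  rw [← e] at h0 hr h3 hs ⊢
  have h4 : (0 : ℝ) < 4 ^ m := by positivity
  have hx : r / 4 ^ m ≤ 128 := by rwa [div_le_iff₀ h4]
  have hx0 : 0 < r / 4 ^ m := by positivity
  have key : ∀ k ∈ range L.N, (r / 4 ^ m) ^ 2 * (4 ^ k * L.s4 k p q) ≤
      (r / 4 ^ m) ^ 2 * (32 * (if (4 : ℝ) ^ k ≤ r / 171 then (4 : ℝ) ^ k else 0)
        + r ^ 2 / 16 * if r ≤ (4 : ℝ) ^ k then ((1 : ℝ) / 4) ^ k else 0)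
      + 2 * 128 ^ 3 * r * (L.al m k * L.s4 k p q) := fun k hk => by
    have hk' := mem_range.1 hk
    have a0 := L.s4_nonneg k p q
    have a1 : 0 ≤ 2 * 128 ^ 3 * r * (L.al m k * L.s4 k p q) :=
      mul_nonneg (by positivity) (mul_nonneg (L.al_nonneg _ _) a0)
    have a2 : (0 : ℝ) < 4 ^ k := by positivity
    by_cases c1 : (4 : ℝ) ^ k ≤ r / 171
    · refine le_add_of_le_of_nonneg (mul_le_mul_of_nonneg_left ?_ (sq_nonneg _)) a1
      rw [if_pos c1]
      refine le_add_of_le_of_nonneg ?_ (by split_ifs <;> positivity)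
      nlinarith [(hs k hk').1]
    by_cases c2 : r ≤ (4 : ℝ) ^ k
    · refine le_add_of_le_of_nonneg (mul_le_mul_of_nonneg_left ?_ (sq_nonneg _)) a1
      rw [if_neg c1, if_pos c2, mul_zero, zero_add]
      refine (mul_le_mul_of_nonneg_left (hs k hk').2 a2.le).trans (le_of_eq ?_)
      rw [one_div_pow, pow_succ 4 k]
      field_simp
      norm_num
    rw [if_neg c1, if_neg c2, mul_zero, mul_zero, add_zero, mul_zero, zero_add]
    have a3 : (r / 4 ^ m) ^ 2 ≤ 128 ^ 3 * Lat.al0 m k := by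
      unfold Lat.al0
      split_ifs with h
      · obtain ⟨j, rfl⟩ := Nat.exists_eq_add_of_le h
        have b1 : r / 4 ^ (k + j) ≤ 171 * (1 / 4) ^ j := by
          rw [div_le_iff₀ h4, pow_add, one_div_pow]
          field_simp
          linarith
        refine (pow_le_pow_left₀ hx0.le b1 2).trans ?_
        rw [Nat.add_sub_cancel_left, mul_pow, ← pow_mul, mul_comm j, pow_mul]
        norm_num
      · obtain ⟨j, rfl⟩ := Nat.exists_eq_add_of_le (not_le.1 h).le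
        have b1 : (4 : ℝ) ^ j ≤ 128 := by
          rw [pow_add] at c2
          nlinarith
        have b2 : (2 : ℝ) ^ j ≤ 4 ^ j := pow_le_pow_left₀ (by norm_num) (by norm_num) j
        rw [Nat.add_sub_cancel_left, one_div_pow, mul_one_div, le_div_iff₀ (by positivity)]
        calc _ ≤ 128 ^ 2 * 128 := mul_le_mul (pow_le_pow_left₀ hx0.le hx 2) (b2.trans b1)
              (by positivity) (by positivity)
          _ = _ := by norm_num
    have a4 := (L.al_le hk' m).1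
    calc _ ≤ (128 ^ 3 * (2 * L.al m k)) * (r * L.s4 k p q) :=
          mul_le_mul (by linarith) (mul_le_mul_of_nonneg_right (not_le.1 c2).le a0)
            (by positivity) (mul_nonneg (by norm_num) (by linarith [L.al_nonneg m k]))
      _ = _ := by ring
  have h5 := sum_le_sum key
  rw [← mul_sum, ← h3, sum_add_distrib, ← mul_sum, ← mul_sum, sum_add_distrib, ← mul_sum,
    ← mul_sum, ← sum_filter, ← sum_filter, ← Lat.wh] at h5
  have h6 : r ^ 2 / 16 * (4 / 3 / r) = r / 12 := by field_simp; norm_num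
  have h7 := mul_le_mul_of_nonneg_left (add_le_add (mul_le_mul_of_nonneg_left h1 (by norm_num :
    (0 : ℝ) ≤ 32)) (mul_le_mul_of_nonneg_left h2 (by positivity : 0 ≤ r ^ 2 / 16)))
    (sq_nonneg (r / 4 ^ m))
  rw [h6] at h7
  refine le_of_mul_le_mul_left ?_ h0
  nlinarith [mul_nonneg h0.le (sq_nonneg (r / 4 ^ m))]
/-- concentration at the scale of any comparable or larger length -/
theorem wh_conc : ∃ C : ℝ, 0 < C ∧ ∀ (L : Lat) (p q : L.P),
    ∑ m ∈ range L.N, 4 ^ m * L.wh m p q * |(m : ℝ) - L.sc (L.r2 p q)| ≤ C * L.r2 p q := by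
  refine ⟨260, by norm_num, fun L p q => ?_⟩
  obtain ⟨k, hk⟩ : ∃ k, k = L.sc (L.r2 p q) := ⟨_, rfl⟩
  have h0 : 0 ≤ L.r2 p q := L.rho2_nonneg _ p q
  have h1 : ∀ m ∈ range L.N, 4 ^ m * L.s4 m p q ≤ 32 * L.r2 p q * (1 / 4) ^ m.dist k := by
    intro m hm
    have hs := L.s4_le (mem_range.1 hm) p q
    rcases L.r2_gap p q with e | e
    · rw [e] at hs ⊢
      simpa using mul_nonpos_of_nonneg_of_nonpos (by positivity : (0 : ℝ) ≤ 4 ^ m)
        (by simpa using hs.2)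
    have h2 := L.sc_spec (x := L.r2 p q) (by linarith) ((L.rho2_le_pow _ p q).trans
      (mul_le_mul_of_nonneg_right (by norm_num) (by positivity)))
    rw [← hk] at h2
    rcases le_total m k with h | h <;> obtain ⟨j, rfl⟩ := Nat.exists_eq_add_of_le h
    · rw [Nat.dist_eq_sub_of_le h, Nat.add_sub_cancel_left, one_div_pow, mul_one_div,
        le_div_iff₀ (by positivity)]
      rw [pow_add] at h2
      nlinarith [mul_le_mul_of_nonneg_left hs.1 (by positivity : (0 : ℝ) ≤ 4 ^ m * 4 ^ j)]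
    · rw [Nat.dist_eq_sub_of_le_right h, Nat.add_sub_cancel_left, one_div_pow]
      refine (mul_le_mul_of_nonneg_left hs.2 (by positivity)).trans ?_
      rw [pow_succ 4, pow_add]
      field_simp
      nlinarith [mul_le_mul_of_nonneg_left h2.2 h0,
        mul_nonneg h0 (by positivity : (0 : ℝ) ≤ 4 ^ k)]
  have h3 := two_side (range L.N) k (by positivity) h1
  have h4 : ∀ j ∈ range L.N, ∑ m ∈ range L.N, 4 ^ m * (L.al m j * L.s4 j p q) * |(m : ℝ) - k|
      ≤ 4 * (4 ^ j * L.s4 j p q) + 4 ^ j * L.s4 j p q * |(j : ℝ) - k| := fun j hj => by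
    have a0 := L.s4_nonneg j p q
    have a1 := two_side (range L.N) j (f := fun m => 4 ^ m * L.al m j) (C := 4 ^ j)
      (by positivity) fun m _ => (mul_le_mul_of_nonneg_left (L.al_le (mem_range.1 hj) m).2
        (by positivity)).trans (pow_al0 m j)
    have a2 := L.sum_al (mem_range.1 hj)
    calc _ ≤ ∑ m ∈ range L.N, (4 ^ m * L.al m j * |(m : ℝ) - j| * L.s4 j p q
          + 4 ^ m * L.al m j * (L.s4 j p q * |(j : ℝ) - k|)) := sum_le_sum fun m _ => by
          nlinarith [mul_le_mul_of_nonneg_left (abs_sub_le (m : ℝ) j k) (mul_nonneg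
            (by positivity : (0 : ℝ) ≤ 4 ^ m) (mul_nonneg (L.al_nonneg m j) a0))]
      _ ≤ _ := by
          rw [sum_add_distrib, ← sum_mul, ← sum_mul, a2]
          nlinarith [mul_le_mul_of_nonneg_right a1 a0]
  rw [← hk]
  simp only [Lat.wh, mul_sum, sum_mul]
  rw [sum_comm]
  refine (sum_le_sum h4).trans ?_
  rw [sum_add_distrib, ← mul_sum, ← L.r2_eq_sum]
  linarith
/-- the weight `wF` comes from a sphere-valued map -/
theorem exists_stereo (L : Lat) (c : L.X) {R2 : ℝ} (hR : 0 < R2) :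
    ∃ F : Option (Fin 2 × Bool) → L.P → ℝ, (∀ p, ∑ j, F j p ^ 2 = 1) ∧ wt F = L.wF c R2 := by
  obtain ⟨P, hP⟩ : ∃ P : L.P → Fin 2 × Bool → ℝ,
      P = fun p j => (L.Phi L.N j p - L.Phi L.N j (c, true)) / √R2 := ⟨_, rfl⟩
  have h1 : ∀ p q, ∑ j, (P p j - P q j) ^ 2 = L.r2 p q / R2 := fun p q => by
    rw [Lat.r2, ← L.wt_Phi, wt, sum_div, hP]
    refine sum_congr rfl fun j _ => ?_
    rw [← sub_div, div_pow, Real.sq_sqrt hR.le, sub_sub_sub_cancel_right]
  have h2 : ∀ p : L.P, L.rx p.1 c / R2 = ∑ j, P p j ^ 2 := fun p => by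
    simpa [hP, Lat.rx_eq] using (h1 p (c, true)).symm
  refine ⟨fun j p => j.elim ((L.rx p.1 c / R2 - 1) / (1 + L.rx p.1 c / R2))
    fun j => 2 * P p j / (1 + L.rx p.1 c / R2), fun p => ?_, ?_⟩
  · have h0 : 0 ≤ L.rx p.1 c / R2 := div_nonneg (L.rx_nonneg _ _) hR.le
    simp only [Fintype.sum_option, Option.elim, div_pow, mul_pow, ← sum_div, ← mul_sum, ← h2]
    generalize L.rx p.1 c / R2 = a at *
    field_simp
    ring
  · funext p q
    rw [wt, Fintype.sum_option, Lat.wF, ← h1]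
    exact stereo (P p) (P q) (h2 p) (h2 q)
theorem wF_nonneg (L : Lat) (c : L.X) {R2 : ℝ} (hR : 0 < R2) (p q : L.P) :
    0 ≤ L.wF c R2 p q := by
  have := L.rx_nonneg p.1 q.1
  have := L.rx_nonneg p.1 c
  have := L.rx_nonneg q.1 c
  rw [Lat.wF, L.rx_eq]
  positivity
theorem wh_le_wF : ∃ C : ℝ, 0 < C ∧ ∀ (L : Lat) (c : L.X) (m : ℕ) (Λ2 : ℝ) (p q : L.P), m < L.N →
    1 ≤ Λ2 → L.rx p.1 c ≤ Λ2 * 4 ^ m → L.wh m p q ≤ C * Λ2 * L.wF c (Λ2 * 4 ^ m) p q := by
  refine ⟨69, by norm_num, fun L c m Λ2 p q hm h1 h2 => ?_⟩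
  have hR : 0 < Λ2 * 4 ^ m := by positivity
  have a0 := div_nonneg (L.rx_nonneg p.1 c) hR.le
  have b0 := div_nonneg (L.rx_nonneg q.1 c) hR.le
  have x0 : 0 ≤ L.r2 p q / (Λ2 * 4 ^ m) := div_nonneg (L.rx_nonneg p.1 q.1) hR.le
  have a1 : L.rx p.1 c / (Λ2 * 4 ^ m) ≤ 1 := (div_le_one hR).2 h2
  have b1 : L.rx q.1 c / (Λ2 * 4 ^ m)
      ≤ 2 * (L.r2 p q / (Λ2 * 4 ^ m)) + 2 * (L.rx p.1 c / (Λ2 * 4 ^ m)) := by
    rw [← mul_div_assoc, ← mul_div_assoc, ← add_div, L.rx_eq, L.rx_symm p.1]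
    exact div_le_div_of_nonneg_right (L.rx_le_two _ _ _) hR.le
  have w1 : L.wh m p q ≤ Λ2 * (L.r2 p q / (Λ2 * 4 ^ m)) := by
    rw [← mul_div_assoc, mul_div_mul_left _ _ (by positivity), le_div_iff₀' (by positivity)]
    exact wh_le_r2 L hm p q
  have w2 := L.wh_le m p q
  have w0 := L.wh_nonneg m p q
  rw [Lat.wF, ← mul_div_assoc, le_div_iff₀ (by positivity)]
  generalize L.r2 p q / (Λ2 * 4 ^ m) = x at *
  refine (mul_le_mul_of_nonneg_left (mul_le_mul (b := 2) (d := 3 + 2 * x) (by linarith)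
    (by linarith) (by positivity) (by norm_num)) w0).trans ?_
  nlinarith [mul_le_mul_of_nonneg_right w2 x0, mul_le_mul_of_nonneg_right h1 x0]
/-- local mass at scale `m` -/
theorem sum_nn_le_kap : ∃ C : ℝ, 0 < C ∧ ∀ (L : Lat) (c : L.X) (m : ℕ) (Λ2 : ℝ) (K : L.Mat)
    (Z : Finset L.X), m < L.N → 1 ≤ Λ2 → (∀ x ∈ Z, L.rx x c ≤ Λ2 * 4 ^ m) →
    ∑ x ∈ Z, L.nn K (x, true) m ≤ C * Λ2 * L.kap Λ2 c m K := by
  obtain ⟨C, hC, H⟩ := wh_le_wF
  refine ⟨C, hC, fun L c m Λ2 K Z hm h1 hZ => ?_⟩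
  have h0 := fun p => Gam_nonneg (wF_nonneg L c (R2 := Λ2 * 4 ^ m) (by positivity)) K p
  calc _ ≤ ∑ x ∈ Z, C * Λ2 * Gam (L.wF c (Λ2 * 4 ^ m)) K (x, true) := sum_le_sum fun x hx => by
        rw [Lat.nn, Gam, Gam, mul_sum]
        refine sum_le_sum fun q _ => ?_
        rw [mul_left_comm]
        exact mul_le_mul_of_nonneg_left (H L c m Λ2 _ q hm h1 (hZ x hx)) (cc_nonneg _ _ _)
    _ ≤ _ := by
        rw [← mul_sum, Lat.kap, En, Fintype.sum_prod_type]
        refine mul_le_mul_of_nonneg_left ((sum_le_sum_of_subset_of_nonneg (subset_univ _)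
          fun x _ _ => h0 _).trans (sum_le_sum fun x _ => ?_)) (by positivity)
        exact single_le_sum (f := fun b => Gam (L.wF c (Λ2 * 4 ^ m)) K (x, b))
          (fun b _ => h0 _) (mem_univ true)
theorem psi_nonneg (L : Lat) (K : L.Mat) (p : L.P) (m : ℕ) : 0 ≤ L.psi K p m := by
  have := dd_nonneg K p
  have : 0 ≤ Gam L.r2 K p := Gam_nonneg (L.rho2_nonneg _) K p
  unfold Lat.psi
  positivity
theorem sum_psi : ∃ C : ℝ, 0 < C ∧ ∀ (L : Lat) (K : L.Mat) (p : L.P),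
    ∑ m ∈ range L.N, L.psi K p m ≤ C := by
  obtain ⟨ρ, hρ⟩ : ∃ ρ : ℝ, ρ = (1 / 4) ^ (1 / 8 : ℝ) := ⟨_, rfl⟩
  have ρ0 : 0 ≤ ρ := by rw [hρ]; positivity
  have ρ1 : ρ < 1 := hρ ▸ Real.rpow_lt_one (by norm_num) (by norm_num) (by norm_num)
  have hC : 0 < (1 - ρ)⁻¹ := inv_pos.2 (sub_pos.2 ρ1)
  refine ⟨(1 - ρ)⁻¹ + (1 - ρ)⁻¹, add_pos hC hC, fun L K p => ?_⟩
  have hΓ : 0 ≤ Gam L.r2 K p := Gam_nonneg (L.rho2_nonneg _) K p
  rcases (dd_nonneg K p).eq_or_lt with hd | hd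
  · simpa [Lat.psi, ← hd] using (add_pos hC hC).le
  unfold Lat.psi
  generalize Gam L.r2 K p = Γ at *
  generalize dd K p = d at *
  have hex : ∃ k : ℕ, Γ ≤ 4 ^ k * d := (pow_unbounded_of_one_lt (Γ / d) (by norm_num)).imp
    fun _ h => ((div_lt_iff₀ hd).1 h).le
  have key : ∀ (m j : ℕ), 4 ^ m * d * Γ * 4 ^ j ≤ (4 ^ m * d + Γ) ^ 2 →
      (4 ^ m * d * Γ / (4 ^ m * d + Γ) ^ 2) ^ (1 / 8 : ℝ) ≤ ρ ^ j := fun m j h => by
    rw [hρ, Real.rpow_pow_comm (by norm_num)]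
    refine Real.rpow_le_rpow (by positivity) ?_ (by norm_num)
    rwa [one_div_pow, div_le_div_iff₀ (by positivity) (by positivity), one_mul]
  refine le_trans (sum_le_sum fun m _ => ?_) ((sum_add_distrib).trans_le (add_le_add
    (geo_up ρ0 ρ1 (range L.N) (Nat.find hex)) (geo_dn ρ0 ρ1 (range L.N) (Nat.find hex - 1))))
  have a0 : 0 < 4 ^ m * d := by positivity
  by_cases h : Nat.find hex ≤ m
  · rw [if_pos h]
    refine le_add_of_le_of_nonneg (key _ _ ?_) (by split_ifs <;> positivity)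
    have h1 := mul_le_mul_of_nonneg_right (Nat.find_spec hex)
      (by positivity : (0 : ℝ) ≤ 4 ^ (m - Nat.find hex))
    rw [mul_right_comm, ← pow_add, Nat.add_sub_cancel' h] at h1
    nlinarith [mul_le_mul_of_nonneg_left h1 a0.le, mul_nonneg a0.le hΓ]
  · rw [if_neg h, if_pos (by omega), zero_add]
    refine key _ _ ?_
    have h1 := not_le.1 (Nat.find_min hex (show Nat.find hex - 1 < Nat.find hex by omega))
    rw [show Nat.find hex - 1 = m + (Nat.find hex - 1 - m) by omega, pow_add] at h1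
    nlinarith [mul_le_mul_of_nonneg_left h1.le hΓ, mul_nonneg a0.le hΓ]

end Crest.Agent.N334.G
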