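import Crest.Agent.N334.G.Cav
import Crest.Agent.N334.G.Geo2
import Crest.Agent.N334.I.Mix

/-!
# Row 334, S0519 GAIN: measurability, boundedness, one-site averaging
-/

set_option autoImplicit false

open MeasureTheory Finset Complex
open scoped BigOperators ComplexConjugate

noncomputable section

namespace Crest.Agent.N334.G

namespace BM
variable {α : Type} [MeasurableSpace α] {F G : α → ℝ}
theorem const (r : ℝ) : BM fun _ : α => r := ⟨measurable_const, |r|, fun _ => le_rfl⟩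
theorem add (hF : BM F) (hG : BM G) : BM fun a => F a + G a :=
  let ⟨M, h⟩ := hF.bdd
  let ⟨M', h'⟩ := hG.bdd
  ⟨hF.meas.add hG.meas, M + M', fun a => (abs_add_le _ _).trans (add_le_add (h a) (h' a))⟩
theorem sub (hF : BM F) (hG : BM G) : BM fun a => F a - G a :=
  let ⟨M, h⟩ := hF.bdd
  let ⟨M', h'⟩ := hG.bdd
  ⟨hF.meas.sub hG.meas, M + M', fun a => (abs_sub _ _).trans (add_le_add (h a) (h' a))⟩
theorem neg (hF : BM F) : BM fun a => -F a :=
  ⟨hF.meas.neg, hF.bdd.imp fun _ h a => (abs_neg _).trans_le (h a)⟩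
theorem mul (hF : BM F) (hG : BM G) : BM fun a => F a * G a :=
  let ⟨M, h⟩ := hF.bdd
  let ⟨M', h'⟩ := hG.bdd
  ⟨hF.meas.mul hG.meas, M * M', fun a => (abs_mul _ _).trans_le
    (mul_le_mul (h a) (h' a) (abs_nonneg _) ((abs_nonneg _).trans (h a)))⟩
theorem const_mul (hF : BM F) (r : ℝ) : BM fun a => r * F a := (const r).mul hF
theorem pow (hF : BM F) (k : ℕ) : BM fun a => F a ^ k :=
  let ⟨M, h⟩ := hF.bdd
  ⟨hF.meas.pow_const k, M ^ k, fun a => (abs_pow _ _).trans_le
    (pow_le_pow_left₀ (abs_nonneg _) (h a) k)⟩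
theorem sum {ι : Type} (s : Finset ι) {F : ι → α → ℝ} (h : ∀ i ∈ s, BM (F i)) :
    BM fun a => ∑ i ∈ s, F i a := by
  choose! M hM using fun i hi => (h i hi).bdd
  exact ⟨Finset.measurable_sum s fun i hi => (h i hi).meas, ∑ i ∈ s, M i,
    fun a => (abs_sum_le_sum_abs _ _).trans (sum_le_sum fun i hi => hM i hi a)⟩
theorem ite {p : α → Prop} [DecidablePred p] (hp : MeasurableSet {a | p a}) (hF : BM F)
    (hG : BM G) : BM fun a => if p a then F a else G a :=
  let ⟨M, h⟩ := hF.bdd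
  let ⟨M', h'⟩ := hG.bdd
  ⟨Measurable.ite hp hF.meas hG.meas, max M M', fun a => by
    split_ifs
    exacts [(h a).trans (le_max_left _ _), (h' a).trans (le_max_right _ _)]⟩
theorem comp {β : Type} [MeasurableSpace β] (hF : BM F) {g : β → α} (hg : Measurable g) :
    BM fun b => F (g b) := ⟨hF.meas.comp hg, hF.bdd.imp fun _ h _ => h _⟩
theorem integrable (hF : BM F) (μ : Measure α) [IsFiniteMeasure μ] : Integrable F μ :=
  let ⟨M, h⟩ := hF.bdd
  Integrable.of_bound hF.meas.aestronglyMeasurable M (ae_of_all _ h)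
end BM

namespace Nice
variable {P : Type} [Fintype P] [DecidableEq P] {F G : (P → P → ℂ) → ℝ}
omit [DecidableEq P] in
theorem bm (hF : Nice F) {α : Type} [MeasurableSpace α] {K : α → P → P → ℂ} (hK : Measurable K)
    (hp : ∀ a, IsPort (K a)) : BM fun a => F (K a) :=
  ⟨hF.meas.comp hK, hF.bdd.imp fun _ h a => h _ (hp a)⟩
omit [DecidableEq P] in
theorem const (r : ℝ) : Nice fun _ : P → P → ℂ => r := ⟨measurable_const, |r|, fun _ _ => le_rfl⟩
omit [DecidableEq P] in
theorem add (hF : Nice F) (hG : Nice G) : Nice fun K => F K + G K :=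
  let ⟨M, h⟩ := hF.bdd
  let ⟨M', h'⟩ := hG.bdd
  ⟨hF.meas.add hG.meas, M + M', fun a b => (abs_add_le _ _).trans (add_le_add (h a b) (h' a b))⟩
omit [DecidableEq P] in
theorem sub (hF : Nice F) (hG : Nice G) : Nice fun K => F K - G K :=
  let ⟨M, h⟩ := hF.bdd
  let ⟨M', h'⟩ := hG.bdd
  ⟨hF.meas.sub hG.meas, M + M', fun a b => (abs_sub _ _).trans (add_le_add (h a b) (h' a b))⟩
omit [DecidableEq P] in
theorem mul (hF : Nice F) (hG : Nice G) : Nice fun K => F K * G K :=
  let ⟨M, h⟩ := hF.bdd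
  let ⟨M', h'⟩ := hG.bdd
  ⟨hF.meas.mul hG.meas, M * M', fun a b => (abs_mul _ _).trans_le
    (mul_le_mul (h a b) (h' a b) (abs_nonneg _) ((abs_nonneg _).trans (h a b)))⟩
omit [DecidableEq P] in
theorem pow (hF : Nice F) (k : ℕ) : Nice fun K => F K ^ k :=
  let ⟨M, h⟩ := hF.bdd
  ⟨hF.meas.pow_const k, M ^ k, fun a b => (abs_pow _ _).trans_le
    (pow_le_pow_left₀ (abs_nonneg _) (h a b) k)⟩
omit [DecidableEq P] in
theorem sum {ι : Type} (s : Finset ι) {F : ι → (P → P → ℂ) → ℝ} (h : ∀ i ∈ s, Nice (F i)) :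
    Nice fun K => ∑ i ∈ s, F i K := by
  choose! M hM using fun i hi => (h i hi).bdd
  exact ⟨Finset.measurable_sum s fun i hi => (h i hi).meas, ∑ i ∈ s, M i,
    fun a b => (abs_sum_le_sum_abs _ _).trans (sum_le_sum fun i hi => hM i hi a b)⟩
omit [DecidableEq P] in
theorem ite {p : (P → P → ℂ) → Prop} [DecidablePred p] (hp : MeasurableSet {K | p K})
    (hF : Nice F) (hG : Nice G) : Nice fun K => if p K then F K else G K :=
  let ⟨M, h⟩ := hF.bdd
  let ⟨M', h'⟩ := hG.bdd
  ⟨Measurable.ite hp hF.meas hG.meas, max M M', fun a b => by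
    split_ifs
    exacts [(h a b).trans (le_max_left _ _), (h' a b).trans (le_max_right _ _)]⟩
omit [DecidableEq P] in
/-- a quotient that is bounded on port matrices -/
theorem div (hF : Measurable F) (hG : Measurable G) {M : ℝ}
    (h : ∀ K, IsPort K → |F K / G K| ≤ M) : Nice fun K => F K / G K := ⟨hF.div hG, M, h⟩
omit [DecidableEq P] in
theorem of_le (hF : Measurable F) (hG : Nice G) (h : ∀ K, IsPort K → 0 ≤ F K ∧ F K ≤ G K) :
    Nice F :=
  ⟨hF, hG.bdd.imp fun _ hM K hK =>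
    (abs_of_nonneg (h K hK).1).trans_le ((h K hK).2.trans ((le_abs_self _).trans (hM K hK)))⟩
end Nice

section
variable {P : Type} [Fintype P] [DecidableEq P]
omit [DecidableEq P] in
theorem nice_cc (p q : P) : Nice fun K => cc K p q :=
  .of_le (by unfold cc; fun_prop) (.const 4) fun K hK =>
    ⟨cc_nonneg K p q, (cc_le_dd K p q).trans (hK.dd_le p)⟩
omit [DecidableEq P] in
theorem nice_dd (p : P) : Nice fun K => dd K p := .sum _ fun q _ => nice_cc p q
omit [DecidableEq P] in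
theorem nice_nu (p : P) : Nice fun K => nu K p := ((Nice.const 2).mul (nice_dd p)).sub (nice_cc p p)
omit [DecidableEq P] in
theorem nice_Gam (w : P → P → ℝ) (p : P) : Nice fun K => Gam w K p :=
  .sum _ fun q _ => (nice_cc p q).mul (.const _)
omit [DecidableEq P] in
theorem nice_En (w : P → P → ℝ) : Nice (En w) := .sum _ fun p _ => nice_Gam w p
omit [DecidableEq P] in
theorem nice_mv (f : P → ℝ) (p : P) : Nice fun K => mv f K p :=
  .sum _ fun q _ => (nice_cc p q).mul (.const _)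
omit [DecidableEq P] in
theorem nice_Gn {ι : Type} [Fintype ι] (Φ : ι → P → ℝ) (p : P) : Nice fun K => Gn Φ K p :=
  .of_le ((Nice.sum _ fun j _ => (nice_mv (Φ j) p).pow 2).meas.div (nice_nu p).meas)
    (nice_Gam _ p) fun K _ => ⟨Gn_nonneg Φ K p, Gn_le_Gam Φ K p⟩
omit [DecidableEq P] in
theorem nice_cc_nu (p q : P) : Nice fun K => cc K p q / nu K p :=
  .of_le ((nice_cc p q).meas.div (nice_nu p).meas) (.const 1) fun K _ =>
    have h := (dd_nonneg K p).trans (dd_le_nu K p)
    ⟨div_nonneg (cc_nonneg K p q) h, div_le_one_of_le₀ ((cc_le_dd K p q).trans (dd_le_nu K p)) h⟩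
theorem nice_Tm (f : P → ℝ) (p q : P) : Nice fun K => ‖Tm f K p q‖ ^ 2 :=
  .of_le (by unfold Tm Sm; fun_prop) (nice_Gam (fun q p => (f q - f p) ^ 2) q) fun K hK =>
    ⟨sq_nonneg _, (single_le_sum (f := fun p => ‖Tm f K p q‖ ^ 2) (fun _ _ => sq_nonneg _)
      (mem_univ p)).trans_eq (hK.T_col f q)⟩
theorem le_mul_add_div {c d e : ℝ} (h0 : 0 ≤ c) (h : c ≤ d) (he : 0 ≤ e) : c ≤ d * (e + c / d) := by
  rcases (h0.trans h).eq_or_lt with rfl | hd
  · simpa using h
  · rw [mul_add, mul_div_cancel₀ _ hd.ne']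
    exact le_add_of_nonneg_left (by positivity)
end

namespace Lat
variable (L : Lat)
theorem nice_nn (p : L.P) (m : ℕ) : Nice fun K => L.nn K p m := nice_Gam _ p
theorem nice_th (p : L.P) (m : ℕ) : Nice fun K => L.th K p m :=
  .of_le ((L.nice_nn p m).meas.div (nice_dd p).meas) (.const 67) fun K _ =>
    ⟨L.th_nonneg K p m, L.th_le K p m⟩
theorem nice_gd (Y : Finset L.X) {i : ℝ} (hi : 0 ≤ i) (p : L.P) (m : ℕ) :
    Nice fun K => L.gd Y i K p m := by
  refine ⟨?_, 5 + i, fun K _ => abs_le.2 ⟨?_, ?_⟩⟩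
  · unfold gd
    split_ifs
    exacts [((L.nice_th p m).meas.add_const _).log.neg, measurable_const]
  · linarith [(L.gd_bdd Y hi K p m).1]
  · linarith [(L.gd_bdd Y hi K p m).2]
theorem nice_Pot (Y : Finset L.X) {i : ℝ} (hi : 0 ≤ i) : Nice (L.Pot Y i) :=
  .sum _ fun p _ => .sum _ fun m _ => (Nice.const _).mul ((L.nice_nn p m).mul (L.nice_gd Y hi p m))
theorem nice_Red (Y : Finset L.X) {i : ℝ} (hi : 0 ≤ i) (y : L.P) :
    Nice fun K => L.Red Y i K y :=
  .sum _ fun m _ => ((Nice.const _).mul (L.nice_nn y m)).mul (.sum _ fun p _ =>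
    (nice_cc_nu y p).mul ((L.nice_gd Y hi p m).sub (L.nice_gd Y hi y m)))
theorem nice_Hub (Y1 Y : Finset L.X) {i : ℝ} (hi : 0 ≤ i) (j j' : ℝ) :
    Nice (L.Hub Y1 Y i j j') :=
  .sum _ fun _ _ => .sum _ fun m _ =>
    .ite (measurableSet_le (L.nice_gd Y hi _ m).meas measurable_const)
      (((Nice.const _).mul (L.nice_th _ m)).mul (.sum _ fun p _ =>
        .ite (measurableSet_le measurable_const (L.nice_gd Y hi p m).meas) (nice_cc _ p) (.const 0)))
      (.const 0)
theorem nice_Sh (i1 : ℝ) (p : L.P) : Nice fun K => L.Sh i1 K p :=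
  .sum _ fun m _ => .ite (measurableSet_le measurable_const (L.nice_th p m).meas)
    ((Nice.const _).mul (L.nice_nn p m)) (.const 0)
theorem nice_GN (p : L.P) : Nice fun K => L.GN K p := nice_Gn _ p
theorem nice_T2 (p q : L.P) : Nice fun K => L.T2 K p q := .sum _ fun _ _ => nice_Tm _ p q
theorem T2_nonneg' (K : L.Mat) (p q : L.P) : 0 ≤ L.T2 K p q := sum_nonneg fun _ _ => sq_nonneg _
theorem nice_psi (p : L.P) (m : ℕ) : Nice fun K => L.psi K p m := by
  have h1 := ((Nice.const (4 ^ m)).mul (nice_dd p)).meas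
  have h2 := (nice_Gam L.r2 p).meas
  refine .of_le (((h1.mul h2).div ((h1.add h2).pow_const 2)).pow_const _) (.const 1) fun K _ =>
    ⟨psi_nonneg L K p m, ?_⟩
  have k1 : 0 ≤ 4 ^ m * dd K p := mul_nonneg (by positivity) (dd_nonneg K p)
  have k2 : 0 ≤ Gam L.r2 K p := Gam_nonneg (fun p q => L.rx_nonneg _ _) K p
  exact Real.rpow_le_one (by positivity) (div_le_one_of_le₀ (by nlinarith) (sq_nonneg _))
    (by norm_num)
theorem nice_ph (x y : L.P) : Nice fun K => L.ph K x y :=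
  .of_le (((nice_cc x y).mul (L.nice_T2 x y)).meas.div
    (((nice_dd x).mul (nice_dd y)).add (nice_cc x y)).meas) (L.nice_T2 x y) fun K _ => by
    have h1 := cc_nonneg K x y
    have h2 := L.T2_nonneg' K x y
    have h3 := mul_nonneg (dd_nonneg K x) (dd_nonneg K y)
    exact ⟨by unfold ph; positivity, div_le_of_le_mul₀ (by positivity) h2 (by nlinarith)⟩
theorem nice_XX (x y z : L.P) : Nice fun K => L.XX K x y z :=
  .of_le ((((nice_cc x y).mul (nice_cc x z)).mul (L.nice_T2 z y)).meas.div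
    (((nice_dd x).meas.mul ((nice_dd y).meas.add ((nice_cc x y).meas.div (nice_dd x).meas))).mul
      ((nice_dd z).meas.add ((nice_cc x z).meas.div (nice_dd x).meas))))
    ((nice_dd x).mul (L.nice_T2 z y)) fun K _ => by
    have h1 := cc_nonneg K x y
    have h2 := cc_nonneg K x z
    have h3 := L.T2_nonneg' K z y
    have h4 := dd_nonneg K x
    have h5 := dd_nonneg K y
    have h6 := dd_nonneg K z
    refine ⟨by unfold XX; positivity, div_le_of_le_mul₀ (by positivity) (by positivity) ?_⟩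
    refine (mul_le_mul_of_nonneg_right (mul_le_mul (le_mul_add_div h1 (cc_le_dd K x y) h5)
      (le_mul_add_div h2 (cc_le_dd K x z) h6) h2 (by positivity)) h3).trans_eq (by ring)
theorem nice_Om (i : ℝ) (m : ℕ) (x z : L.P) : Nice fun K => L.Om i K m x z :=
  .of_le ((((Nice.const _).mul (L.nice_nn z m)).meas.add
    ((nice_cc x z).meas.div (nice_dd x).meas)).div
    ((nice_dd z).meas.add ((nice_cc x z).meas.div (nice_dd x).meas)))
    (.const (67 * Real.exp i + 1)) fun K _ => by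
    have h1 := div_nonneg (cc_nonneg K x z) (dd_nonneg K x)
    have h2 := dd_nonneg K z
    have h3 := Real.exp_pos i
    have h4 : 0 ≤ L.nn K z m := Gam_nonneg (L.wh_nonneg m) K z
    have h5 : L.nn K z m ≤ 67 * dd K z := by
      rw [← L.th_mul]; exact mul_le_mul_of_nonneg_right (L.th_le K z m) h2
    refine ⟨by unfold Om; positivity, div_le_of_le_mul₀ (by positivity) (by positivity) ?_⟩
    nlinarith [mul_le_mul_of_nonneg_left h5 h3.le, mul_nonneg h3.le h1]

theorem port_Km (E : ℝ) {η : ℝ} (hη : 0 < η) {γ : L.X → ℝ} (hγ : ∀ x, 0 ≤ γ x) (a : L.X → ℝ) :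
    IsPort (L.Km E η γ a) := by
  have key : ∀ y : L.X, IsPort (L.Km E η γ a) := fun y => by
    obtain ⟨c, h, -⟩ := exists_cav L E hη hγ a y
    have := h (a y) (γ y) (hγ y)
    rw [Function.update_eq_self, Function.update_eq_self] at this
    exact this ▸ c.port _ (hγ y)
  exact ⟨fun p q => (key p.1).symm p q, fun p q => (key p.1).unit p q⟩
theorem measurable_Gr (E η : ℝ) (γ : L.X → ℝ) (x y : L.X) :
    Measurable fun a => L.Gr (L.wv E η γ a) x y := by
  have h : Continuous fun a : L.X → ℝ =>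
      L.A.map Complex.ofReal + Matrix.diagonal (L.wv E η γ a) :=
    continuous_const.add (Continuous.matrix_diagonal (by unfold wv; fun_prop))
  simp only [Gr, Matrix.inv_def, Ring.inverse_eq_inv', Matrix.smul_apply, smul_eq_mul]
  exact h.matrix_det.measurable.inv.mul (h.matrix_adjugate.matrix_elem x y).measurable
theorem measurable_Km (E η : ℝ) (γ : L.X → ℝ) : Measurable fun a => L.Km E η γ a :=
  measurable_pi_lambda _ fun p => measurable_pi_lambda _ fun q =>
    (L.measurable_Gr E η γ p.1 q.1).const_mul _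
theorem measurable_sE (E η : ℝ) (γ : L.X → ℝ) (y : L.X) :
    Measurable fun a => L.sE E η γ a y :=
  ((measurable_ofReal.comp (measurable_pi_apply y)).sub_const _).sub
    ((L.measurable_Gr E η γ y y).const_div 1)
end Lat

namespace Stat
variable {L : Lat} (st : Stat L)
theorem bm_Km {F : L.Mat → ℝ} (hF : Nice F) {γ : L.X → ℝ} (hγ : ∀ x, 0 ≤ γ x) :
    BM fun a => F (L.Km st.E st.η γ a) :=
  hF.bm (L.measurable_Km _ _ γ) (L.port_Km _ st.η_pos hγ)
theorem update_nonneg (y : L.X) {g : ℝ} (hg : 0 ≤ g) (x : L.X) : 0 ≤ Function.update st.γ y g x := by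
  rcases eq_or_ne x y with rfl | h
  · rwa [Function.update_self]
  · rw [Function.update_of_ne h]; exact st.γ_nonneg x
theorem bm_Kr {F : L.Mat → ℝ} (hF : Nice F) {y : L.X} (hy : y ∈ st.Y) :
    BM fun a => F (st.Kr a y) :=
  (st.bm_Km hF (st.update_nonneg y (st.hY y hy).2.1.le)).comp (measurable_update_left (a := y))
theorem measurableSet_Gd (y : L.X) : MeasurableSet {a | y ∈ st.Gd a} := by
  have h1 := measurable_re.comp (L.measurable_sE st.E st.η st.γ y)
  have h2 := measurable_im.comp (L.measurable_sE st.E st.η st.γ y)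
  have h3 := (h1.sub_const (st.a0 y)).abs.const_sub (st.b y)
  simp only [Gd, mem_filter, Good]
  exact (MeasurableSet.const _).inter ((measurableSet_lt measurable_const h3).inter
    ((measurableSet_le (((h2.const_add _).const_mul _).mul_const _) (h3.pow_const 2)).inter
      (measurableSet_le ((measurable_pi_apply y).sub h1).abs (h3.div_const 2))))
theorem Ia_add {F G : (L.X → ℝ) → ℝ} (hF : BM F) (hG : BM G) :
    st.Ia (fun a => F a + G a) = st.Ia F + st.Ia G :=
  integral_add (hF.integrable _) (hG.integrable _)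
theorem Ia_sub {F G : (L.X → ℝ) → ℝ} (hF : BM F) (hG : BM G) :
    st.Ia (fun a => F a - G a) = st.Ia F - st.Ia G :=
  integral_sub (hF.integrable _) (hG.integrable _)
theorem Ia_mul (r : ℝ) (F : (L.X → ℝ) → ℝ) : st.Ia (fun a => r * F a) = r * st.Ia F :=
  integral_const_mul r F
theorem Ia_const (r : ℝ) : st.Ia (fun _ => r) = r := by simp [Ia]
theorem Ia_sum {ι : Type} (s : Finset ι) {F : ι → (L.X → ℝ) → ℝ} (h : ∀ i ∈ s, BM (F i)) :
    st.Ia (fun a => ∑ i ∈ s, F i a) = ∑ i ∈ s, st.Ia (F i) :=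
  integral_finsetSum s fun i hi => (h i hi).integrable _
theorem Ia_mono {F G : (L.X → ℝ) → ℝ} (hF : BM F) (hG : BM G) (h : ∀ a, F a ≤ G a) :
    st.Ia F ≤ st.Ia G := integral_mono (hF.integrable _) (hG.integrable _) h
theorem Ia_nonneg {F : (L.X → ℝ) → ℝ} (h : ∀ a, 0 ≤ F a) : 0 ≤ st.Ia F := integral_nonneg h
theorem Ia_update {F : (L.X → ℝ) → ℝ} (hF : BM F) (y : L.X) :
    st.Ia F = st.Ia fun a => ∫ t, F (Function.update a y t) ∂st.mu y := by
  have h := I.integral_pi_update st.mu y (st.mu y) (F := F)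
  rw [Function.update_eq_self] at h
  exact h (hF.integrable _)
theorem bm_update {F : (L.X → ℝ) → ℝ} (hF : BM F) (y : L.X) :
    BM fun a => ∫ t, F (Function.update a y t) ∂st.mu y :=
  ⟨((hF.meas.comp measurable_update').stronglyMeasurable.integral_prod_right').measurable,
    hF.bdd.imp fun M h a => by
      simpa using norm_integral_le_of_norm_le_const (μ := st.mu y)
        (f := fun t => F (Function.update a y t)) (C := M) (ae_of_all _ fun t => h _)⟩
/-- one-site comparison lifts to the ensemble -/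
theorem lift {F G : (L.X → ℝ) → ℝ} (hF : BM F) (hG : BM G) (y : L.X)
    (h : ∀ a, ∫ t, F (Function.update a y t) ∂st.mu y ≤ ∫ t, G (Function.update a y t) ∂st.mu y) :
    st.Ia F ≤ st.Ia G := by
  rw [st.Ia_update hF y, st.Ia_update hG y]
  exact st.Ia_mono (st.bm_update hF y) (st.bm_update hG y) h
/-- everything at the site `y ∈ Y` in terms of a cavity -/
theorem cav (a : L.X → ℝ) {y : L.X} (hy : y ∈ st.Y) : ∃ c : Cav ((y, true) : L.P),
    (∀ t g, 0 ≤ g →
      L.Km st.E st.η (Function.update st.γ y g) (Function.update a y t) = c.K t g) ∧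
    (∀ t, L.Km st.E st.η st.γ (Function.update a y t) = c.K t (st.γ y)) ∧
    (∀ t, st.Kr (Function.update a y t) y = c.K (st.a0 y) (st.b y)) ∧
    (∀ t, y ∈ st.Gd (Function.update a y t) ↔ Good (st.a0 y) (st.b y) (st.γ y) c.s t) := by
  obtain ⟨c, h1, h2, -⟩ := exists_cav L st.E st.η_pos st.γ_nonneg a y
  refine ⟨c, h1, fun t => ?_, fun t => ?_, fun t => ?_⟩
  · rw [← h1 t _ (st.γ_nonneg y), Function.update_eq_self]
  · rw [Kr, Lat.Kref, Function.update_idem, h1 _ _ (st.hY y hy).2.1.le]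
  · have := h2 t _ (st.γ_nonneg y)
    rw [Function.update_eq_self] at this
    simp only [Gd, mem_filter, hy, true_and, this, Function.update_self]
theorem IB_nonneg {Y1 : Finset L.X} (hY : Y1 ⊆ st.Y) {W : L.Mat → ℝ} (hW : ∀ K, 0 ≤ W K)
    {w : L.P → L.P → ℝ} (hw : ∀ p q, 0 ≤ w p q) : 0 ≤ st.IB Y1 W w :=
  st.Ia_nonneg fun _ => sum_nonneg fun y hy => mul_nonneg (hW _)
    (mul_nonneg (div_nonneg (st.γ_nonneg y) (st.hY y (hY hy)).2.1.le) (Gam_nonneg hw _ _))
theorem IB_mono {Y1 Y2 : Finset L.X} (h12 : Y1 ⊆ Y2) (hY : Y2 ⊆ st.Y) {W W' : L.Mat → ℝ}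
    (hN : Nice W) (hN' : Nice W') (hW : ∀ K, 0 ≤ W K) (hWW : ∀ K, W K ≤ W' K)
    {w w' : L.P → L.P → ℝ} (hw : ∀ p q, 0 ≤ w p q) (hww : ∀ p q, w p q ≤ w' p q) :
    st.IB Y1 W w ≤ st.IB Y2 W' w' := by
  have hb : ∀ y ∈ Y2, 0 ≤ st.γ y / st.b y := fun y hy =>
    div_nonneg (st.γ_nonneg y) (st.hY y (hY hy)).2.1.le
  refine st.Ia_mono
    (.sum _ fun y hy => st.bm_Kr (hN.mul ((Nice.const _).mul (nice_Gam w _))) (hY (h12 hy)))
    (.sum _ fun y hy => st.bm_Kr (hN'.mul ((Nice.const _).mul (nice_Gam w' _))) (hY hy))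
    fun a => (sum_le_sum fun y hy => ?_).trans (sum_le_sum_of_subset_of_nonneg h12 fun y hy _ =>
      mul_nonneg ((hW _).trans (hWW _)) (mul_nonneg (hb y hy)
        (Gam_nonneg (fun p q => (hw p q).trans (hww p q)) _ _)))
  exact mul_le_mul (hWW _) (mul_le_mul_of_nonneg_left (sum_le_sum fun q _ =>
    mul_le_mul_of_nonneg_left (hww _ q) (cc_nonneg _ _ _)) (hb y (h12 hy)))
    (mul_nonneg (hb y (h12 hy)) (Gam_nonneg hw _ _)) ((hW _).trans (hWW _))
end Stat

end Crest.Agent.N334.G
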