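import Crest.Agent.N334.G.Basic

/-!
# Row 334, S0519 GAIN: the trace identity for the cubic form
-/

set_option autoImplicit false

open MeasureTheory Finset Complex
open scoped BigOperators ComplexConjugate Matrix

noncomputable section

namespace Crest.Agent.N334.G

namespace Tr

open AC Matrix

variable {P : Type} [Fintype P] [DecidableEq P]

/-- squared Hilbert-Schmidt norm -/
def hs (A : Matrix P P ℂ) : ℝ := ∑ q, nsq fun p => A p q

omit [DecidableEq P] in
theorem hs_nonneg (A : Matrix P P ℂ) : 0 ≤ hs A := sum_nonneg fun _ _ => nsq_nonneg _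

omit [DecidableEq P] in
theorem hs_add (A B : Matrix P P ℂ) : hs (A + B) ≤ 2 * hs A + 2 * hs B := by
  simp only [hs, mul_sum, ← sum_add_distrib]
  exact sum_le_sum fun q _ => nsq_add_le _ _

omit [DecidableEq P] in
theorem hs_le {A B : Matrix P P ℂ} {c : ℝ} (h : ∀ p q, ‖A p q‖ ≤ c * ‖B p q‖) :
    hs A ≤ c ^ 2 * hs B := by
  simp only [hs, nsq, mul_sum]
  refine sum_le_sum fun q _ => sum_le_sum fun p _ => ?_
  rw [← mul_pow]
  exact pow_le_pow_left₀ (norm_nonneg _) (h p q) 2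

omit [DecidableEq P] in
theorem hs_conjTranspose (A : Matrix P P ℂ) : hs Aᴴ = hs A := by
  simp only [hs, nsq, conjTranspose_apply, norm_star]
  exact sum_comm

omit [DecidableEq P] in
theorem hs_mul {A : Matrix P P ℂ} {C : ℝ} (h : Bd A C) (B : Matrix P P ℂ) :
    hs (A * B) ≤ C ^ 2 * hs B := by
  simp only [hs, mul_sum]
  exact sum_le_sum fun q _ => h fun p => B p q

omit [DecidableEq P] in
theorem hs_mul' (A : Matrix P P ℂ) {B : Matrix P P ℂ} {C : ℝ} (h : Bd B C) :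
    hs (A * B) ≤ C ^ 2 * hs A := by
  rw [← hs_conjTranspose, conjTranspose_mul, ← hs_conjTranspose A]
  exact hs_mul h.conjTranspose _

omit [DecidableEq P] in
theorem trace_hs (A : Matrix P P ℂ) : (Aᴴ * A).trace = hs A := by
  simp only [trace, Matrix.diag, mul_apply, conjTranspose_apply, hs, nsq, star_def, Complex.conj_mul']
  push_cast
  rfl

theorem hs_sandwich (X : Matrix P P ℂ) {g : P → ℝ} {G : ℝ} (hg : ∀ p, |g p| ≤ G) :
    hs (X * diagonal (fun p => (g p : ℂ)) * Xᴴ) ≤ G ^ 2 * hs (Xᴴ * X) := by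
  set d : Matrix P P ℂ := diagonal fun p => (g p : ℂ) with hd
  have h1 : dᴴ = d := by simp [hd, diagonal_conjTranspose]
  have h2 : (hs (X * d * Xᴴ) : ℂ) = ((Xᴴ * X)ᴴ * (d * (Xᴴ * X) * d)).trace := by
    rw [← trace_hs]
    simp only [conjTranspose_mul, conjTranspose_conjTranspose, h1, Matrix.mul_assoc]
    conv_rhs => rw [trace_mul_comm]
    simp only [Matrix.mul_assoc]
  have h3 := congrArg Complex.re h2
  rw [ofReal_re] at h3
  rw [h3]
  simp only [trace, Matrix.diag, re_sum, hs, nsq, mul_sum]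
  refine sum_le_sum fun q _ => ?_
  rw [mul_apply, re_sum]
  refine sum_le_sum fun p _ => (re_le_norm _).trans ?_
  rw [hd, mul_diagonal, diagonal_mul, conjTranspose_apply, norm_mul, norm_mul, norm_mul, norm_star,
    norm_real, norm_real, Real.norm_eq_abs, Real.norm_eq_abs]
  have := mul_le_mul (hg p) (hg q) (abs_nonneg _) ((abs_nonneg _).trans (hg p))
  nlinarith [sq_nonneg ‖(Xᴴ * X) p q‖]

/-- `U_p \bar U_q - 1` -/
def ee (U : P → ℂ) (p q : P) : ℂ := U p * (U q)⁻¹ - 1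

/-- the `k`-th difference -/
def DD (U : P → ℂ) (k : ℕ) (K : P → P → ℂ) : Matrix P P ℂ := of fun p q => ee U p q ^ k * K p q

variable {U : P → ℂ} (hU : ∀ p, ‖U p‖ = 1) {K : P → P → ℂ} (hK : IsPort K)

omit [Fintype P] [DecidableEq P] in
include hU in
theorem U_ne (p : P) : U p ≠ 0 := norm_ne_zero_iff.1 (by rw [hU]; exact one_ne_zero)

omit [Fintype P] [DecidableEq P] in
include hU in
theorem conj_ee (p q : P) : conj (ee U p q) = ee U q p := by
  simp only [ee, map_sub, map_mul, map_inv₀, ← Complex.inv_eq_conj (hU _), inv_inv, map_one, mul_comm]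

omit [Fintype P] [DecidableEq P] in
include hU in
theorem norm_ee (p q : P) : ‖ee U p q‖ = ‖U p - U q‖ := by
  have : ee U p q = (U p - U q) * (U q)⁻¹ := by
    rw [ee, sub_mul, mul_inv_cancel₀ (U_ne hU q)]
  rw [this, norm_mul, norm_inv, hU, inv_one, mul_one]

include hK in
theorem bd_K : Bd (of K) 2 := fun x => (hK.K_op x).trans_eq (by rw [nsq]; norm_num)

include hU hK in
theorem bd_D1 : Bd (DD U 1 K) 4 := by
  have e : DD U 1 K = diagonal U * of K * diagonal (fun p => (U p)⁻¹) - of K := by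
    ext p q
    simp only [DD, of_apply, Matrix.sub_apply, mul_diagonal, diagonal_mul, ee]
    ring
  have h := (((bd_diagonal fun p => (hU p).le).mul (bd_K hK)).mul (bd_diagonal (C := 1)
    (d := fun p => (U p)⁻¹) fun p => by rw [norm_inv, hU, inv_one])).sub (bd_K hK)
    (by norm_num) (by norm_num)
  rw [e]
  exact h.mono (by norm_num) (by norm_num)

include hU hK in
theorem hs_gram : hs ((DD U 1 K)ᴴ * DD U 1 K) ≤ 100 * hs (DD U 2 K) := by
  let A1 : Matrix P P ℂ := of fun q r => ee U q r ^ 2 * -K q r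
  let A2 : Matrix P P ℂ := of fun q r => ee U q r ^ 2 * -conj (K q r)
  let A3 := (DD U 2 K)ᴴ * (diagonal (fun p => -U p ^ 2) * of K * diagonal fun p => (U p)⁻¹ ^ 2)
  let A4 := (-(of K)ᴴ - (2 : ℂ) • (DD U 1 K)ᴴ) * DD U 2 K
  have e : ∀ q r, ((DD U 1 K)ᴴ * DD U 1 K) q r = (1 / 2) * (A1 + A2 + A3 + A4) q r := fun q r => by
    have h1 : A1 q r + A2 q r = ∑ p, ee U q r ^ 2 * (conj (K p q) * K p r) := by
      rw [← mul_sum, hK.unit]
      simp only [A1, A2, of_apply]
      ring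
    simp only [Matrix.add_apply, h1]
    simp only [A3, A4, mul_apply (M := _ᴴ), mul_apply (M := _ - _), mul_diagonal, diagonal_mul,
      ← sum_add_distrib, mul_sum, Matrix.sub_apply, Matrix.neg_apply, Matrix.smul_apply,
      conjTranspose_apply, DD, of_apply, star_def, map_mul, map_pow, conj_ee hU, smul_eq_mul]
    refine sum_congr rfl fun p _ => ?_
    have := U_ne hU p
    have := U_ne hU q
    have := U_ne hU r
    simp only [ee]
    field_simp
    ring
  have h0 : hs ((DD U 1 K)ᴴ * DD U 1 K) ≤ (1 / 2) ^ 2 * hs (A1 + A2 + A3 + A4) :=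
    hs_le fun q r => by rw [e, norm_mul]; norm_num
  have h1 : hs A1 ≤ 1 ^ 2 * hs (DD U 2 K) := hs_le fun q r => by simp [A1, DD]
  have h2 : hs A2 ≤ 1 ^ 2 * hs (DD U 2 K) := hs_le fun q r => by simp [A2, DD]
  have h3 : hs A3 ≤ (1 * 2 * 1) ^ 2 * hs (DD U 2 K) := by
    rw [← hs_conjTranspose (DD U 2 K)]
    exact hs_mul' _ (((bd_diagonal fun p => by simp [hU]).mul (bd_K hK)).mul
      (bd_diagonal fun p => by simp [hU]))
  have h4 : hs A4 ≤ (2 + ‖(2 : ℂ)‖ * 4) ^ 2 * hs (DD U 2 K) :=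
    hs_mul ((bd_K hK).conjTranspose.neg.sub ((bd_D1 hU hK).conjTranspose.smul 2) (by norm_num)
      (by positivity)) _
  rw [Complex.norm_two] at h4
  have := hs_add (A1 + A2 + A3) A4
  have := hs_add (A1 + A2) A3
  have := hs_add A1 A2
  have := hs_nonneg (DD U 2 K)
  linarith

omit [DecidableEq P] in
include hU hK in
theorem Gam_eq (y : P) : Gam (fun p q => ‖U p - U q‖ ^ 4) K y = nsq fun p => DD U 2 K p y := by
  refine sum_congr rfl fun p _ => ?_
  change cc K y p * ‖U y - U p‖ ^ 4 = ‖ee U p y ^ 2 * K p y‖ ^ 2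
  rw [norm_mul, norm_pow, norm_ee hU, norm_sub_rev, cc, hK.symm y p]
  ring

omit [DecidableEq P] in
theorem dot_le {a b c : P → ℂ} (h : ∀ p, ‖a p‖ = ‖c p‖) :
    ‖∑ p, a p * b p‖ ^ 2 ≤ nsq c * nsq b := by
  have : nsq c = nsq a := by simp only [nsq, h]
  rw [this]
  exact cs' a b

end Tr

open Tr AC Matrix in
theorem trace3 : ∃ C : ℝ, 0 < C ∧ ∀ (P : Type) [Fintype P] [DecidableEq P] (K : P → P → ℂ),
    IsPort K → ∀ (U : P → ℂ) (h : P → ℝ) (H : ℝ), (∀ p, ‖U p‖ = 1) → (∀ p, |h p| ≤ H) →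
    (∀ y, Gam (fun p q => ‖U p - U q‖ ^ 4) K y = 0 → Th3 h U K y = 0) ∧
    ∑ y, ‖Th3 h U K y‖ ^ 2 / Gam (fun p q => ‖U p - U q‖ ^ 4) K y ≤
      C * H ^ 2 * En (fun p q => ‖U p - U q‖ ^ 4) K := by
  refine ⟨4000, by norm_num, fun P _ _ K hK U h H hU hh => ?_⟩
  let d : Matrix P P ℂ := diagonal fun p => (h p : ℂ)
  have hd : Bd d H := bd_diagonal fun p => by rw [norm_real]; exact hh p
  let B1 := d * ((DD U 2 K).map star * (diagonal (fun p => (U p)⁻¹ ^ 2) * of K))
  let B2 := (DD U 2 K)ᴴ * (d * of K)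
  let B3 := d * (DD U 1 K * (DD U 1 K)ᴴ).map star
  let B4 := (DD U 1 K * d * (DD U 1 K)ᴴ).map star
  have e : ∀ y, Th3 h U K y = ∑ p, (U y ^ 2 * DD U 2 K p y) * B1 p y
      + ∑ p, (ee U y p ^ 2 * K p y) * B2 p y + 2 * (∑ p, (ee U p y * ee U y p * K p y) * B3 p y
      + ∑ p, (ee U p y * ee U y p * K p y) * B4 p y) := fun y => by
    simp only [B1, B2, B3, B4, d, diagonal_mul, mul_apply (M := Matrix.map _ _), mul_apply (M := _ᴴ),
      mul_apply (N := _ᴴ), map_apply, mul_diagonal, conjTranspose_apply, DD, of_apply, star_def,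
      map_sum, map_mul, map_pow, conj_ee hU, conj_conj, conj_ofReal, mul_sum, mul_add, Th3]
    rw [sum_comm (f := fun p q => ee U y p ^ 2 * K p y * _),
      sum_comm (f := fun p q => 2 * (ee U p y * ee U y p * K p y * (_ * (h q : ℂ) * _)))]
    simp only [← sum_add_distrib]
    refine sum_congr rfl fun p _ => sum_congr rfl fun q _ => ?_
    have h1 : ((‖U p - U q‖ ^ 4 : ℝ) : ℂ) = (ee U q p * ee U p q) ^ 2 := by
      rw [← conj_ee hU p q, Complex.conj_mul', norm_ee hU]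
      push_cast
      ring
    rw [h1, hK.symm y q, hK.symm y p, hK.symm q p]
    have := U_ne hU p
    have := U_ne hU q
    have := U_ne hU y
    simp only [ee]
    field_simp
    ring
  have hn : ∀ p y, ‖ee U y p‖ = ‖ee U p y‖ := fun p y => by rw [← conj_ee hU, norm_conj]
  have key : ∀ y, ‖Th3 h U K y‖ ^ 2 ≤ (16 * ((nsq fun p => B1 p y) + (nsq fun p => B2 p y) +
      (nsq fun p => B3 p y) + nsq fun p => B4 p y)) * Gam (fun p q => ‖U p - U q‖ ^ 4) K y := by
    intro y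
    rw [Gam_eq hU hK, e]
    have h1 := dot_le (a := fun p => U y ^ 2 * DD U 2 K p y) (b := fun p => B1 p y)
      (c := fun p => DD U 2 K p y) fun p => by simp [hU]
    have h2 := dot_le (a := fun p => ee U y p ^ 2 * K p y) (b := fun p => B2 p y)
      (c := fun p => DD U 2 K p y) fun p => by simp [DD, hn p y]
    have h3 := dot_le (a := fun p => ee U p y * ee U y p * K p y) (b := fun p => B3 p y)
      (c := fun p => DD U 2 K p y) fun p => by simp [DD, hn p y, sq]
    have h4 := dot_le (a := fun p => ee U p y * ee U y p * K p y) (b := fun p => B4 p y)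
      (c := fun p => DD U 2 K p y) fun p => by simp [DD, hn p y, sq]
    have h5 : ∀ a b c d : ℂ, ‖a + b + 2 * (c + d)‖ ^ 2
        ≤ 16 * (‖a‖ ^ 2 + ‖b‖ ^ 2 + ‖c‖ ^ 2 + ‖d‖ ^ 2) := fun a b c d => by
      have : ‖a + b + 2 * (c + d)‖ ≤ ‖a‖ + ‖b‖ + 2 * (‖c‖ + ‖d‖) :=
        (norm_add_le _ _).trans (add_le_add (norm_add_le _ _) (by
          rw [norm_mul, Complex.norm_two]
          exact mul_le_mul_of_nonneg_left (norm_add_le _ _) zero_le_two))
      refine (pow_le_pow_left₀ (norm_nonneg _) this 2).trans ?_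
      nlinarith [sq_nonneg (‖a‖ - ‖b‖), sq_nonneg (‖a‖ - ‖c‖), sq_nonneg (‖a‖ - ‖d‖),
        sq_nonneg (‖b‖ - ‖c‖), sq_nonneg (‖b‖ - ‖d‖), sq_nonneg (‖c‖ - ‖d‖), sq_nonneg ‖a‖,
        sq_nonneg ‖b‖, sq_nonneg ‖c‖, sq_nonneg ‖d‖]
    refine (h5 _ _ _ _).trans ?_
    linarith
  refine ⟨fun y hy => ?_, ?_⟩
  · have := key y
    rw [hy, mul_zero] at this
    exact norm_eq_zero.1 (pow_eq_zero_iff two_ne_zero |>.1 (le_antisymm this (sq_nonneg _)))
  have hE : En (fun p q => ‖U p - U q‖ ^ 4) K = hs (DD U 2 K) := sum_congr rfl fun y _ => Gam_eq hU hK y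
  have hm : ∀ A : Matrix P P ℂ, hs (A.map star) ≤ 1 ^ 2 * hs A := fun A => hs_le fun p q => by simp
  have hg := hs_gram hU hK
  have h0 := hs_nonneg (DD U 2 K)
  have h1 : hs B1 ≤ H ^ 2 * (4 * hs (DD U 2 K)) := by
    refine (hs_mul hd _).trans (mul_le_mul_of_nonneg_left ?_ (sq_nonneg _))
    have := hs_mul' ((DD U 2 K).map star) ((bd_diagonal (C := 1) (d := fun p => (U p)⁻¹ ^ 2)
      fun p => by simp [hU]).mul (bd_K hK))
    linarith [hm (DD U 2 K)]
  have h2 : hs B2 ≤ (H * 2) ^ 2 * hs (DD U 2 K) := by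
    rw [← hs_conjTranspose (DD U 2 K)]
    exact hs_mul' _ (hd.mul (bd_K hK))
  have h3 : hs B3 ≤ H ^ 2 * (100 * hs (DD U 2 K)) := by
    refine (hs_mul hd _).trans (mul_le_mul_of_nonneg_left ?_ (sq_nonneg _))
    have := hs_sandwich (DD U 1 K) (g := fun _ => 1) (G := 1) fun _ => by simp
    rw [ofReal_one, diagonal_one, Matrix.mul_one] at this
    linarith [hm (DD U 1 K * (DD U 1 K)ᴴ)]
  have h4 : hs B4 ≤ H ^ 2 * (100 * hs (DD U 2 K)) := by
    have := (hs_sandwich (DD U 1 K) hh).trans (mul_le_mul_of_nonneg_left hg (sq_nonneg _))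
    linarith [hm (DD U 1 K * d * (DD U 1 K)ᴴ)]
  calc _ ≤ ∑ y, 16 * ((nsq fun p => B1 p y) + (nsq fun p => B2 p y) +
        (nsq fun p => B3 p y) + nsq fun p => B4 p y) :=
      sum_le_sum fun y _ => div_le_of_le_mul₀ (Gam_nonneg (fun _ _ => by positivity) K y)
        (mul_nonneg (by norm_num) (add_nonneg (add_nonneg (add_nonneg (nsq_nonneg _) (nsq_nonneg _))
          (nsq_nonneg _)) (nsq_nonneg _))) (key y)
    _ = 16 * (hs B1 + hs B2 + hs B3 + hs B4) := by simp only [hs, ← mul_sum, sum_add_distrib]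
    _ ≤ _ := by
      rw [hE]
      nlinarith [mul_nonneg (sq_nonneg H) h0]

end Crest.Agent.N334.G
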