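import Crest.Agent.N334.G.B0
import Crest.Agent.N334.G.Lift
import Crest.Agent.N334.G.Trace

/-!
# Row 334, S0519 GAIN (B), part 0a: linearisation coefficients of the depth potential and the
cubic bias functional (helper83)
-/

set_option autoImplicit false

open MeasureTheory Finset Complex
open scoped BigOperators ComplexConjugate

noncomputable section

namespace Crest.Agent.N334.G.B0

variable (L : Lat)

def Fc (Y : Finset L.X) (i : ℝ) (K : L.Mat) (p : L.P) (m : ℕ) : ℝ :=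
  if p.2 = true ∧ p.1 ∈ Y then fn (Real.exp (-i)) (L.th K p m) else i
def Dc (Y : Finset L.X) (i : ℝ) (K : L.Mat) (p : L.P) (m : ℕ) : ℝ :=
  if p.2 = true ∧ p.1 ∈ Y then fd (Real.exp (-i)) (L.th K p m) else 0
def Wt (Y : Finset L.X) (i : ℝ) (K : L.Mat) (p q : L.P) : ℝ :=
  ∑ m ∈ range L.N, 4 ^ m * Fc L Y i K p m * L.wh m p q
def hK (Y : Finset L.X) (i : ℝ) (K : L.Mat) (m' : ℕ) (p : L.P) : ℝ :=
  (∑ m ∈ range L.N, 4 ^ m * L.al m m' * Fc L Y i K p m) / 4 ^ m'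
def Uj (m : ℕ) (j : Fin 2) : L.P → ℂ := fun p => L.U (m + 1) j p.1
def TT (Y : Finset L.X) (i : ℝ) (K : L.Mat) (y : L.P) : ℝ :=
  ∑ m ∈ range L.N, ∑ j, 4 ^ m * (‖Th3 (hK L Y i K m) (Uj L m j) K y‖ ^ 2 /
    Gam (fun p q => ‖Uj L m j p - Uj L m j q‖ ^ 4) K y)
def EE (K : L.Mat) (y : L.P) : ℝ := ∑ p, cc K y p * (Gam L.r2 K p / dd K p)

variable {L}

theorem r2_nonneg (p q : L.P) : 0 ≤ L.r2 p q := L.rx_nonneg _ _
theorem r2_symm (p q : L.P) : L.r2 p q = L.r2 q p := L.rx_symm _ _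
theorem r2_self (p : L.P) : L.r2 p p = 0 := L.rx_self _
theorem r2_tri (y p q : L.P) : L.r2 p q ≤ 2 * L.r2 y p + 2 * L.r2 y q := by
  rw [r2_symm y p]; exact L.rx_le_two _ _ _

theorem Fc_bd (Y : Finset L.X) (i : ℝ) (K : L.Mat) (p : L.P) (m : ℕ) :
    L.gd Y i K p m - 1 ≤ Fc L Y i K p m ∧ Fc L Y i K p m ≤ L.gd Y i K p m := by
  unfold Fc Lat.gd fn
  split_ifs
  · have h0 := L.th_nonneg K p m
    have he := Real.exp_pos (-i)
    have h1 : 0 ≤ L.th K p m / (L.th K p m + Real.exp (-i)) := by positivity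
    have h2 : L.th K p m / (L.th K p m + Real.exp (-i)) ≤ 1 := by
      rw [div_le_one (by positivity)]; linarith
    constructor <;> linarith
  · constructor <;> linarith

theorem Fc_abs (Y : Finset L.X) {i : ℝ} (hi : 1 ≤ i) (K : L.Mat) (p : L.P) (m : ℕ) :
    |Fc L Y i K p m| ≤ 7 * i := by
  have h1 := Fc_bd Y i K p m
  have h2 := L.gd_bdd Y (show 0 ≤ i by linarith) K p m
  rw [abs_le]; constructor <;> linarith [h1.1, h1.2, h2.1, h2.2]

theorem Dc_bd (Y : Finset L.X) (i : ℝ) (K : L.Mat) (p : L.P) (m : ℕ) :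
    0 ≤ Dc L Y i K p m ∧ Dc L Y i K p m ≤ L.th K p m := by
  have h0 := L.th_nonneg K p m
  unfold Dc fd
  split_ifs
  · have he := Real.exp_pos (-i)
    refine ⟨by positivity, ?_⟩
    rw [div_le_iff₀ (by positivity)]; nlinarith
  · exact ⟨le_rfl, h0⟩

theorem sum_th (K : L.Mat) (p : L.P) :
    ∑ m ∈ range L.N, 4 ^ m * L.th K p m = Gam L.r2 K p / dd K p := by
  rw [← L.sum_nn, sum_div]
  exact sum_congr rfl fun m _ => by unfold Lat.th; ring

theorem sum_Dc (Y : Finset L.X) (i : ℝ) (K : L.Mat) (p : L.P) :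
    |∑ m ∈ range L.N, 4 ^ m * Dc L Y i K p m| ≤ Gam L.r2 K p / dd K p := by
  rw [abs_of_nonneg (sum_nonneg fun m _ => mul_nonneg (by positivity) (Dc_bd Y i K p m).1),
    ← sum_th]
  exact sum_le_sum fun m _ => mul_le_mul_of_nonneg_left (Dc_bd Y i K p m).2 (by positivity)

theorem Wt_abs (Y : Finset L.X) {i : ℝ} (hi : 1 ≤ i) (K : L.Mat) (p q : L.P) :
    |Wt L Y i K p q| ≤ 7 * i * L.r2 p q := by
  unfold Wt
  rw [← L.sum_wh, mul_sum]
  refine (abs_sum_le_sum_abs _ _).trans (sum_le_sum fun m _ => ?_)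
  have := L.wh_nonneg m p q
  rw [abs_mul, abs_mul, abs_of_nonneg this, abs_of_nonneg (by positivity : (0 : ℝ) ≤ 4 ^ m)]
  calc _ ≤ 4 ^ m * (7 * i) * L.wh m p q := by gcongr; exact Fc_abs Y hi K p m
    _ = _ := by ring

theorem hK_abs (Y : Finset L.X) {i : ℝ} (hi : 1 ≤ i) (K : L.Mat) {m' : ℕ} (hm : m' < L.N)
    (p : L.P) : |hK L Y i K m' p| ≤ 7 * i := by
  unfold hK
  rw [abs_div, abs_of_nonneg (by positivity : (0 : ℝ) ≤ 4 ^ m'), div_le_iff₀ (by positivity),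
    ← L.sum_al hm, mul_sum]
  refine (abs_sum_le_sum_abs _ _).trans (sum_le_sum fun m _ => ?_)
  have h0 : 0 ≤ 4 ^ m * L.al m m' := mul_nonneg (by positivity) (L.al_nonneg m m')
  rw [abs_mul, abs_of_nonneg h0, mul_comm]
  exact mul_le_mul_of_nonneg_right (Fc_abs Y hi K p m) h0

theorem s4_eq (m : ℕ) (p q : L.P) : L.s4 m p q = ∑ j, ‖Uj L m j p - Uj L m j q‖ ^ 4 := by
  unfold Lat.s4 Lat.del Uj
  exact sum_congr rfl fun j _ => by ring

theorem Wt_eq (Y : Finset L.X) (i : ℝ) (K : L.Mat) (p q : L.P) :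
    Wt L Y i K p q = ∑ m ∈ range L.N, ∑ j,
      4 ^ m * (hK L Y i K m p * ‖Uj L m j p - Uj L m j q‖ ^ 4) := by
  unfold Wt Lat.wh hK
  simp only [mul_sum]
  rw [sum_comm]
  refine sum_congr rfl fun m' _ => ?_
  rw [s4_eq, ← mul_sum, ← mul_sum, ← mul_assoc, mul_div_cancel₀ _ (by positivity), sum_mul]
  exact sum_congr rfl fun m _ => by ring

theorem T3_eq (Y : Finset L.X) (i : ℝ) (K : L.Mat) (y : L.P) :
    T3 (Wt L Y i K) K y = ∑ m ∈ range L.N, ∑ j,
      ((4 ^ m : ℝ) : ℂ) * Th3 (hK L Y i K m) (Uj L m j) K y := by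
  unfold T3 Th3
  simp only [Wt_eq, ofReal_sum, sum_mul, mul_sum]
  calc _ = ∑ p, ∑ m ∈ range L.N, ∑ q, ∑ j, _ := sum_congr rfl fun p _ => sum_comm
    _ = ∑ m ∈ range L.N, ∑ p, ∑ q, ∑ j, _ := sum_comm
    _ = ∑ m ∈ range L.N, ∑ p, ∑ j, ∑ q, _ :=
        sum_congr rfl fun m _ => sum_congr rfl fun p _ => sum_comm
    _ = ∑ m ∈ range L.N, ∑ j, ∑ p, ∑ q, _ := sum_congr rfl fun m _ => sum_comm
    _ = _ := by
        refine sum_congr rfl fun m _ => sum_congr rfl fun j _ => sum_congr rfl fun p _ =>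
          sum_congr rfl fun q _ => ?_
        push_cast; ring

theorem sum_Gam4 (K : L.Mat) (y : L.P) : ∑ m ∈ range L.N, ∑ j,
    4 ^ m * Gam (fun p q => ‖Uj L m j p - Uj L m j q‖ ^ 4) K y = Gam L.r2 K y := by
  unfold Gam
  simp only [L.r2_eq_sum, s4_eq, mul_sum]
  calc _ = ∑ m ∈ range L.N, ∑ q, ∑ j, _ := sum_congr rfl fun m _ => sum_comm
    _ = ∑ q, ∑ m ∈ range L.N, ∑ j, _ := sum_comm
    _ = _ := by
        refine sum_congr rfl fun q _ => sum_congr rfl fun m _ => sum_congr rfl fun j _ => ?_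
        ring

theorem amgm {x t G i : ℝ} (hi : 1 ≤ i) (hG : 0 ≤ G) (h0 : G = 0 → t = 0) :
    x * t ≤ t ^ 2 / G / i ^ 2 + i ^ 2 * x ^ 2 * G := by
  rcases hG.eq_or_lt with h | h
  · rw [h0 h.symm, ← h]; simp
  · have hi2 : 0 < i ^ 2 := by positivity
    have : t ^ 2 / G / i ^ 2 + i ^ 2 * x ^ 2 * G - x * t =
        ((t - i ^ 2 * x * G / 2) ^ 2 + 3 / 4 * (i ^ 2 * x * G) ^ 2) / (G * i ^ 2) := by
      field_simp; ring
    have h2 : 0 ≤ ((t - i ^ 2 * x * G / 2) ^ 2 + 3 / 4 * (i ^ 2 * x * G) ^ 2) / (G * i ^ 2) := by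
      positivity
    linarith

theorem norm_Uj (m : ℕ) (j : Fin 2) (p : L.P) : ‖Uj L m j p‖ = 1 := L.norm_U _ _ _

theorem T3_le (Y : Finset L.X) {i : ℝ} (hi : 1 ≤ i) {K : L.Mat} (hKp : IsPort K) (y : L.P)
    {x : ℝ} (hx : 0 ≤ x) :
    x * ‖T3 (Wt L Y i K) K y‖ ≤ TT L Y i K y / i ^ 2 + i ^ 2 * x ^ 2 * Gam L.r2 K y := by
  obtain ⟨C, -, hC⟩ := trace3
  rw [T3_eq, ← sum_Gam4, TT, sum_div, mul_sum, ← sum_add_distrib]
  refine (mul_le_mul_of_nonneg_left (norm_sum_le _ _) hx).trans ?_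
  rw [mul_sum]
  refine sum_le_sum fun m hm => ?_
  rw [sum_div, mul_sum, ← sum_add_distrib]
  refine (mul_le_mul_of_nonneg_left (norm_sum_le _ _) hx).trans ?_
  rw [mul_sum]
  refine sum_le_sum fun j _ => ?_
  have h1 := (hC L.P K hKp (Uj L m j) (hK L Y i K m) (7 * i) (norm_Uj m j)
    (hK_abs Y hi K (mem_range.1 hm))).1 y
  have h2 := amgm (x := x) (t := ‖Th3 (hK L Y i K m) (Uj L m j) K y‖) hi
    (Gam_nonneg (w := fun p q => ‖Uj L m j p - Uj L m j q‖ ^ 4) (fun p q => by positivity) K y)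
    (fun h => by rw [h1 h, norm_zero])
  rw [norm_mul, Complex.norm_real, Real.norm_eq_abs, abs_of_nonneg (by positivity)]
  have h4 : (0 : ℝ) ≤ 4 ^ m := by positivity
  calc _ = 4 ^ m * (x * ‖Th3 (hK L Y i K m) (Uj L m j) K y‖) := by ring
    _ ≤ _ := (mul_le_mul_of_nonneg_left h2 h4).trans (le_of_eq (by ring))

theorem TT_nonneg (Y : Finset L.X) (i : ℝ) (K : L.Mat) (y : L.P) : 0 ≤ TT L Y i K y :=
  sum_nonneg fun _ _ => sum_nonneg fun _ _ => mul_nonneg (by positivity)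
    (div_nonneg (sq_nonneg _) (Gam_nonneg (fun _ _ => by positivity) K y))

theorem sum_TT : ∃ C : ℝ, 0 < C ∧ ∀ (L : Lat) (Y : Finset L.X) (i : ℝ), 1 ≤ i →
    ∀ K : L.Mat, IsPort K → ∑ y, TT L Y i K y / i ^ 2 ≤ C * En L.r2 K := by
  obtain ⟨C, hC0, hC⟩ := trace3
  refine ⟨49 * C, by positivity, fun L Y i hi K hKp => ?_⟩
  rw [← sum_div, div_le_iff₀ (by positivity)]
  have hE : En L.r2 K = ∑ m ∈ range L.N, ∑ j,
      4 ^ m * En (fun p q => ‖Uj L m j p - Uj L m j q‖ ^ 4) K := by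
    unfold En
    simp only [← sum_Gam4, mul_sum]
    calc _ = ∑ m ∈ range L.N, ∑ p, ∑ j, _ := sum_comm
      _ = _ := sum_congr rfl fun m _ => sum_comm
  unfold TT
  rw [sum_comm, hE, mul_sum, sum_mul]
  refine sum_le_sum fun m hm => ?_
  rw [sum_comm, mul_sum, sum_mul]
  refine sum_le_sum fun j _ => ?_
  have h1 := (hC L.P K hKp (Uj L m j) (hK L Y i K m) (7 * i) (norm_Uj m j)
    (hK_abs Y hi K (mem_range.1 hm))).2
  rw [← mul_sum]
  have h4 : (0 : ℝ) ≤ 4 ^ m := by positivity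
  exact (mul_le_mul_of_nonneg_left h1 h4).trans (le_of_eq (by ring))

theorem EE_nonneg (K : L.Mat) (y : L.P) : 0 ≤ EE L K y :=
  sum_nonneg fun _ _ => mul_nonneg (cc_nonneg _ _ _)
    (div_nonneg (Gam_nonneg r2_nonneg _ _) (dd_nonneg _ _))

theorem sum_EE {K : L.Mat} (hKp : IsPort K) : ∑ y, EE L K y ≤ En L.r2 K := by
  unfold EE En
  rw [sum_comm]
  refine sum_le_sum fun p _ => ?_
  simp only [fun y => hKp.cc_symm y p]
  rw [← sum_mul]
  change dd K p * _ ≤ _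
  rcases (dd_nonneg K p).eq_or_lt with h | h
  · rw [← h, zero_mul]; exact Gam_nonneg r2_nonneg _ _
  · rw [mul_div_cancel₀ _ h.ne']

theorem sum_act_le (Y1 : Finset L.X) {f : L.P → ℝ} (hf : ∀ p, 0 ≤ f p) :
    ∑ y ∈ Y1, f (y, true) ≤ ∑ p, f p := by
  rw [Fintype.sum_prod_type]
  refine (sum_le_sum fun y _ => ?_).trans
    (sum_le_sum_of_subset_of_nonneg (subset_univ Y1) fun y _ _ => sum_nonneg fun b _ => hf _)
  exact single_le_sum (f := fun b => f (y, b)) (fun b _ => hf _) (mem_univ true)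

theorem nice_EE (y : L.P) : Nice fun K => EE L K y := by
  unfold EE
  refine Nice.sum _ fun p _ => (nice_cc y p).mul ?_
  simp only [← sum_th]
  exact Nice.sum _ fun m _ => (Nice.const _).mul (L.nice_th p m)

theorem measurable_hK (Y : Finset L.X) (i : ℝ) (m' : ℕ) (p : L.P) :
    Measurable fun K => hK L Y i K m' p := by
  unfold hK
  refine Measurable.div_const (Finset.measurable_sum _ fun m _ => Measurable.const_mul ?_ _) _
  unfold Fc fn
  have h := (L.nice_th p m).meas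
  split_ifs
  · exact (h.add_const _).log.neg.sub (h.div (h.add_const _))
  · exact measurable_const

theorem nice_TT (Y : Finset L.X) {i : ℝ} (hi : 1 ≤ i) (y : L.P) :
    Nice fun K => TT L Y i K y / i ^ 2 := by
  obtain ⟨C, hC0, hC⟩ := sum_TT
  constructor
  · unfold TT
    refine Measurable.div_const (Finset.measurable_sum _ fun m _ =>
      Finset.measurable_sum _ fun j _ => Measurable.const_mul (Measurable.div
        (Measurable.pow_const (Measurable.norm ?_) _) (nice_Gam _ y).meas) _) _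
    unfold Th3
    have hm : ∀ p q : L.P, Measurable fun K : L.Mat => K p q := fun p q =>
      (measurable_pi_apply q).comp (measurable_pi_apply p)
    refine Finset.measurable_sum _ fun p _ => Finset.measurable_sum _ fun q _ => ?_
    exact ((((Complex.measurable_ofReal.comp (measurable_hK Y i m p)).mul
      (Complex.continuous_conj.measurable.comp (hm p q))).mul (hm p y)).mul (hm q y)).mul_const _
  · obtain ⟨B, hB⟩ := (nice_En L.r2).bdd
    refine ⟨C * B, fun K hKp => ?_⟩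
    have h0 : ∀ y, 0 ≤ TT L Y i K y / i ^ 2 := fun y =>
      div_nonneg (TT_nonneg Y i K y) (by positivity)
    rw [abs_of_nonneg (h0 y)]
    calc _ ≤ ∑ y, TT L Y i K y / i ^ 2 :=
          single_le_sum (f := fun y => TT L Y i K y / i ^ 2) (fun y _ => h0 y) (mem_univ y)
      _ ≤ C * En L.r2 K := hC L Y i hi K hKp
      _ ≤ _ := mul_le_mul_of_nonneg_left ((le_abs_self _).trans (hB K hKp)) hC0.le

end Crest.Agent.N334.G.B0
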