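import Crest.Agent.N334.G.Geo2

/-!
# Row 334, S0519 GAIN: (B) redistribution and falls (deterministic)
-/

set_option autoImplicit false

open MeasureTheory Finset Complex
open scoped BigOperators ComplexConjugate

noncomputable section

namespace Crest.Agent.N334.G

namespace B1

/-- Lipschitz in the scale -/
lemma lip {g : ℕ → ℝ} (h : ∀ m, |g (m + 1) - g m| ≤ 3) (m n : ℕ) :
    |g m - g n| ≤ 3 * |(m : ℝ) - n| := by
  have key : ∀ a k : ℕ, |g (a + k) - g a| ≤ 3 * k := fun a k => by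
    induction k with
    | zero => simp
    | succ k ih =>
      have := abs_sub_le (g (a + k + 1)) (g (a + k)) (g a)
      have := h (a + k)
      rw [← add_assoc]; push_cast; linarith
  rcases le_total n m with hle | hle <;> obtain ⟨k, rfl⟩ := Nat.exists_eq_add_of_le hle
  · simpa using key n k
  · rw [abs_sub_comm]; simpa using key m k

lemma sc_range (L : Lat) (p q : L.P) (h : L.r2 p q ≠ 0) :
    4 ^ L.sc (L.r2 p q) ≤ L.r2 p q ∧ L.r2 p q ≤ 128 * 4 ^ L.sc (L.r2 p q) := by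
  have h1 := (L.r2_gap p q).resolve_left h
  have h2 : L.r2 p q ≤ 8 * 4 ^ L.N := L.rho2_le_pow L.N p q
  have h3 : (0 : ℝ) ≤ 4 ^ L.N := by positivity
  exact L.sc_spec (by linarith) (by linarith)

lemma sc_aux {x z : ℝ} {m k : ℕ} (hx : x ≤ 128 * 4 ^ m) (hz : 4 ^ (m + k) ≤ z) :
    (k : ℝ) ^ 2 * x ≤ 128 * z := by
  have h1 : (k : ℝ) ≤ 2 ^ k := by exact_mod_cast (Nat.lt_two_pow_self (n := k)).le
  have h2 : (k : ℝ) ^ 2 ≤ 4 ^ k := by
    calc (k : ℝ) ^ 2 ≤ (2 ^ k) ^ 2 := by gcongr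
      _ = 4 ^ k := by rw [← pow_mul, mul_comm, pow_mul]; norm_num
  calc (k : ℝ) ^ 2 * x ≤ (k : ℝ) ^ 2 * (128 * 4 ^ m) := by gcongr
    _ ≤ 4 ^ k * (128 * 4 ^ m) := by gcongr
    _ = 128 * 4 ^ (m + k) := by ring
    _ ≤ 128 * z := by gcongr

/-- the scales of two lengths differ logarithmically -/
lemma sc_diff {a b : ℝ} {m n : ℕ} (ha : 0 ≤ a) (hb : 0 ≤ b)
    (h1 : a ≠ 0 → 4 ^ m ≤ a ^ 2 ∧ a ^ 2 ≤ 128 * 4 ^ m)
    (h2 : b ≠ 0 → 4 ^ n ≤ b ^ 2 ∧ b ^ 2 ≤ 128 * 4 ^ n) :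
    |(m : ℝ) - n| * (a * b) ≤ 12 * (a ^ 2 + b ^ 2) := by
  wlog hle : m ≤ n generalizing a b m n
  · have := this hb ha h2 h1 (not_le.1 hle).le
    rw [abs_sub_comm, mul_comm a b, add_comm (a ^ 2)]; exact this
  rcases eq_or_ne a 0 with rfl | ha0
  · simp; positivity
  rcases eq_or_ne b 0 with rfl | hb0
  · simp; positivity
  obtain ⟨k, rfl⟩ := Nat.exists_eq_add_of_le hle
  have h := sc_aux (h1 ha0).2 (h2 hb0).1
  have h3 : (k : ℝ) * a ≤ 12 * b :=
    (abs_le_of_sq_le_sq' (by nlinarith [sq_nonneg b]) (by positivity)).2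
  have : |(m : ℝ) - (m + k : ℕ)| = k := by push_cast; simp
  rw [this]
  nlinarith [mul_le_mul_of_nonneg_right h3 hb, sq_nonneg a]

/-- three lengths of a triangle -/
lemma tri {a b d ga gb gd : ℝ} (ha : 0 ≤ a) (hb : 0 ≤ b) (hd : 0 ≤ d) (h1 : d ≤ a + b)
    (h2 : b ≤ a + d) (hab : |gb - ga| * (a * b) ≤ 36 * (a ^ 2 + b ^ 2))
    (had : |gd - ga| * (a * d) ≤ 36 * (a ^ 2 + d ^ 2))
    (hbd : |gd - gb| * (b * d) ≤ 36 * (b ^ 2 + d ^ 2)) :
    -(500 * (a ^ 2 + b ^ 2)) ≤ d ^ 2 * (gd - ga) - b ^ 2 * (gb - ga) := by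
  rcases le_total b a with h | h
  · have e1 : d ^ 2 * |gd - ga| ≤ 2 * (a * d) * |gd - ga| := by gcongr; nlinarith
    have e2 : b ^ 2 * |gb - ga| ≤ a * b * |gb - ga| := by gcongr; nlinarith
    have e3 := mul_le_mul_of_nonneg_left (neg_abs_le (gd - ga)) (sq_nonneg d)
    have e4 := mul_le_mul_of_nonneg_left (le_abs_self (gb - ga)) (sq_nonneg b)
    have e5 : d ^ 2 ≤ 4 * a ^ 2 := by nlinarith
    nlinarith [sq_nonneg a, sq_nonneg b]
  · have e1 : d ^ 2 * |gd - gb| ≤ 2 * (b * d) * |gd - gb| := by gcongr; nlinarith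
    have e0 : |d ^ 2 - b ^ 2| ≤ 3 * (a * b) := abs_le.2 ⟨by nlinarith, by nlinarith⟩
    have e2 : |(d ^ 2 - b ^ 2) * (gb - ga)| ≤ 3 * (a * b) * |gb - ga| := by
      rw [abs_mul]; gcongr
    have e3 := mul_le_mul_of_nonneg_left (neg_abs_le (gd - gb)) (sq_nonneg d)
    have e4 := neg_abs_le ((d ^ 2 - b ^ 2) * (gb - ga))
    have e5 : d ^ 2 ≤ 4 * b ^ 2 := by nlinarith
    nlinarith [sq_nonneg a, sq_nonneg b]

lemma r2_nonneg (L : Lat) (p q : L.P) : 0 ≤ L.r2 p q := L.rho2_nonneg _ p q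
lemma r2_symm (L : Lat) (p q : L.P) : L.r2 p q = L.r2 q p := L.rx_symm p.1 q.1

lemma sc_diff' (L : Lat) {g : ℕ → ℝ} (h : ∀ m, |g (m + 1) - g m| ≤ 3) (p q p' q' : L.P) :
    |g (L.sc (L.r2 p' q')) - g (L.sc (L.r2 p q))| * (√(L.r2 p q) * √(L.r2 p' q')) ≤
      36 * (√(L.r2 p q) ^ 2 + √(L.r2 p' q') ^ 2) := by
  have k : ∀ a b : L.P, √(L.r2 a b) ≠ 0 → 4 ^ L.sc (L.r2 a b) ≤ √(L.r2 a b) ^ 2 ∧
      √(L.r2 a b) ^ 2 ≤ 128 * 4 ^ L.sc (L.r2 a b) := fun a b h0 => by
    rw [Real.sq_sqrt (r2_nonneg L a b)]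
    exact sc_range L a b fun h1 => h0 (by simp [h1])
  have h1 := sc_diff (Real.sqrt_nonneg _) (Real.sqrt_nonneg _) (k p q) (k p' q')
  have h2 := mul_le_mul_of_nonneg_right (lip h (L.sc (L.r2 p q)) (L.sc (L.r2 p' q')))
    (mul_nonneg (Real.sqrt_nonneg (L.r2 p q)) (Real.sqrt_nonneg (L.r2 p' q')))
  rw [abs_sub_comm]; linarith

lemma conc {C : ℝ} {L : Lat} (hC : ∀ p q : L.P,
      ∑ m ∈ range L.N, 4 ^ m * L.wh m p q * |(m : ℝ) - L.sc (L.r2 p q)| ≤ C * L.r2 p q)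
    {g : ℕ → ℝ} (h : ∀ m, |g (m + 1) - g m| ≤ 3) (p q : L.P) :
    |∑ m ∈ range L.N, 4 ^ m * g m * L.wh m p q - L.r2 p q * g (L.sc (L.r2 p q))| ≤
      3 * C * L.r2 p q := by
  have e : ∑ m ∈ range L.N, 4 ^ m * g m * L.wh m p q - L.r2 p q * g (L.sc (L.r2 p q)) =
      ∑ m ∈ range L.N, 4 ^ m * L.wh m p q * (g m - g (L.sc (L.r2 p q))) := by
    simp only [mul_sub, sum_sub_distrib, ← sum_mul, L.sum_wh]
    congr 1
    exact sum_congr rfl fun m _ => by ring
  rw [e, mul_assoc]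
  refine (abs_sum_le_sum_abs _ _).trans (le_trans ?_ (mul_le_mul_of_nonneg_left (hC p q) (by norm_num)))
  rw [mul_sum]
  refine sum_le_sum fun m _ => ?_
  have h0 : 0 ≤ 4 ^ m * L.wh m p q := mul_nonneg (by positivity) (L.wh_nonneg m p q)
  rw [abs_mul, abs_of_nonneg h0]
  nlinarith [mul_le_mul_of_nonneg_left (lip h m (L.sc (L.r2 p q))) h0]

/-- pointwise lower bound of the redistribution bracket -/
lemma bracket {C : ℝ} (hC0 : 0 ≤ C) {L : Lat} (hC : ∀ p q : L.P,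
      ∑ m ∈ range L.N, 4 ^ m * L.wh m p q * |(m : ℝ) - L.sc (L.r2 p q)| ≤ C * L.r2 p q)
    {g : ℕ → ℝ} (h : ∀ m, |g (m + 1) - g m| ≤ 3) (y p q : L.P) :
    -(2 * ∑ j, g (L.sc (L.r2 y p)) * (L.Phi L.N j p - L.Phi L.N j y) *
        (L.Phi L.N j q - L.Phi L.N j y)) - (500 + 9 * C) * (L.r2 y p + L.r2 y q) ≤
      ∑ m ∈ range L.N, 4 ^ m * g m * (L.wh m p q - L.wh m p y - L.wh m y q) := by
  have c1 := abs_le.1 (conc hC h p q)
  have c2 := abs_le.1 (conc hC h y p)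
  have c3 := abs_le.1 (conc hC h y q)
  have t := tri (Real.sqrt_nonneg (L.r2 y p)) (Real.sqrt_nonneg (L.r2 y q))
    (Real.sqrt_nonneg (L.r2 p q))
    (by rw [r2_symm L y p]; exact L.rx_tri p.1 y.1 q.1) (L.rx_tri y.1 p.1 q.1)
    (sc_diff' L h y p y q) (sc_diff' L h y p p q) (sc_diff' L h y q p q)
  simp only [Real.sq_sqrt (r2_nonneg L _ _)] at t
  have w : ∀ a b : L.P, L.r2 a b = ∑ j, (L.Phi L.N j a - L.Phi L.N j b) ^ 2 := fun a b => by
    rw [Lat.r2, ← L.wt_Phi]; rfl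
  have e : 2 * ∑ j, g (L.sc (L.r2 y p)) * (L.Phi L.N j p - L.Phi L.N j y) *
      (L.Phi L.N j q - L.Phi L.N j y) =
      g (L.sc (L.r2 y p)) * (L.r2 y p + L.r2 y q - L.r2 p q) := by
    generalize g (L.sc (L.r2 y p)) = G
    rw [w y p, w y q, w p q, ← sum_add_distrib, ← sum_sub_distrib, mul_sum, mul_sum]
    exact sum_congr rfl fun j _ => by ring
  have tr : L.r2 p q ≤ 2 * L.r2 y p + 2 * L.r2 y q := by
    rw [r2_symm L y p]; exact L.rx_le_two p.1 y.1 q.1
  have := mul_le_mul_of_nonneg_left tr hC0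
  rw [e]
  simp only [mul_sub, sum_sub_distrib, L.wh_symm _ p y]
  nlinarith [c1.1, c2.2, c3.2]

end B1

open B1 in
theorem redist : ∃ C : ℝ, 0 < C ∧ ∀ (L : Lat) (K : L.Mat), IsPort K →
    ∀ (y : L.P) (g : L.P → ℕ → ℝ) (H : ℝ), 1 ≤ H → (∀ p m, |g p m| ≤ H) →
    (∀ p m, |g p (m + 1) - g p m| ≤ 3) →
    -(C * Gam L.r2 K y) - C * H ^ 2 * L.GN K y ≤
      ∑ p ∈ univ.erase y, ∑ q ∈ univ.erase y, cc K y p * cc K y q / nu K y *
        ∑ m ∈ range L.N, 4 ^ m * g p m * (L.wh m p q - L.wh m p y - L.wh m y q) := by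
  obtain ⟨C, hC0, hC⟩ := wh_conc
  refine ⟨1001 + 18 * C, by positivity, fun L K _ y g H hH hg hl => ?_⟩
  rw [sum_erase _ (by simp [L.wh_self]),
    sum_congr rfl fun p _ => sum_erase _ (by simp [L.wh_self])]
  have hd := dd_nonneg K y
  have hν := hd.trans (dd_le_nu K y)
  have hdν : dd K y / nu K y ≤ 1 := div_le_one_of_le₀ (dd_le_nu K y) hν
  have hΓ : 0 ≤ Gam L.r2 K y := Gam_nonneg (r2_nonneg L) K y
  have hGN : 0 ≤ L.GN K y := Gn_nonneg _ K y
  set T : Fin 2 × Bool → ℝ := fun j =>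
    ∑ p, cc K y p * (g p (L.sc (L.r2 y p)) * (L.Phi L.N j p - L.Phi L.N j y)) with hT
  have hT2 : ∑ j, T j ^ 2 ≤ dd K y * (H ^ 2 * Gam L.r2 K y) := by
    have h1 : ∀ j, T j ^ 2 ≤ dd K y *
        ∑ p, cc K y p * (H ^ 2 * (L.Phi L.N j y - L.Phi L.N j p) ^ 2) := fun j =>
      sum_sq_le_sum_mul_sum_of_sq_le_mul _ (fun p _ => cc_nonneg K y p)
        (fun p _ => mul_nonneg (cc_nonneg K y p) (by positivity)) fun p _ => by
          have := sq_le_sq' (abs_le.1 (hg p (L.sc (L.r2 y p)))).1 (abs_le.1 (hg p _)).2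
          have h2 := mul_le_mul_of_nonneg_left this
            (sq_nonneg (cc K y p * (L.Phi L.N j p - L.Phi L.N j y)))
          nlinarith
    refine (sum_le_sum fun j _ => h1 j).trans (le_of_eq ?_)
    rw [← mul_sum, sum_comm, Gam, mul_sum (a := H ^ 2)]
    congr 1
    refine sum_congr rfl fun p _ => ?_
    rw [← mul_sum, ← mul_sum, Lat.r2, ← L.wt_Phi, wt]; ring
  have hcr : 2 * ∑ j, T j * mv (L.Phi L.N j) K y ≤
      dd K y * Gam L.r2 K y + H ^ 2 * ∑ j, mv (L.Phi L.N j) K y ^ 2 := by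
    have hH2 : 0 < H ^ 2 := by positivity
    refine le_of_mul_le_mul_left ?_ hH2
    have : H ^ 2 * (2 * ∑ j, T j * mv (L.Phi L.N j) K y) ≤
        ∑ j, T j ^ 2 + H ^ 2 * (H ^ 2 * ∑ j, mv (L.Phi L.N j) K y ^ 2) := by
      simp only [mul_sum, ← sum_add_distrib]
      exact sum_le_sum fun j _ => by nlinarith [sq_nonneg (T j - H ^ 2 * mv (L.Phi L.N j) K y)]
    linarith
  refine le_trans ?_ (sum_le_sum fun p _ => sum_le_sum fun q _ =>
    mul_le_mul_of_nonneg_left (bracket hC0.le (hC L) (hl p) y p q)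
      (div_nonneg (mul_nonneg (cc_nonneg K y p) (cc_nonneg K y q)) hν))
  have e : ∑ p, ∑ q, cc K y p * cc K y q / nu K y *
      (-(2 * ∑ j, g p (L.sc (L.r2 y p)) * (L.Phi L.N j p - L.Phi L.N j y) *
        (L.Phi L.N j q - L.Phi L.N j y)) - (500 + 9 * C) * (L.r2 y p + L.r2 y q)) =
      -((2 * ∑ j, T j * mv (L.Phi L.N j) K y) / nu K y) -
        (1000 + 18 * C) * Gam L.r2 K y * (dd K y / nu K y) := by
    have e1 : ∑ j, T j * mv (L.Phi L.N j) K y = ∑ p, ∑ q, cc K y p * cc K y q *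
        ∑ j, g p (L.sc (L.r2 y p)) * (L.Phi L.N j p - L.Phi L.N j y) *
          (L.Phi L.N j q - L.Phi L.N j y) := by
      simp only [hT, mv, sum_mul_sum]
      rw [sum_comm]
      refine sum_congr rfl fun p _ => ?_
      rw [sum_comm]
      refine sum_congr rfl fun q _ => ?_
      rw [mul_sum]
      exact sum_congr rfl fun j _ => by ring
    have e2 : Gam L.r2 K y * dd K y = ∑ p, ∑ q, cc K y p * cc K y q * L.r2 y p := by
      rw [Gam, dd, sum_mul_sum]
      exact sum_congr rfl fun p _ => sum_congr rfl fun q _ => by ring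
    have e3 : Gam L.r2 K y * dd K y = ∑ p, ∑ q, cc K y p * cc K y q * L.r2 y q := by
      rw [mul_comm, Gam, dd, sum_mul_sum]
      exact sum_congr rfl fun p _ => sum_congr rfl fun q _ => by ring
    have e4 : (1000 + 18 * C) * Gam L.r2 K y * (dd K y / nu K y) =
        (500 + 9 * C) * (Gam L.r2 K y * dd K y + Gam L.r2 K y * dd K y) / nu K y := by ring
    rw [e4, e1]
    nth_rewrite 1 [e2]
    rw [e3]
    simp only [← sum_add_distrib, mul_sum, sum_div, ← sum_neg_distrib, ← sum_sub_distrib]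
    refine sum_congr rfl fun p _ => sum_congr rfl fun q _ => ?_
    simp only [← mul_sum, ← sum_div, sum_neg_distrib]
    ring
  rw [e]
  have f1 : (2 * ∑ j, T j * mv (L.Phi L.N j) K y) / nu K y ≤
      Gam L.r2 K y * (dd K y / nu K y) + H ^ 2 * L.GN K y :=
    (div_le_div_of_nonneg_right hcr hν).trans_eq (by rw [Lat.GN, Gn]; ring)
  have f2 := mul_le_mul_of_nonneg_left hdν hΓ
  have f3 := mul_le_mul_of_nonneg_left f2 (show 0 ≤ 1000 + 18 * C by positivity)
  have f4 : 0 ≤ (1000 + 18 * C) * (H ^ 2 * L.GN K y) := by positivity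
  nlinarith

theorem falls : ∃ C : ℝ, 0 < C ∧ ∀ (L : Lat) (K : L.Mat), IsPort K →
    ∀ (Y1 Y : Finset L.X) (i j j' : ℝ), Y1 ⊆ Y → 1 ≤ i → j < j' →
    (j' - j) / 2 * L.Hub Y1 Y i j j' K - C * En L.r2 K ≤ ∑ y ∈ Y1, L.Red Y i K (y, true) := by
  refine ⟨1, one_pos, fun L K hK Y1 Y i j j' hY hi hj => ?_⟩
  have pt : ∀ y ∈ Y1, ∀ m p, (j' - j) / 2 * (if L.gd Y i K (y, true) m ≤ j then
      L.th K (y, true) m * (if j' ≤ L.gd Y i K p m then cc K (y, true) p else 0) else 0) -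
      cc K p (y, true) * L.th K p m ≤ L.nn K (y, true) m * (cc K (y, true) p / nu K (y, true) *
        (L.gd Y i K p m - L.gd Y i K (y, true) m)) := fun y hy m p => by
    rw [← hK.cc_symm (y, true) p, ← L.th_mul]
    have hc := cc_nonneg K (y, true) p
    have hcd := cc_le_dd K (y, true) p
    have hty := L.th_nonneg K (y, true) m
    have htp := L.th_nonneg K p m
    have h1 := dd_le_nu K (y, true)
    have h2 := nu_le K (y, true)
    have hgy : L.gd Y i K (y, true) m = -Real.log (L.th K (y, true) m + Real.exp (-i)) := by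
      simp [Lat.gd, hY hy]
    have hlog : L.th K (y, true) m * (L.gd Y i K (y, true) m - L.gd Y i K p m) ≤ L.th K p m := by
      by_cases hp : p.2 = true ∧ p.1 ∈ Y
      · have hgp : L.gd Y i K p m = -Real.log (L.th K p m + Real.exp (-i)) := if_pos hp
        have he := Real.exp_pos (-i)
        have hs : 0 < L.th K (y, true) m + Real.exp (-i) := by linarith
        have h3 := Real.log_le_sub_one_of_pos (div_pos (show 0 < L.th K p m + Real.exp (-i) by
          linarith) hs)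
        rw [Real.log_div (by linarith) hs.ne', div_sub_one hs.ne', le_div_iff₀ hs] at h3
        rw [hgy, hgp]
        refine le_of_mul_le_mul_right ?_ hs
        nlinarith [mul_le_mul_of_nonneg_left h3 hty, mul_nonneg htp he.le, sq_nonneg (L.th K (y, true) m)]
      · have hgp : L.gd Y i K p m = i := if_neg hp
        have := (L.gd_bdd Y (by linarith : 0 ≤ i) K (y, true) m).2
        nlinarith
    generalize L.gd Y i K (y, true) m = gy at *
    generalize L.gd Y i K p m = gp at *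
    generalize L.th K (y, true) m = ty at *
    generalize L.th K p m = tp at *
    generalize cc K (y, true) p = c at *
    generalize dd K (y, true) = d at *
    generalize nu K (y, true) = ν at *
    rcases hc.eq_or_lt with rfl | hc0
    · simp
    have hν : 0 < ν := by linarith
    have q1 : d / ν ≤ 1 := (div_le_one hν).2 h1
    have q2 : 1 / 2 ≤ d / ν := by rw [le_div_iff₀ hν]; linarith
    have e : ty * d * (c / ν * (gp - gy)) = c * (d / ν) * (ty * (gp - gy)) := by ring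
    rw [e]
    generalize d / ν = κ at *
    have hct := mul_nonneg hc htp
    rcases le_total gy gp with hg | hg
    · have h3 : 0 ≤ c * (ty * (gp - gy)) := mul_nonneg hc (mul_nonneg hty (by linarith))
      have h4 := mul_le_mul_of_nonneg_left q2 h3
      split_ifs with a1 a2
      · have : ty * c * (j' - j) ≤ ty * c * (gp - gy) :=
          mul_le_mul_of_nonneg_left (by linarith) (mul_nonneg hty hc)
        nlinarith
      · nlinarith
      · nlinarith
    · have h3 : 0 ≤ c * (ty * (gy - gp)) := mul_nonneg hc (mul_nonneg hty (by linarith))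
      have h4 := mul_le_mul_of_nonneg_left q1 h3
      have h5 := mul_le_mul_of_nonneg_left hlog hc
      split_ifs with a1 a2
      · linarith
      · nlinarith
      · nlinarith
  have hE : ∑ y ∈ Y1, ∑ m ∈ range L.N, ∑ p, 4 ^ m * (cc K p (y, true) * L.th K p m) ≤
      En L.r2 K := by
    simp only [En, ← L.sum_nn]
    rw [sum_comm, sum_comm (s := univ)]
    refine sum_le_sum fun m _ => ?_
    rw [sum_comm]
    refine sum_le_sum fun p _ => ?_
    rw [← mul_sum, ← sum_mul, ← L.th_mul, mul_comm (L.th K p m)]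
    have : ∑ y ∈ Y1, cc K p (y, true) ≤ dd K p := by
      rw [dd, Fintype.sum_prod_type]
      refine (sum_le_sum_of_subset_of_nonneg (subset_univ _) fun x _ _ => cc_nonneg K p _).trans
        (sum_le_sum fun x _ => single_le_sum (f := fun b => cc K p (x, b))
          (fun b _ => cc_nonneg K p _) (mem_univ _))
    have := L.th_nonneg K p m
    gcongr
  refine le_trans (sub_le_sub_left (hE.trans_eq (one_mul _).symm) _) ?_
  rw [Lat.Hub, mul_sum, ← sum_sub_distrib]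
  refine sum_le_sum fun y hy => ?_
  rw [Lat.Red, mul_sum, ← sum_sub_distrib]
  refine sum_le_sum fun m _ => ?_
  rw [sum_erase _ (by simp), mul_assoc (4 ^ m) (L.nn _ _ _), mul_sum (a := L.nn _ _ _),
    mul_sum (a := (4 : ℝ) ^ m)]
  refine le_trans (le_of_eq ?_) (sum_le_sum fun p _ =>
    mul_le_mul_of_nonneg_left (pt y hy m p) (by positivity : (0 : ℝ) ≤ 4 ^ m))
  simp only [mul_sub, sum_sub_distrib]
  congr 1
  split_ifs
  · rw [mul_sum, mul_sum]
    exact sum_congr rfl fun p _ => by ring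
  · simp

end Crest.Agent.N334.G
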