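import Crest.Agent.N334.G.B21

/-!
# Row 334, S0519 GAIN: (B) the Bregman remainder of one port at one scale
-/

set_option autoImplicit false

open MeasureTheory Finset Complex
open scoped BigOperators ComplexConjugate

noncomputable section

namespace Crest.Agent.N334.G.Bg

variable {P : Type} [Fintype P] [DecidableEq P]

omit [DecidableEq P] in
theorem Gam_le {w : P → P → ℝ} {B : ℝ} (hw : ∀ p q, w p q ≤ B) (K : P → P → ℂ) (p : P) :
    Gam w K p ≤ B * dd K p := by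
  unfold Gam dd
  rw [mul_sum]
  exact sum_le_sum fun q _ => by
    have := mul_le_mul_of_nonneg_left (hw p q) (cc_nonneg K p q)
    linarith

omit [DecidableEq P] in
theorem Gam_div {w : P → P → ℝ} {B : ℝ} (hw0 : ∀ p q, 0 ≤ w p q) (hw : ∀ p q, w p q ≤ B)
    (hB : 0 ≤ B) (K : P → P → ℂ) (p : P) :
    0 ≤ Gam w K p / dd K p ∧ Gam w K p / dd K p ≤ B ∧ Gam w K p / dd K p * dd K p = Gam w K p := by
  have h0 := Gam_nonneg hw0 K p
  have h1 := Gam_le hw K p
  refine ⟨div_nonneg h0 (dd_nonneg K p), ?_⟩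
  rcases (dd_nonneg K p).eq_or_lt with h | h
  · rw [← h] at h1 ⊢
    refine ⟨by simpa using hB, ?_⟩
    linarith
  · exact ⟨(div_le_iff₀ h).2 h1, div_mul_cancel₀ _ h.ne'⟩

theorem one : ∃ C : ℝ, 0 < C ∧ ∀ (P : Type) [Fintype P] [DecidableEq P] (y : P) (c : Cav y)
    (w : P → P → ℝ) (γ ε M : ℝ) (p : P), (∀ p q, 0 ≤ w p q) → (∀ p q, w p q ≤ 67) → 0 < γ →
    0 < ε → ε ≤ 1 → Real.log (68 / ε) ≤ M → 0 ≤ M → p ≠ y → ∃ u0 : ℂ, ∀ a, ∃ G : ℝ → ℝ, BM G ∧
      (∀ a', Br ε (Gam w (c.K a γ) p) (dd (c.K a γ) p) (Gam w (c.K a' (γ / 2)) p)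
        (dd (c.K a' (γ / 2)) p) ≤ G a') ∧
      ∫ a', cau (γ - γ / 2) (a' - a) * G a' ≤
        C * (cc (c.K a γ) y p * (Gam w (c.K a γ) p / dd (c.K a γ) p + w p y)) +
        C * (γ * ‖c.z a γ‖ ^ 2 *
          (‖c.rho p‖ ^ 2 * (∑ q, ‖c.vec (γ / 2) q‖ ^ 2 * w p q) / c.J (γ / 2)) *
          (1 + hf M ‖uu ((a - c.s.re) / c.J γ) - u0‖)) := by
  obtain ⟨A, hA, harc⟩ := arc_hf
  refine ⟨1000 + 20000 * A, by positivity, ?_⟩
  intro P _ _ y c w γ ε M p hw0 hw hγ hε hε1 hM hM0 hp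
  obtain ⟨u1, hu1⟩ := dd_arc c hγ hp
  obtain ⟨u0, hu0⟩ := nn_arc c hγ hw0 hp
  refine ⟨u0, fun a => ?_⟩
  have hγ' : 0 ≤ γ / 2 := by linarith
  have hδ : 0 < γ - γ / 2 := by linarith
  have hJ' := c.J_pos hγ'
  have hs := c.s_pos
  obtain ⟨t0, -, t2⟩ := Gam_div hw0 hw (by norm_num) (c.K a γ) p
  set θ := Gam w (c.K a γ) p / dd (c.K a γ) p with hθ
  set d := dd (c.K a γ) p with hd
  set k := cc (c.K a γ) y p with hk
  set τ := ∑ q, ‖c.vec (γ / 2) q‖ ^ 2 * w p q with hτ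
  set R := ‖c.rho p‖ ^ 2 with hR
  set HN := hf M ‖uu ((a - c.s.re) / c.J γ) - u0‖ with hHN
  have τ0 : 0 ≤ τ := sum_nonneg fun q _ => mul_nonneg (sq_nonneg _) (hw0 p q)
  have R0 : 0 ≤ R := sq_nonneg _
  have k0 : 0 ≤ k := cc_nonneg _ _ _
  have d0 : 0 ≤ d := dd_nonneg _ _
  have HN0 : 0 ≤ HN := hf_nonneg hM0 _
  have w0 := hw0 p y
  let ζ : ℝ → ℝ := fun a' => ‖zz c.s a' (γ / 2) - zz c.s a γ‖ ^ 2
  let HA : ℝ → ℝ := fun a' => hf M ‖uu ((a' - a) / (γ - γ / 2)) - 0‖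
  let HD : ℝ → ℝ := fun a' => hf M ‖uu ((a' - c.s.re) / (γ / 2 + c.s.im)) - u1‖
  have bζ : BM ζ := bm_zeta hJ' _
  have bA : BM HA := bm_hf' hM0 _ _ _
  have bD : BM HD := bm_hf' hM0 _ _ _
  let c0 := 64 * (k * w p y + θ * k)
  let c1 := 64 * (8 * R * τ + θ * (8 * R * c.J (γ / 2))) + 16 * R * τ * HN
  let c2 := 10000 * (θ * k)
  let c3 := 1600 * θ * R * c.J (γ / 2) + 16 * R * τ
  refine ⟨fun a' => c0 * 1 + c1 * ζ a' + c2 * HA a' + c3 * (ζ a' * HD a'),
    ((((BM.const 1).const_mul c0).add (bζ.const_mul c1)).add (bA.const_mul c2)).add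
      ((bζ.mul bD).const_mul c3), fun a' => ?_, ?_⟩
  · obtain ⟨s0, s1, s2⟩ := Gam_div hw0 hw (by norm_num) (c.K a' (γ / 2)) p
    set θ' := Gam w (c.K a' (γ / 2)) p / dd (c.K a' (γ / 2)) p with hθ'
    set d' := dd (c.K a' (γ / 2)) p with hd'
    have hxn := (sqrt_sub_sq (c.K a' (γ / 2) p) (c.K a γ p) (w p) (hw0 p)).trans
      (row_diff c a a' hγ.le hp (w p) (hw0 p))
    have hxd := (sqrt_sub_sq (c.K a' (γ / 2) p) (c.K a γ p) (fun _ => 1) fun _ => zero_le_one).trans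
      (row_diff c a a' hγ.le hp (fun _ => 1) fun _ => zero_le_one)
    simp only [mul_one] at hxd
    rw [c.sum_vec hγ'] at hxd
    change (Real.sqrt (Gam w (c.K a' (γ / 2)) p) - Real.sqrt (Gam w (c.K a γ) p)) ^ 2 ≤
      8 * ζ a' * R * τ + k * w p y at hxn
    change (Real.sqrt d' - Real.sqrt d) ^ 2 ≤ 8 * ζ a' * R * c.J (γ / 2) + k at hxd
    have ζ0 : 0 ≤ ζ a' := sq_nonneg _
    have hcn : k * w p y ≤ θ * d := by
      rw [t2, hk, (c.port a hγ.le).cc_symm]
      exact single_le_sum (f := fun q => cc (c.K a γ) p q * w p q)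
        (fun q _ => mul_nonneg (cc_nonneg _ _ _) (hw0 p q)) (mem_univ y)
    rw [← t2, ← s2] at hxn ⊢
    have := Br_le (HA := HA a') (HD := HD a') (HN := HN) hε hε1 hM t0 d0 s0 (dd_nonneg _ _) s1
      (by rw [t2]) (by positivity) (by positivity) k0 (mul_nonneg k0 w0) hcn hxn hxd
      (hf_nonneg hM0 _) (hf_nonneg hM0 _) HN0 ?_ ?_ ?_
    · refine this.trans (le_of_eq ?_)
      simp only [c0, c1, c2, c3]
      ring
    · intro h1 h2 h3 l h4 h5
      refine le_hf_log hM0 (norm_nonneg _) (div_pos h2 h3) h4 h5 ?_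
      rw [div_mul_eq_mul_div, div_le_iff₀ h3]
      have h6 := z_ratio hs hγ a a'
      have h7 : cc (c.K a' (γ / 2)) y p ≤ d' := by
        rw [(c.port a' hγ').cc_symm]; exact cc_le_dd _ _ _
      rw [cc_ne c a' hγ' hp] at h7
      rw [hk, cc_ne c a hγ.le hp] at h1
      have h8 := mul_le_mul_of_nonneg_right h1
        (sq_nonneg ‖uu ((a' - a) / (γ - γ / 2)) - 0‖)
      have h9 := mul_le_mul_of_nonneg_left h6 (mul_nonneg hγ.le R0)
      unfold Cav.z at h7 h8
      linarith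
    · intro h2 h3 l h4 h5
      refine le_hf_log hM0 (norm_nonneg _) (div_pos h2 h3) h4 h5 ?_
      rw [div_mul_eq_mul_div, div_le_iff₀ h3]
      have := hu1 a a'
      unfold Cav.J at this
      linarith
    · intro h1 h2 l h4 h5
      have h6 := hu0 a a'
      rw [← t2] at h6
      change 8 * ζ a' * R * τ * _ ≤ _ at h6
      have h7 := mul_le_mul_of_nonneg_right h2 (sq_nonneg ‖uu ((a - c.s.re) / c.J γ) - u0‖)
      rcases (mul_nonneg t0 d0).eq_or_lt with h | h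
      · have h8 : θ' * d' * ‖uu ((a - c.s.re) / c.J γ) - u0‖ ^ 2 ≤ 0 := by linarith
        have h9 : ‖uu ((a - c.s.re) / c.J γ) - u0‖ ^ 2 ≤ 0 := by
          by_contra h10
          have := mul_pos h1 (lt_of_not_ge h10)
          linarith
        have h10 : ‖uu ((a - c.s.re) / c.J γ) - u0‖ = 0 :=
          pow_eq_zero_iff (two_ne_zero) |>.1 (le_antisymm h9 (sq_nonneg _))
        refine le_hf hM0 h4 ?_
        rw [h10]; simp
      · refine le_hf_log hM0 (norm_nonneg _) (div_pos h1 h) h4 (h5 h) ?_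
        rw [div_mul_eq_mul_div, div_le_iff₀ h]
        linarith
  · have i0 := int_cau hδ a (BM.const 1)
    have i1 := int_cau hδ a bζ
    have i2 := int_cau hδ a bA
    have i3 := int_cau hδ a (bζ.mul bD)
    have e : ∀ a', cau (γ - γ / 2) (a' - a) *
        (c0 * 1 + c1 * ζ a' + c2 * HA a' + c3 * (ζ a' * HD a')) =
        c0 * (cau (γ - γ / 2) (a' - a) * 1) + c1 * (cau (γ - γ / 2) (a' - a) * ζ a') +
          c2 * (cau (γ - γ / 2) (a' - a) * HA a') +
          c3 * (cau (γ - γ / 2) (a' - a) * (ζ a' * HD a')) := fun a' => by ring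
    simp only [e]
    have i01 : Integrable fun a' => c0 * (cau (γ - γ / 2) (a' - a) * 1) +
        c1 * (cau (γ - γ / 2) (a' - a) * ζ a') := (i0.const_mul c0).add (i1.const_mul c1)
    have i012 : Integrable fun a' => c0 * (cau (γ - γ / 2) (a' - a) * 1) +
        c1 * (cau (γ - γ / 2) (a' - a) * ζ a') + c2 * (cau (γ - γ / 2) (a' - a) * HA a') :=
      i01.add (i2.const_mul c2)
    rw [integral_add i012 (i3.const_mul c3), integral_add i01 (i2.const_mul c2),
      integral_add (i0.const_mul c0) (i1.const_mul c1), integral_const_mul, integral_const_mul,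
      integral_const_mul, integral_const_mul]
    have j0 : ∫ a', cau (γ - γ / 2) (a' - a) * 1 = 1 := by simpa using (cau_integral hδ a).2
    have j1 := int_0 hs hγ' (by linarith : γ / 2 < γ) a
    have j2 := int_A hδ a fun t => hf M ‖uu t - 0‖
    have j3 := int_D hs hγ' (by linarith : γ / 2 < γ) a fun t => hf M ‖uu t - u1‖
    have hpi : ∀ x : ℝ, x ≤ A → 1 / Real.pi * x ≤ A := fun x hx => by
      have h1 : 1 / Real.pi ≤ 1 := by
        rw [div_le_one Real.pi_pos]; linarith [Real.pi_gt_three]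
      have h2 := mul_le_mul_of_nonneg_left hx (by positivity : 0 ≤ 1 / Real.pi)
      have h3 := mul_le_mul_of_nonneg_right h1 hA.le
      linarith
    have j2' := hpi _ (harc M 0 hM0)
    have j3' := hpi _ (harc M u1 hM0)
    rw [j0, j1, j2, j3]
    set X := (γ - γ / 2) * ‖zz c.s a γ‖ ^ 2 / (γ / 2 + c.s.im) with hX
    have X0 : 0 ≤ X := by positivity
    have hJ2 : γ / 2 + c.s.im ≠ 0 := hJ'.ne'
    have eX1 : R * c.J (γ / 2) * X = k / 8 := by
      rw [hX, hk, cc_ne c a hγ.le hp]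
      unfold Cav.J Cav.z
      field_simp
      ring
    have eX2 : γ * ‖c.z a γ‖ ^ 2 * (R * τ / c.J (γ / 2)) = 2 * (R * τ * X) := by
      rw [hX]
      unfold Cav.J Cav.z
      field_simp
      ring
    rw [eX2]
    have b2 := mul_le_mul_of_nonneg_left j2' (by positivity : 0 ≤ c2)
    have b3 := mul_le_mul_of_nonneg_left j3' (by positivity : 0 ≤ c3 * X)
    have e1 : c1 * X = 512 * (R * τ * X) + 64 * (θ * k) + 16 * (R * τ * X * HN) := by
      have : c1 * X = 512 * (R * τ * X) + 512 * θ * (R * c.J (γ / 2) * X) +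
          16 * (R * τ * X * HN) := by simp only [c1]; ring
      rw [this, eX1]; ring
    have e3 : c3 * X = 200 * (θ * k) + 16 * (R * τ * X) := by
      have : c3 * X = 1600 * θ * (R * c.J (γ / 2) * X) + 16 * (R * τ * X) := by
        simp only [c3]; ring
      rw [this, eX1]; ring
    rw [e1, ← mul_assoc c3 X]
    rw [e3] at b3 ⊢
    simp only [c0, c2] at b2 ⊢
    have q1 : 0 ≤ θ * k := by positivity
    have q2 : 0 ≤ k * w p y := by positivity
    have q3 : 0 ≤ R * τ * X := by positivity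
    have q4 : 0 ≤ R * τ * X * HN := by positivity
    have q5 := mul_nonneg hA.le q1
    have q6 := mul_nonneg hA.le q2
    have q7 := mul_nonneg hA.le q3
    have q8 := mul_nonneg hA.le q4
    linarith

end Crest.Agent.N334.G.Bg
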