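import Crest.Agent.N334.G.Lift
import Crest.Agent.N334.G.B22

/-!
# Row 334, S0519 GAIN: (B) the Bregman remainder
-/

set_option autoImplicit false

open MeasureTheory Finset Complex
open scoped BigOperators ComplexConjugate

noncomputable section

namespace Crest.Agent.N334.G

theorem Br_nonneg {ε n d n' d' : ℝ} (hε : 0 < ε) (hn : 0 ≤ n) (hd : 0 ≤ d) (hn' : 0 ≤ n')
    (hd' : 0 ≤ d') (h0 : d' = 0 → n' = 0) : 0 ≤ Br ε n d n' d' :=
  Bg.Br_nonneg hε hn hd hn' hd' h0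
theorem Br_self {ε n d : ℝ} (hε : 0 < ε) (hn : 0 ≤ n) (hd : 0 ≤ d) (h0 : d = 0 → n = 0) :
    Br ε n d n d = 0 := Bg.Br_self hε hn hd h0

namespace Bg

open Classical in
/-- the average of the logarithmic weight over the site law -/
theorem law_hf : ∃ C : ℝ, 0 < C ∧ ∀ (s u0 : ℂ) (a0 b γ M : ℝ), 0 < s.im → 0 < γ → γ ≤ b → 0 ≤ M →
    ∫ a, ‖zz s a γ‖ ^ 2 * hf M ‖uu ((a - s.re) / (γ + s.im)) - u0‖ ∂law a0 b ≤
      C * ∫ a, ‖zz s a γ‖ ^ 2 ∂law a0 b + C * M * ‖zz s a0 b‖ ^ 2 := by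
  obtain ⟨A, hA, harc⟩ := arc_hf
  obtain ⟨C1, hC1, hcmp⟩ := cmp
  obtain ⟨C2, hC2, hbad⟩ := bad1
  refine ⟨C1 * A + 2 * C2, by positivity, fun s u0 a0 b γ M hs hγ hb hM => ?_⟩
  have hb0 : 0 < b := by linarith
  have hJ : 0 < γ + s.im := by linarith
  have := law_prob a0 hb0
  have h1 := hcmp s a0 b γ A (fun t => hf M ‖uu t - u0‖) (fun _ => 1) hs hγ.le hb0 hA.le
    (bm_hf hM u0) (BM.const 1) (fun _ => hf_nonneg hM _) (fun _ => zero_le_one) (by
      have := harc M u0 hM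
      simp only [integral_const, smul_eq_mul, MeasurableSet.univ, measureReal_restrict_apply,
        Set.univ_inter, Real.volume_real_Icc]
      norm_num
      linarith)
  have h2 := hbad s a0 b γ hs hγ.le hb hb0
  simp only [mul_one] at h1
  have hm : MeasurableSet {a : ℝ | Good a0 b γ s a} :=
    (measurableSet_good a0 b γ).preimage (f := fun a : ℝ => (s, a)) (by fun_prop)
  have b1 := (BM.ite hm ((bm_z hJ).mul (bm_hf' hM u0 s.re (γ + s.im))) (BM.const 0)).integrable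
    (law a0 b)
  have b2 := ((BM.ite hm (BM.const 0) (bm_z hJ)).integrable (law a0 b)).const_mul (2 * M)
  have h3 : ∫ a, ‖zz s a γ‖ ^ 2 * hf M ‖uu ((a - s.re) / (γ + s.im)) - u0‖ ∂law a0 b ≤
      ∫ a, ((if Good a0 b γ s a then
        ‖zz s a γ‖ ^ 2 * hf M ‖uu ((a - s.re) / (γ + s.im)) - u0‖ else 0) +
        2 * M * if Good a0 b γ s a then 0 else ‖zz s a γ‖ ^ 2) ∂law a0 b := by
    refine integral_mono (((bm_z hJ).mul (bm_hf' hM u0 s.re (γ + s.im))).integrable _) (b1.add b2)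
      fun a => ?_
    have := mul_le_mul_of_nonneg_left (hf_le hM ‖uu ((a - s.re) / (γ + s.im)) - u0‖)
      (sq_nonneg ‖zz s a γ‖)
    dsimp only
    split_ifs <;> linarith
  rw [integral_add b1 b2, integral_const_mul] at h3
  have h4 := mul_le_mul_of_nonneg_left h2 (by positivity : 0 ≤ 2 * M)
  have h5 : 0 ≤ C2 * ∫ a, ‖zz s a γ‖ ^ 2 ∂law a0 b :=
    mul_nonneg hC2.le (integral_nonneg fun _ => sq_nonneg _)
  have h6 : 0 ≤ C1 * A * M * ‖zz s a0 b‖ ^ 2 := by positivity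
  linarith

theorem sum_kap (L : Lat) (y : L.P) (c : Cav y) {γ : ℝ} (hγ : 0 ≤ γ) (act : Finset L.P) :
    ∑ p ∈ act, ∑ m ∈ range L.N,
      4 ^ m * (‖c.rho p‖ ^ 2 * (∑ q, ‖c.vec γ q‖ ^ 2 * L.wh m p q) / c.J γ) ≤ 4 * c.V L.r2 := by
  have hJ := c.J_pos hγ
  have e1 : ∀ p, ∑ m ∈ range L.N,
      4 ^ m * (‖c.rho p‖ ^ 2 * (∑ q, ‖c.vec γ q‖ ^ 2 * L.wh m p q) / c.J γ) =
      ‖c.rho p‖ ^ 2 * (∑ q, ‖c.vec γ q‖ ^ 2 * L.r2 p q) / c.J γ := fun p => by
    simp only [← L.sum_wh, mul_sum, sum_div]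
    rw [sum_comm]
    exact sum_congr rfl fun q _ => sum_congr rfl fun m _ => by ring
  simp only [e1]
  have r0 : ∀ p q : L.P, 0 ≤ L.r2 p q := fun p q => L.rx_nonneg _ _
  have eV : ∑ q, ‖c.vec γ q‖ ^ 2 * L.r2 y q = c.V L.r2 := sum_congr rfl fun q _ => by
    by_cases h : q = y
    · subst h
      rw [L.rx_eq, L.rx_self]; simp
    · rw [vec_ne c γ h]
  have V0 : 0 ≤ c.V L.r2 := sum_nonneg fun q _ => mul_nonneg (sq_nonneg _) (r0 _ _)
  have h1 : ∀ p, ∑ q, ‖c.vec γ q‖ ^ 2 * L.r2 p q ≤ 2 * L.r2 y p * c.J γ + 2 * c.V L.r2 := by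
    intro p
    rw [← eV, ← c.sum_vec hγ, mul_sum, mul_sum, ← sum_add_distrib]
    refine sum_le_sum fun q _ => ?_
    have h2 := L.rx_le_two p.1 y.1 q.1
    rw [L.rx_symm p.1 y.1] at h2
    have := mul_le_mul_of_nonneg_left h2 (sq_nonneg ‖c.vec γ q‖)
    simp only [L.rx_eq]
    linarith
  refine (sum_le_sum_of_subset_of_nonneg (subset_univ act) fun p _ _ => div_nonneg (mul_nonneg
    (sq_nonneg _) (sum_nonneg fun q _ => mul_nonneg (sq_nonneg _) (r0 _ _))) hJ.le).trans ?_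
  rw [← sum_div, div_le_iff₀ hJ]
  refine (sum_le_sum fun p _ => mul_le_mul_of_nonneg_left (h1 p) (sq_nonneg _)).trans ?_
  have e2 : ∑ p, ‖c.rho p‖ ^ 2 * (2 * L.r2 y p * c.J γ + 2 * c.V L.r2) =
      2 * c.J γ * c.V L.r2 + 2 * c.V L.r2 * c.s.im := by
    rw [c.im_s, mul_sum]
    conv_rhs => rw [Cav.V, mul_sum]
    rw [← sum_add_distrib]
    exact sum_congr rfl fun p _ => by unfold Cav.V; ring
  rw [e2]
  have := mul_le_mul_of_nonneg_left (show c.s.im ≤ c.J γ by unfold Cav.J; linarith) V0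
  linarith

theorem nice_e (L : Lat) (p : L.P) : Nice fun K : L.Mat => Gam L.r2 K p / dd K p :=
  Nice.div (nice_Gam L.r2 p).meas (nice_dd p).meas (M := 8 * 4 ^ L.N) fun K _ => by
    obtain ⟨h1, h2, -⟩ := Gam_div (w := L.r2) (fun p q => L.rx_nonneg _ _)
      (fun p q => L.rho2_le_pow L.N p q) (by positivity) K p
    rwa [abs_of_nonneg h1]

end Bg

open Classical in
theorem breg : ∃ C : ℝ, 0 < C ∧ ∀ (L : Lat) (y : L.P) (c : Cav y) (a0 b γ i : ℝ)
    (act : Finset L.P), 0 < γ → γ ≤ b → 1 ≤ i → y ∉ act →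
    ∃ ρ : ℝ → ℝ, BM ρ ∧
      (∀ a, |a - a0| ≤ b → ∫ a', cau (γ - γ / 2) (a' - a) *
        ∑ p ∈ act, ∑ m ∈ range L.N, 4 ^ m * Br (Real.exp (-i)) (L.nn (c.K a γ) p m)
          (dd (c.K a γ) p) (L.nn (c.K a' (γ / 2)) p m) (dd (c.K a' (γ / 2)) p) ≤ ρ a) ∧
      ∫ a, ρ a ∂law a0 b ≤ C * i * c.Bq a0 b γ L.r2 + C * ∫ a, (Gam L.r2 (c.K a γ) y +
        ∑ p, cc (c.K a γ) y p * (Gam L.r2 (c.K a γ) p / dd (c.K a γ) p)) ∂law a0 b := by
  obtain ⟨C1, hC1, hone⟩ := Bg.one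
  obtain ⟨C2, hC2, hlaw⟩ := Bg.law_hf
  refine ⟨2 * C1 + 6 * C1 * C2, by positivity, fun L y c a0 b γ i act hγ hb hi hy => ?_⟩
  have hb0 : 0 < b := by linarith
  have := law_prob a0 hb0
  have hδ : 0 < γ - γ / 2 := by linarith
  have hγ' : 0 ≤ γ / 2 := by linarith
  have hJ := c.J_pos hγ.le
  have hJ' := c.J_pos hγ'
  have hM0 : 0 ≤ i + 5 := by linarith
  have hM : Real.log (68 / Real.exp (-i)) ≤ i + 5 := by
    rw [Real.log_div (by norm_num) (Real.exp_pos _).ne', Real.log_exp]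
    have e1 : (2.7 : ℝ) ≤ Real.exp 1 := by have := Real.exp_one_gt_d9; linarith
    have h1 := pow_le_pow_left₀ (by norm_num) e1 5
    rw [← Real.exp_nat_mul, show ((5 : ℕ) : ℝ) * 1 = 5 by norm_num] at h1
    have : Real.log 68 ≤ 5 := by
      rw [Real.log_le_iff_le_exp (by norm_num)]
      exact le_trans (by norm_num) h1
    linarith
  have H : ∀ (p : L.P) (m : ℕ), ∃ u0 : ℂ, p ≠ y → _ := fun p m => by
    by_cases hp : p = y
    · exact ⟨0, fun h => absurd hp h⟩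
    · obtain ⟨u0, h⟩ := hone L.P y c (L.wh m) γ (Real.exp (-i)) (i + 5) p (L.wh_nonneg m)
        (L.wh_le m) hγ (Real.exp_pos _) (Real.exp_le_one_iff.2 (by linarith)) hM hM0 hp
      exact ⟨u0, fun _ => h⟩
  choose u0 hu0 using H
  let κ : L.P → ℕ → ℝ := fun p m =>
    4 ^ m * (‖c.rho p‖ ^ 2 * (∑ q, ‖c.vec (γ / 2) q‖ ^ 2 * L.wh m p q) / c.J (γ / 2))
  have κ0 : ∀ p m, 0 ≤ κ p m := fun p m => mul_nonneg (by positivity) (div_nonneg (mul_nonneg
    (sq_nonneg _) (sum_nonneg fun q _ => mul_nonneg (sq_nonneg _) (L.wh_nonneg _ _ _))) hJ'.le)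
  have hκ : ∑ p ∈ act, ∑ m ∈ range L.N, κ p m ≤ 4 * c.V L.r2 := Bg.sum_kap L y c hγ' act
  let T : ℝ → ℝ := fun a => Gam L.r2 (c.K a γ) y +
    ∑ p, cc (c.K a γ) y p * (Gam L.r2 (c.K a γ) p / dd (c.K a γ) p)
  let F : L.P → ℕ → ℝ → ℝ := fun p m a =>
    ‖zz c.s a γ‖ ^ 2 * Bg.hf (i + 5) ‖uu ((a - c.s.re) / (γ + c.s.im)) - u0 p m‖
  have bG : BM fun a => Gam L.r2 (c.K a γ) y :=
    (nice_Gam L.r2 y).bm (c.measurable_K γ) fun a => c.port a hγ.le
  have bE : BM fun a => ∑ p, cc (c.K a γ) y p * (Gam L.r2 (c.K a γ) p / dd (c.K a γ) p) :=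
    (Nice.sum univ fun p _ => (nice_cc y p).mul (Bg.nice_e L p)).bm (c.measurable_K γ)
      fun a => c.port a hγ.le
  have bT : BM T := bG.add bE
  have bF : ∀ p m, BM (F p m) := fun p m => (Bg.bm_z hJ).mul (Bg.bm_hf' hM0 _ _ _)
  have bS : BM fun a => ∑ p ∈ act, ∑ m ∈ range L.N, κ p m * F p m a :=
    BM.sum act fun p _ => BM.sum _ fun m _ => (bF p m).const_mul _
  have r0 : ∀ p q : L.P, 0 ≤ L.r2 p q := fun p q => L.rx_nonneg _ _
  have ryy : L.r2 y y = 0 := L.rx_self _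
  have E0 : ∀ a p, 0 ≤ cc (c.K a γ) y p * (Gam L.r2 (c.K a γ) p / dd (c.K a γ) p) := fun a p =>
    mul_nonneg (cc_nonneg _ _ _) (div_nonneg (Gam_nonneg r0 _ _) (dd_nonneg _ _))
  refine ⟨fun a => 2 * C1 * T a + C1 * γ * ∑ p ∈ act, ∑ m ∈ range L.N, κ p m * F p m a,
    (bT.const_mul _).add (bS.const_mul _), fun a _ => ?_, ?_⟩
  · have hne : ∀ p ∈ act, p ≠ y := fun p hp h => hy (h ▸ hp)
    have H : ∀ (p : L.P) (m : ℕ), ∃ G : ℝ → ℝ, p ≠ y → _ := fun p m => by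
      by_cases hp : p = y
      · exact ⟨0, fun h => absurd hp h⟩
      · obtain ⟨G, h⟩ := hu0 p m hp a
        exact ⟨G, fun _ => h⟩
    choose G hG using H
    have iG : ∀ p ∈ act, ∀ m, Integrable fun a' => 4 ^ m * (cau (γ - γ / 2) (a' - a) * G p m a') :=
      fun p hp m => (Bg.int_cau hδ a (hG p m (hne p hp)).1).const_mul _
    refine (integral_mono_of_nonneg (g := fun a' => ∑ p ∈ act, ∑ m ∈ range L.N,
      4 ^ m * (cau (γ - γ / 2) (a' - a) * G p m a')) (Filter.Eventually.of_forall fun a' => ?_)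
      (integrable_finsetSum _ fun p hp => integrable_finsetSum _ fun m _ => iG p hp m)
      (Filter.Eventually.of_forall fun a' => ?_)).trans ?_
    · refine mul_nonneg (Bg.cau_nonneg hδ _) (sum_nonneg fun p _ => sum_nonneg fun m _ =>
        mul_nonneg (by positivity) (Br_nonneg (Real.exp_pos _) (Gam_nonneg (L.wh_nonneg m) _ _)
          (dd_nonneg _ _) (Gam_nonneg (L.wh_nonneg m) _ _) (dd_nonneg _ _) fun h => ?_))
      rw [← L.th_mul, h, mul_zero]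
    · dsimp only
      rw [mul_sum]
      refine sum_le_sum fun p hp => ?_
      rw [mul_sum]
      refine sum_le_sum fun m _ => ?_
      rw [mul_left_comm]
      exact mul_le_mul_of_nonneg_left (mul_le_mul_of_nonneg_left ((hG p m (hne p hp)).2.1 a')
        (Bg.cau_nonneg hδ _)) (by positivity)
    rw [integral_finsetSum _ fun p hp => integrable_finsetSum _ fun m _ => iG p hp m]
    have h1 : ∀ p ∈ act, ∫ a', ∑ m ∈ range L.N, 4 ^ m * (cau (γ - γ / 2) (a' - a) * G p m a') ≤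
        C1 * (cc (c.K a γ) y p * (Gam L.r2 (c.K a γ) p / dd (c.K a γ) p)) +
          C1 * (cc (c.K a γ) y p * L.r2 y p) + C1 * γ * ‖c.z a γ‖ ^ 2 * ∑ m ∈ range L.N, κ p m +
          C1 * γ * ∑ m ∈ range L.N, κ p m * F p m a := by
      intro p hp
      rw [integral_finsetSum _ fun m _ => iG p hp m, ← L.sum_nn, ← L.sum_wh, sum_div]
      simp only [mul_sum, ← sum_add_distrib]
      refine sum_le_sum fun m _ => ?_
      rw [integral_const_mul]
      refine (mul_le_mul_of_nonneg_left (hG p m (hne p hp)).2.2 (by positivity)).trans (le_of_eq ?_)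
      rw [L.wh_symm m y p]
      simp only [κ, F, Lat.nn, Cav.J, Cav.z]
      ring
    refine (sum_le_sum h1).trans ?_
    simp only [sum_add_distrib, ← mul_sum]
    have h2 : ∑ p ∈ act, cc (c.K a γ) y p * (Gam L.r2 (c.K a γ) p / dd (c.K a γ) p) ≤
        ∑ p, cc (c.K a γ) y p * (Gam L.r2 (c.K a γ) p / dd (c.K a γ) p) :=
      sum_le_sum_of_subset_of_nonneg (subset_univ _) fun p _ _ => E0 a p
    have h3 : ∑ p ∈ act, cc (c.K a γ) y p * L.r2 y p ≤ Gam L.r2 (c.K a γ) y :=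
      sum_le_sum_of_subset_of_nonneg (subset_univ _) fun p _ _ =>
        mul_nonneg (cc_nonneg _ _ _) (r0 _ _)
    have h4 := mul_le_mul_of_nonneg_left hκ (by positivity : 0 ≤ C1 * γ * ‖c.z a γ‖ ^ 2)
    have h5 := congrArg (C1 * ·) (c.Gam_y a γ hγ.le ryy)
    have h6 := mul_le_mul_of_nonneg_left h2 hC1.le
    have h7 := mul_le_mul_of_nonneg_left h3 hC1.le
    have h8 := mul_nonneg hC1.le (sum_nonneg fun p (_ : p ∈ univ) => E0 a p)
    simp only [T] at h5 ⊢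
    linarith
  · rw [integral_add ((bT.const_mul _).integrable _) ((bS.const_mul _).integrable _),
      integral_const_mul, integral_const_mul, integral_finsetSum _ fun p _ =>
        (BM.sum _ fun m _ => (bF p m).const_mul (κ p m)).integrable _]
    set Z := ∫ a, ‖zz c.s a γ‖ ^ 2 ∂law a0 b with hZ
    set B := C2 * Z + C2 * (i + 5) * ‖zz c.s a0 b‖ ^ 2 with hB
    have Z0 : 0 ≤ Z := integral_nonneg fun _ => sq_nonneg _
    have h1 : ∑ p ∈ act, ∫ a, ∑ m ∈ range L.N, κ p m * F p m a ∂law a0 b ≤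
        (∑ p ∈ act, ∑ m ∈ range L.N, κ p m) * B := by
      rw [sum_mul]
      refine sum_le_sum fun p _ => ?_
      rw [integral_finsetSum _ fun m _ => ((bF p m).const_mul (κ p m)).integrable _, sum_mul]
      refine sum_le_sum fun m _ => ?_
      rw [integral_const_mul]
      exact mul_le_mul_of_nonneg_left (hlaw c.s (u0 p m) a0 b γ (i + 5) c.s_pos hγ hb hM0) (κ0 p m)
    have h2 := mul_le_mul_of_nonneg_right hκ (by positivity : 0 ≤ B)
    have h3 : 4 * γ * c.V L.r2 * Z ≤ ∫ a, T a ∂law a0 b := by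
      rw [hZ, ← integral_const_mul]
      refine integral_mono (((Bg.bm_z hJ).const_mul _).integrable _) (bT.integrable _) fun a => ?_
      have h5 := c.Gam_y a γ hγ.le ryy
      have h8 := sum_nonneg fun p (_ : p ∈ univ) => E0 a p
      simp only [T, Cav.z] at h5 ⊢
      linarith
    have V0 : 0 ≤ c.V L.r2 := sum_nonneg fun q _ => mul_nonneg (sq_nonneg _) (r0 _ _)
    have h4 := mul_le_mul_of_nonneg_left (h1.trans h2) (by positivity : 0 ≤ C1 * γ)
    have h5 := mul_le_mul_of_nonneg_left h3 (by positivity : 0 ≤ C1 * C2)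
    have h6 : 0 ≤ C1 * C2 * ∫ a, T a ∂law a0 b :=
      mul_nonneg (by positivity) (le_trans (by positivity) h3)
    have Q0 : 0 ≤ c.Bq a0 b γ L.r2 := by unfold Cav.Bq; positivity
    have h7 := mul_le_mul_of_nonneg_left (show i + 5 ≤ 6 * i by linarith)
      (by positivity : 0 ≤ C1 * C2 * c.Bq a0 b γ L.r2)
    have h8 : 0 ≤ C1 * i * c.Bq a0 b γ L.r2 := by positivity
    have h9 : C1 * γ * (4 * c.V L.r2 * B) = C1 * C2 * (4 * γ * c.V L.r2 * Z) +
        C1 * C2 * c.Bq a0 b γ L.r2 * (i + 5) := by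
      simp only [hB, Cav.Bq, Cav.z]; ring
    change _ ≤ _ + _ * ∫ a, T a ∂law a0 b
    linarith

end Crest.Agent.N334.G
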