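import Crest.Agent.N334.G.B0a
import Crest.Agent.N334.G.B1
import Crest.Agent.N334.G.B2

/-!
# Row 334, S0519 GAIN (B), part 0b: expansion of the depth potential in a cavity (helper83)
-/

set_option autoImplicit false

open MeasureTheory Finset Complex
open scoped BigOperators ComplexConjugate

noncomputable section

namespace Crest.Agent.N334.G.B0

variable {L : Lat}

def act (Y : Finset L.X) (y : L.P) : Finset L.P :=
  univ.filter fun p => p ≠ y ∧ (p.2 = true ∧ p.1 ∈ Y)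
def BS (Y : Finset L.X) (i : ℝ) (y : L.P) (K K' : L.Mat) : ℝ :=
  ∑ p ∈ act Y y, ∑ m ∈ range L.N, 4 ^ m *
    Br (Real.exp (-i)) (L.nn K p m) (dd K p) (L.nn K' p m) (dd K' p)
def DS (Y : Finset L.X) (i : ℝ) (K : L.Mat) (p : L.P) : ℝ :=
  ∑ m ∈ range L.N, 4 ^ m * Dc L Y i K p m
def own (Y : Finset L.X) (i : ℝ) (K : L.Mat) (p : L.P) : ℝ :=
  ∑ m ∈ range L.N, 4 ^ m * (L.nn K p m * L.gd Y i K p m)

theorem nn_nonneg (K : L.Mat) (p : L.P) (m : ℕ) : 0 ≤ L.nn K p m :=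
  Gam_nonneg (L.wh_nonneg m) K p

theorem nn_zero (K : L.Mat) (p : L.P) (m : ℕ) (h : dd K p = 0) : L.nn K p m = 0 := by
  rw [← L.th_mul, h, mul_zero]

theorem BS_nonneg (Y : Finset L.X) (i : ℝ) (y : L.P) (K K' : L.Mat) : 0 ≤ BS Y i y K K' :=
  sum_nonneg fun p _ => sum_nonneg fun m _ => mul_nonneg (by positivity)
    (Br_nonneg (Real.exp_pos _) (nn_nonneg K p m) (dd_nonneg K p) (nn_nonneg K' p m)
      (dd_nonneg K' p) (nn_zero K' p m))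

theorem own_sub (Y : Finset L.X) (i : ℝ) (K K' : L.Mat) (p : L.P) :
    own Y i K' p - own Y i K p =
      ∑ q, Wt L Y i K p q * (cc K' p q - cc K p q) + DS Y i K p * (dd K' p - dd K p) -
        if p.2 = true ∧ p.1 ∈ Y then ∑ m ∈ range L.N, 4 ^ m *
          Br (Real.exp (-i)) (L.nn K p m) (dd K p) (L.nn K' p m) (dd K' p) else 0 := by
  have h1 : ∑ q, Wt L Y i K p q * (cc K' p q - cc K p q) =
      ∑ m ∈ range L.N, 4 ^ m * (Fc L Y i K p m * (L.nn K' p m - L.nn K p m)) := by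
    unfold Wt Lat.nn Gam
    simp only [sum_mul, ← sum_sub_distrib, mul_sum]
    rw [sum_comm]
    exact sum_congr rfl fun m _ => sum_congr rfl fun q _ => by ring
  rw [h1]
  unfold own DS Fc Dc Lat.gd
  split_ifs
  · rw [sum_mul, ← sum_add_distrib, ← sum_sub_distrib, ← sum_sub_distrib]
    refine sum_congr rfl fun m _ => ?_
    have h2 := Br_self (Real.exp_pos (-i)) (nn_nonneg K p m) (dd_nonneg K p) (nn_zero K p m)
    unfold Br at h2 ⊢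
    unfold Lat.th
    linear_combination ((4 : ℝ) ^ m) * h2
  · rw [sum_mul, ← sum_add_distrib, ← sum_sub_distrib, sub_zero]
    exact sum_congr rfl fun m _ => by ring

theorem pot_sub (Y : Finset L.X) (i : ℝ) (K K' : L.Mat) (y : L.P) :
    L.Pot Y i K' - L.Pot Y i K =
      ∑ p ∈ univ.erase y, ∑ q, Wt L Y i K p q * (cc K' p q - cc K p q) +
        ∑ p ∈ univ.erase y, DS Y i K p * (dd K' p - dd K p) - BS Y i y K K' +
        (own Y i K' y - own Y i K y) := by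
  have h1 : L.Pot Y i K' - L.Pot Y i K = ∑ p, (own Y i K' p - own Y i K p) := by
    rw [sum_sub_distrib]; rfl
  have h2 : BS Y i y K K' = ∑ p ∈ univ.erase y,
      if p.2 = true ∧ p.1 ∈ Y then ∑ m ∈ range L.N, 4 ^ m *
          Br (Real.exp (-i)) (L.nn K p m) (dd K p) (L.nn K' p m) (dd K' p) else 0 := by
    rw [← sum_filter]
    refine sum_congr ?_ fun _ _ => rfl
    ext p; simp [act]
  rw [h1, ← Finset.add_sum_erase _ _ (mem_univ y), add_comm, h2, ← sum_add_distrib,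
    ← sum_sub_distrib]
  congr 1
  exact sum_congr rfl fun p _ => own_sub Y i K K' p

section cav
variable {y0 : L.X} (c : Cav ((y0, true) : L.P))

def gy (i γ : ℝ) (m : ℕ) : ℝ := -Real.log (c.V (L.wh m) / c.J γ + Real.exp (-i))
def Ow (i γ : ℝ) : ℝ := ∑ m ∈ range L.N, 4 ^ m * (c.V (L.wh m) * gy c i γ m)

theorem nn_y (a : ℝ) {γ : ℝ} (hγ : 0 ≤ γ) (m : ℕ) :
    L.nn (c.K a γ) (y0, true) m = 4 * γ * ‖c.z a γ‖ ^ 2 * c.V (L.wh m) :=
  c.Gam_y a γ hγ (L.wh_self m _)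

theorem gd_y {Y : Finset L.X} (hy : y0 ∈ Y) (i a : ℝ) {γ : ℝ} (hγ : 0 < γ) (m : ℕ) :
    L.gd Y i (c.K a γ) (y0, true) m = gy c i γ m := by
  have hz : 0 < ‖c.z a γ‖ := norm_pos_iff.2 (z_ne c hγ.le a)
  unfold Lat.gd gy Lat.th
  rw [if_pos ⟨rfl, hy⟩, nn_y c a hγ.le, c.dd_y a γ hγ.le,
    mul_div_mul_left _ _ (by positivity)]

theorem own_y {Y : Finset L.X} (hy : y0 ∈ Y) (i a : ℝ) {γ : ℝ} (hγ : 0 < γ) :
    own Y i (c.K a γ) (y0, true) = 4 * γ * ‖c.z a γ‖ ^ 2 * Ow c i γ := by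
  unfold own Ow
  rw [mul_sum]
  exact sum_congr rfl fun m _ => by rw [nn_y c a hγ.le, gd_y c hy i a hγ]; ring

theorem sum_V : ∑ m ∈ range L.N, 4 ^ m * c.V (L.wh m) = c.V L.r2 := by
  unfold Cav.V
  simp only [← L.sum_wh, mul_sum]
  rw [sum_comm]
  exact sum_congr rfl fun p _ => sum_congr rfl fun m _ => by ring

theorem Ow_abs {i γ : ℝ} (hi : 1 ≤ i) (hγ : 0 < γ) : |Ow c i γ| ≤ 6 * i * c.V L.r2 := by
  unfold Ow
  rw [← sum_V, mul_sum]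
  refine (abs_sum_le_sum_abs _ _).trans (sum_le_sum fun m _ => ?_)
  have hV := V_nonneg c (L.wh_nonneg m)
  have h1 := L.gd_bdd {y0} (show 0 ≤ i by linarith) (c.K 0 γ) (y0, true) m
  rw [gd_y c (mem_singleton_self _) i 0 hγ] at h1
  have h2 : |gy c i γ m| ≤ 6 * i := by
    rw [abs_le]; constructor <;> linarith [h1.1, h1.2]
  rw [abs_mul, abs_mul, abs_of_nonneg hV, abs_of_nonneg (by positivity : (0 : ℝ) ≤ 4 ^ m)]
  calc _ ≤ 4 ^ m * (c.V (L.wh m) * (6 * i)) := by gcongr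
    _ = _ := by ring

theorem gy_half (i : ℝ) {γ : ℝ} (hγ : 0 < γ) (m : ℕ) :
    gy c i γ m - 1 ≤ gy c i (γ / 2) m := by
  have hV := V_nonneg c (L.wh_nonneg m)
  have hJ : 0 < c.J γ := c.J_pos hγ.le
  have hJ' : 0 < c.J (γ / 2) := c.J_pos (by linarith)
  have he := Real.exp_pos (-i)
  have h1 : c.V (L.wh m) / c.J (γ / 2) ≤ 2 * (c.V (L.wh m) / c.J γ) := by
    rw [← mul_div_assoc, div_le_div_iff₀ hJ' hJ]
    have : c.J γ ≤ 2 * c.J (γ / 2) := by unfold Cav.J; linarith [c.s_pos]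
    nlinarith
  have h2 : 0 ≤ c.V (L.wh m) / c.J γ := by positivity
  have h3 : Real.log (c.V (L.wh m) / c.J (γ / 2) + Real.exp (-i)) ≤
      Real.log (2 * (c.V (L.wh m) / c.J γ + Real.exp (-i))) :=
    Real.log_le_log (by positivity) (by linarith)
  rw [Real.log_mul (by norm_num) (by positivity)] at h3
  have h4 : Real.log 2 ≤ 1 := by
    have := Real.log_le_sub_one_of_pos (show (0 : ℝ) < 2 by norm_num); linarith
  unfold gy; linarith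

variable (Y : Finset L.X) (i a γ : ℝ)

def q0 : ℝ := A0 c (Wt L Y i (c.K a γ)) a γ + 2 * γ * ‖c.z a γ‖ ^ 2 * Ow c i (γ / 2) -
  4 * γ * ‖c.z a γ‖ ^ 2 * Ow c i γ
def q1 : ℂ := A1 c (Wt L Y i (c.K a γ)) a γ +
  ∑ p ∈ univ.erase (y0, true), (DS Y i (c.K a γ) p : ℂ) * (-4 * I * c.rho p ^ 2) +
  ((2 * γ * Ow c i (γ / 2) : ℝ) : ℂ) * (2 * conj (c.z a γ))
def q2 : ℝ := A2 c (Wt L Y i (c.K a γ)) γ + 2 * γ * Ow c i (γ / 2)

variable {Y i γ}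

theorem expand (hy : y0 ∈ Y) (hγ : 0 < γ) (a' : ℝ) :
    L.Pot Y i (c.K a' (γ / 2)) - L.Pot Y i (c.K a γ) =
      q0 c Y i a γ + (q1 c Y i a γ * (c.z a' (γ / 2) - c.z a γ)).re +
        q2 c Y i a γ * ‖c.z a' (γ / 2) - c.z a γ‖ ^ 2 -
        BS Y i (y0, true) (c.K a γ) (c.K a' (γ / 2)) := by
  rw [pot_sub Y i _ _ (y0, true), quad_rows c _ a a' hγ.le, own_y c hy i a hγ,
    own_y c hy i a' (half_pos hγ)]
  set ζ := c.z a' (γ / 2) - c.z a γ with hζ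
  have h1 : ∑ p ∈ univ.erase (y0, true),
      DS Y i (c.K a γ) p * (dd (c.K a' (γ / 2)) p - dd (c.K a γ) p) =
      ((∑ p ∈ univ.erase (y0, true),
        (DS Y i (c.K a γ) p : ℂ) * (-4 * I * c.rho p ^ 2)) * ζ).re := by
    rw [sum_mul, re_sum]
    refine sum_congr rfl fun p hp => ?_
    rw [c.dd_sub a a' hγ.le (by linarith) (ne_of_mem_erase hp), mul_assoc (DS _ _ _ _ : ℂ),
      re_ofReal_mul]
  have h2 : ‖c.z a' (γ / 2)‖ ^ 2 = ‖c.z a γ‖ ^ 2 + (2 * conj (c.z a γ) * ζ).re + ‖ζ‖ ^ 2 := by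
    have := normSq_add (c.z a γ) 1 ζ
    rw [show c.z a γ + 1 * ζ = c.z a' (γ / 2) by rw [hζ]; ring] at this
    simpa using this
  rw [h1, h2]
  unfold q0 q1 q2
  rw [add_mul, add_mul, add_re, add_re, mul_assoc (ofReal _), re_ofReal_mul]
  ring

theorem q2_abs (hi : 1 ≤ i) (hγ : 0 < γ) :
    |q2 c Y i a γ| ≤ 136 * i * c.J (γ / 2) * c.V L.r2 := by
  have h1 := A2_le c (W := Wt L Y i (c.K a γ)) (r := L.r2) (H := 7 * i) (by linarith)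
    (Wt_abs Y hi _) r2_nonneg (r2_self _) (r2_tri _) hγ.le
  have h2 := Ow_abs c hi (half_pos hγ)
  have hV := V_nonneg c (r2_nonneg (L := L))
  have h3 : γ ≤ 2 * c.J (γ / 2) := by unfold Cav.J; linarith [c.s_pos]
  unfold q2
  refine (abs_add_le _ _).trans ?_
  rw [abs_mul, abs_of_nonneg (by linarith : 0 ≤ 2 * γ)]
  have h4 : 2 * γ * |Ow c i (γ / 2)| ≤ 2 * (2 * c.J (γ / 2)) * (6 * i * c.V L.r2) :=
    mul_le_mul (by linarith) h2 (abs_nonneg _) (by linarith)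
  nlinarith

theorem q1_le (hi : 1 ≤ i) (hγ : 0 < γ) {a0 b : ℝ} (hb : γ ≤ b) (ha : |a - a0| ≤ b) :
    γ * ‖c.z a0 b‖ ^ 2 * ‖q1 c Y i a γ‖ ≤ TT L Y i (c.K a γ) (y0, true) / i ^ 2 +
      9 * EE L (c.K a γ) (y0, true) + 50 * i ^ 2 * c.Bq a0 b γ L.r2 := by
  have hz : 0 < ‖c.z a γ‖ := norm_pos_iff.2 (z_ne c hγ.le a)
  have hr : ‖c.z a0 b‖ ≤ 3 * ‖c.z a γ‖ := zref_le c.s_pos hγ.le hb ha
  have hr0 : 0 ≤ ‖c.z a0 b‖ := norm_nonneg _
  have hr2 : ‖c.z a0 b‖ ^ 2 ≤ 9 * ‖c.z a γ‖ ^ 2 := by nlinarith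
  have hV := V_nonneg c (r2_nonneg (L := L))
  have hB : c.Bq a0 b γ L.r2 = 4 * (γ * ‖c.z a0 b‖ ^ 2 * c.V L.r2) := by unfold Cav.Bq; ring
  have hB0 : 0 ≤ γ * ‖c.z a0 b‖ ^ 2 * c.V L.r2 := by positivity
  set x := ‖c.z a0 b‖ ^ 2 / ‖c.z a γ‖ ^ 2 with hx
  have hx0 : 0 ≤ x := by positivity
  have hx9 : x ≤ 9 := by rw [hx, div_le_iff₀ (by positivity)]; exact hr2
  have hxz : x * ‖c.z a γ‖ ^ 2 = ‖c.z a0 b‖ ^ 2 := by rw [hx]; field_simp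
  have h1 := A1_le c (W := Wt L Y i (c.K a γ)) (r := L.r2) (H := 7 * i) (by linarith)
    (Wt_abs Y hi _) r2_nonneg (r2_self _) (fun p => r2_symm _ _) a hγ.le
  have h2 := T3_le Y hi (c.port a hγ.le) (y0, true) hx0
  rw [c.Gam_y a γ hγ.le (r2_self _)] at h2
  have hii : i ≤ i ^ 2 := by nlinarith
  have e1 : γ * ‖c.z a0 b‖ ^ 2 * ‖A1 c (Wt L Y i (c.K a γ)) a γ‖ ≤
      TT L Y i (c.K a γ) (y0, true) / i ^ 2 +
        176 * i ^ 2 * (γ * ‖c.z a0 b‖ ^ 2 * c.V L.r2) := by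
    have h3 := mul_le_mul_of_nonneg_left h1 hx0
    have h4 : i ^ 2 * x ^ 2 * (4 * γ * ‖c.z a γ‖ ^ 2 * c.V L.r2) =
        4 * x * i ^ 2 * (γ * ‖c.z a0 b‖ ^ 2 * c.V L.r2) := by rw [← hxz]; ring
    have h5 : 4 * x * i ^ 2 * (γ * ‖c.z a0 b‖ ^ 2 * c.V L.r2) ≤
        4 * 9 * i ^ 2 * (γ * ‖c.z a0 b‖ ^ 2 * c.V L.r2) := by gcongr
    have h6 : x * (20 * (7 * i) * (γ * ‖c.z a γ‖ ^ 2) * c.V L.r2) =
        140 * i * (γ * ‖c.z a0 b‖ ^ 2 * c.V L.r2) := by rw [← hxz]; ring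
    have h7 : 140 * i * (γ * ‖c.z a0 b‖ ^ 2 * c.V L.r2) ≤
        140 * i ^ 2 * (γ * ‖c.z a0 b‖ ^ 2 * c.V L.r2) := by gcongr
    have h8 : γ * ‖c.z a0 b‖ ^ 2 * ‖A1 c (Wt L Y i (c.K a γ)) a γ‖ =
        x * (γ * ‖c.z a γ‖ ^ 2 * ‖A1 c (Wt L Y i (c.K a γ)) a γ‖) := by rw [← hxz]; ring
    rw [mul_add] at h3
    linarith
  have e2 : γ * ‖c.z a0 b‖ ^ 2 * ‖∑ p ∈ univ.erase (y0, true),
      (DS Y i (c.K a γ) p : ℂ) * (-4 * I * c.rho p ^ 2)‖ ≤ 9 * EE L (c.K a γ) (y0, true) := by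
    refine (mul_le_mul_of_nonneg_left (norm_sum_le _ _) (by positivity)).trans ?_
    have hnn : ∀ p, 0 ≤ cc (c.K a γ) (y0, true) p * (Gam L.r2 (c.K a γ) p / dd (c.K a γ) p) :=
      fun p => mul_nonneg (cc_nonneg _ _ _) (div_nonneg (Gam_nonneg r2_nonneg _ _) (dd_nonneg _ _))
    unfold EE
    rw [mul_sum, mul_sum]
    refine (sum_le_sum fun p hp => ?_).trans (sum_le_sum_of_subset_of_nonneg (subset_univ _)
      fun p _ _ => mul_nonneg (by norm_num) (hnn p))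
    have h3 : |DS Y i (c.K a γ) p| ≤ _ := sum_Dc Y i (c.K a γ) p
    rw [cc_ne c a hγ.le (ne_of_mem_erase hp)]
    simp only [norm_mul, norm_neg, norm_pow, Complex.norm_real, Real.norm_eq_abs, Complex.norm_I,
      Complex.norm_ofNat]
    calc _ ≤ γ * (9 * ‖c.z a γ‖ ^ 2) * (Gam L.r2 (c.K a γ) p / dd (c.K a γ) p *
          (4 * 1 * ‖c.rho p‖ ^ 2)) := by gcongr
      _ = _ := by ring
  have e3 : γ * ‖c.z a0 b‖ ^ 2 * ‖((2 * γ * Ow c i (γ / 2) : ℝ) : ℂ) * (2 * conj (c.z a γ))‖ ≤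
      24 * i ^ 2 * (γ * ‖c.z a0 b‖ ^ 2 * c.V L.r2) := by
    have h3 := Ow_abs c hi (half_pos hγ)
    have h4 := J_z c hγ.le a
    rw [norm_mul, Complex.norm_real, Real.norm_eq_abs, abs_mul,
      abs_of_nonneg (by linarith : 0 ≤ 2 * γ), norm_mul, Complex.norm_conj, Complex.norm_ofNat]
    calc _ = γ * ‖c.z a0 b‖ ^ 2 * 4 * (γ * ‖c.z a γ‖) * |Ow c i (γ / 2)| := by ring
      _ ≤ γ * ‖c.z a0 b‖ ^ 2 * 4 * 1 * (6 * i ^ 2 * c.V L.r2) := by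
          gcongr
          exact h3.trans (by gcongr)
      _ = _ := by ring
  unfold q1
  rw [hB]
  have h0 : 0 ≤ γ * ‖c.z a0 b‖ ^ 2 := by positivity
  refine (mul_le_mul_of_nonneg_left ((norm_add_le _ _).trans
    (add_le_add_left (norm_add_le _ _) _)) h0).trans ?_
  rw [mul_add, mul_add]
  linarith

end cav

end Crest.Agent.N334.G.B0
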