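import Crest.Agent.N334.G.B0b

/-!
# Row 334, S0519 GAIN (B), part 0c: the ideal drift of the depth potential (helper83)
-/

set_option autoImplicit false

open MeasureTheory Finset Complex
open scoped BigOperators ComplexConjugate

noncomputable section

namespace Crest.Agent.N334.G.B0

theorem det_ge : ∃ C : ℝ, 0 < C ∧ ∀ (L : Lat) (K : L.Mat), IsPort K → ∀ (y : L.P)
    (Y : Finset L.X) (i : ℝ), 1 ≤ i → 0 < nu K y →
    L.Red Y i K y - C * Gam L.r2 K y - C * i ^ 2 * L.GN K y +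
      ∑ m ∈ range L.N, 4 ^ m * L.nn K y m *
        ((∑ p ∈ univ.erase y, cc K y p) / nu K y * L.gd Y i K y m) ≤
    ∑ p ∈ univ.erase y, ∑ q ∈ univ.erase y,
      cc K y p * cc K y q / nu K y * (Wt L Y i K p q - Wt L Y i K p y) := by
  obtain ⟨C, hC0, hC⟩ := redist
  refine ⟨36 * C + 4, by positivity, fun L K hKp y Y i hi hnu0 => ?_⟩
  have hR := hC L K hKp y (L.gd Y i K) (6 * i) (by linarith)
    (fun p m => by
      have := L.gd_bdd Y (show 0 ≤ i by linarith) K p m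
      rw [abs_le]; constructor <;> linarith [this.1, this.2]) (L.gd_lip Y i K)
  have hG0 : 0 ≤ Gam L.r2 K y := Gam_nonneg r2_nonneg _ _
  have hGN : 0 ≤ L.GN K y := Gn_nonneg _ _ _
  have hw : ∀ w : L.P → L.P → ℝ, w y y = 0 →
      ∑ q ∈ univ.erase y, cc K y q * w y q = Gam w K y := fun w hw => by
    unfold Gam
    rw [← Finset.add_sum_erase _ _ (mem_univ y), hw, mul_zero, zero_add]
  have s1 : ∑ p ∈ univ.erase y, ∑ q ∈ univ.erase y, (cc K y p * cc K y q / nu K y *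
      ∑ m ∈ range L.N, 4 ^ m * L.gd Y i K p m * (L.wh m p q - L.wh m p y - L.wh m y q) +
        cc K y p * cc K y q / nu K y * ∑ m ∈ range L.N, 4 ^ m * L.gd Y i K p m * L.wh m y q -
        cc K y p * cc K y q / nu K y * (2 * L.r2 y p + 2 * L.r2 y q)) ≤
      ∑ p ∈ univ.erase y, ∑ q ∈ univ.erase y,
        cc K y p * cc K y q / nu K y * (Wt L Y i K p q - Wt L Y i K p y) := by
    refine sum_le_sum fun p _ => sum_le_sum fun q _ => ?_
    rw [← mul_add, ← mul_sub]
    refine mul_le_mul_of_nonneg_left ?_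
      (div_nonneg (mul_nonneg (cc_nonneg _ _ _) (cc_nonneg _ _ _)) hnu0.le)
    have h1 := r2_tri y p q
    rw [← L.sum_wh p q] at h1
    have h2 : ∑ m ∈ range L.N, 4 ^ m * L.gd Y i K p m * (L.wh m p q - L.wh m p y - L.wh m y q) +
        ∑ m ∈ range L.N, 4 ^ m * L.gd Y i K p m * L.wh m y q -
        ∑ m ∈ range L.N, 4 ^ m * L.wh m p q ≤ Wt L Y i K p q - Wt L Y i K p y := by
      unfold Wt
      rw [← sum_add_distrib, ← sum_sub_distrib, ← sum_sub_distrib]
      refine sum_le_sum fun m _ => ?_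
      have h3 := Fc_bd Y i K p m
      have h4 := mul_nonneg (sub_nonneg.2 h3.1) (L.wh_nonneg m p q)
      have h5 := mul_nonneg (sub_nonneg.2 h3.2) (L.wh_nonneg m p y)
      have h6 := mul_nonneg (show (0 : ℝ) ≤ 4 ^ m by positivity) (add_nonneg h4 h5)
      linarith
    linarith
  have s2 : ∑ p ∈ univ.erase y, ∑ q ∈ univ.erase y, cc K y p * cc K y q / nu K y *
      (2 * L.r2 y p + 2 * L.r2 y q) ≤ 4 * Gam L.r2 K y := by
    have : ∑ p ∈ univ.erase y, ∑ q ∈ univ.erase y, cc K y p * cc K y q / nu K y *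
        (2 * L.r2 y p + 2 * L.r2 y q) =
        4 * Gam L.r2 K y * ((∑ q ∈ univ.erase y, cc K y q) / nu K y) := by
      have e : ∀ p q, cc K y p * cc K y q / nu K y * (2 * L.r2 y p + 2 * L.r2 y q) =
          2 / nu K y * (cc K y p * L.r2 y p * cc K y q + cc K y p * (cc K y q * L.r2 y q)) :=
        fun p q => by ring
      simp only [e, ← mul_sum, sum_add_distrib, ← sum_mul, hw L.r2 (r2_self _)]
      ring
    rw [this]
    refine mul_le_of_le_one_right (by linarith) ?_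
    rw [div_le_one hnu0]
    exact (sum_le_sum_of_subset_of_nonneg (subset_univ _) fun q _ _ => cc_nonneg K y q).trans
      (dd_le_nu K y)
  have s3 : ∑ p ∈ univ.erase y, ∑ q ∈ univ.erase y, cc K y p * cc K y q / nu K y *
      ∑ m ∈ range L.N, 4 ^ m * L.gd Y i K p m * L.wh m y q =
      L.Red Y i K y + ∑ m ∈ range L.N, 4 ^ m * L.nn K y m *
        ((∑ p ∈ univ.erase y, cc K y p) / nu K y * L.gd Y i K y m) := by
    unfold Lat.Red
    rw [← sum_add_distrib]
    simp only [mul_sum]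
    calc _ = ∑ p ∈ univ.erase y, ∑ m ∈ range L.N, ∑ q ∈ univ.erase y, _ :=
          sum_congr rfl fun p _ => sum_comm
      _ = ∑ m ∈ range L.N, ∑ p ∈ univ.erase y, ∑ q ∈ univ.erase y, _ := sum_comm
      _ = _ := by
          refine sum_congr rfl fun m _ => ?_
          rw [sum_div, sum_mul, mul_sum, ← sum_add_distrib]
          refine sum_congr rfl fun p _ => ?_
          have e2 : L.nn K y m = ∑ q ∈ univ.erase y, cc K y q * L.wh m y q :=
            (hw (L.wh m) (L.wh_self m y)).symm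
          rw [← mul_add, e2, mul_sum, sum_mul]
          exact sum_congr rfl fun q _ => by ring
  simp only [sum_add_distrib, sum_sub_distrib] at s1
  have h36 : C * (6 * i) ^ 2 * L.GN K y ≤ (36 * C + 4) * i ^ 2 * L.GN K y :=
    mul_le_mul_of_nonneg_right (by nlinarith [sq_nonneg i]) hGN
  have hCG : C * Gam L.r2 K y ≤ 36 * C * Gam L.r2 K y := by nlinarith
  linarith

theorem ideal_ge : ∃ C : ℝ, 0 < C ∧ ∀ (L : Lat) (y0 : L.X) (c : Cav ((y0, true) : L.P))
    (Y : Finset L.X) (i a γ : ℝ), y0 ∈ Y → 1 ≤ i → 0 < γ →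
    L.Red Y i (c.K a γ) (y0, true) - C * Gam L.r2 (c.K a γ) (y0, true) -
      C * i ^ 2 * L.GN (c.K a γ) (y0, true) ≤
    q0 c Y i a γ + q2 c Y i a γ * ((γ - γ / 2) * ‖c.z a γ‖ ^ 2 / c.J (γ / 2)) := by
  obtain ⟨C, hC0, hC⟩ := det_ge
  refine ⟨C + 1, by positivity, fun L y0 c Y i a γ hy hi hγ => ?_⟩
  have hid := ideal c (Wt L Y i (c.K a γ)) a hγ
  have hJ' : 0 < c.J (γ / 2) := c.J_pos (by linarith)
  have hz : 0 < ‖c.z a γ‖ := norm_pos_iff.2 (z_ne c hγ.le a)
  have hnu := nu_half c a hγ.le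
  have hmu : ∑ p ∈ univ.erase (y0, true), cc (c.K a γ) (y0, true) p =
      4 * γ * ‖c.z a γ‖ ^ 2 * c.s.im := by
    rw [im_eq c, mul_sum]
    exact sum_congr rfl fun p hp => cc_ne c a hγ.le (ne_of_mem_erase hp)
  have hD := hC L _ (c.port a hγ.le) (y0, true) Y i hi (by rw [hnu]; positivity)
  have hGN : 0 ≤ i ^ 2 * L.GN (c.K a γ) (y0, true) :=
    mul_nonneg (sq_nonneg _) (Gn_nonneg _ _ _)
  have s4 : -Gam L.r2 (c.K a γ) (y0, true) ≤
      2 * γ * ‖c.z a γ‖ ^ 2 * Ow c i (γ / 2) - 4 * γ * ‖c.z a γ‖ ^ 2 * Ow c i γ +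
        2 * γ * Ow c i (γ / 2) * ((γ - γ / 2) * ‖c.z a γ‖ ^ 2 / c.J (γ / 2)) +
      ∑ m ∈ range L.N, 4 ^ m * L.nn (c.K a γ) (y0, true) m *
        ((∑ p ∈ univ.erase (y0, true), cc (c.K a γ) (y0, true) p) / nu (c.K a γ) (y0, true) *
          L.gd Y i (c.K a γ) (y0, true) m) := by
    unfold Ow
    rw [← L.sum_nn, ← sum_neg_distrib, hmu, hnu, mul_sum, mul_sum, mul_sum, sum_mul,
      ← sum_sub_distrib, ← sum_add_distrib, ← sum_add_distrib]
    refine sum_le_sum fun m _ => ?_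
    have h1 := gy_half c i hγ m
    have hn0 := nn_nonneg (c.K a γ) (y0, true) m
    have hJe : c.J γ = c.J (γ / 2) + γ / 2 := by unfold Cav.J; ring
    have hse : c.s.im = c.J (γ / 2) - γ / 2 := by unfold Cav.J; ring
    have ht0 : 0 ≤ c.J γ / (2 * c.J (γ / 2)) := div_nonneg (c.J_pos hγ.le).le (by positivity)
    have ht1 : c.J γ / (2 * c.J (γ / 2)) ≤ 1 := by
      rw [div_le_one (by positivity)]; linarith [c.s_pos]
    have h2 : -1 ≤ c.J γ / (2 * c.J (γ / 2)) * (gy c i (γ / 2) m - gy c i γ m) := by nlinarith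
    have h3 := mul_le_mul_of_nonneg_left h2
      (mul_nonneg (show (0 : ℝ) ≤ 4 ^ m by positivity) hn0)
    refine (le_of_eq (by ring)).trans (h3.trans (le_of_eq ?_))
    rw [gd_y c hy i a hγ, nn_y c a hγ.le, hse, hJe]
    field_simp
    ring
  unfold q0 q2
  rw [← hid] at hD
  linarith

end Crest.Agent.N334.G.B0
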