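import Crest.Agent.N334.G.Defs

/-!
# Row 334, S0519 GAIN: (B) scalar lemmas for the Bregman remainder
-/

set_option autoImplicit false

open MeasureTheory Finset Complex
open scoped BigOperators ComplexConjugate

noncomputable section

namespace Crest.Agent.N334.G.Bg

/-- a continuous majorant of `min M (20 / √x)` -/
def hf (M x : ℝ) : ℝ := 40 * M / (20 + M * Real.sqrt x)

theorem hf_den {M : ℝ} (hM : 0 ≤ M) (x : ℝ) : 0 < 20 + M * Real.sqrt x := by positivity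

theorem hf_nonneg {M : ℝ} (hM : 0 ≤ M) (x : ℝ) : 0 ≤ hf M x := by
  unfold hf; positivity

theorem hf_le {M : ℝ} (hM : 0 ≤ M) (x : ℝ) : hf M x ≤ 2 * M := by
  unfold hf
  rw [div_le_iff₀ (hf_den hM x)]
  have : 0 ≤ M * (M * Real.sqrt x) := by positivity
  linarith

theorem hf_sq {M x : ℝ} (hM : 0 ≤ M) (hx : 0 ≤ x) : hf M x ^ 2 * x ≤ 40 ^ 2 := by
  have h1 : hf M x * Real.sqrt x ≤ 40 := by
    unfold hf
    rw [div_mul_eq_mul_div, div_le_iff₀ (hf_den hM x)]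
    linarith
  have h2 : 0 ≤ hf M x * Real.sqrt x := mul_nonneg (hf_nonneg hM x) (Real.sqrt_nonneg x)
  calc hf M x ^ 2 * x = (hf M x * Real.sqrt x) ^ 2 := by rw [mul_pow, Real.sq_sqrt hx]
    _ ≤ 40 ^ 2 := pow_le_pow_left₀ h2 h1 2

theorem le_hf {M x l : ℝ} (hM : 0 ≤ M) (h1 : l ≤ M) (h2 : l * Real.sqrt x ≤ 20) : l ≤ hf M x := by
  unfold hf
  rw [le_div_iff₀ (hf_den hM x)]
  have := mul_le_mul_of_nonneg_left h2 hM
  linarith

theorem continuous_hf {M : ℝ} (hM : 0 ≤ M) : Continuous (hf M) := by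
  unfold hf
  exact continuous_const.div (by fun_prop) fun x => (hf_den hM x).ne'

theorem log_sqrt {w x : ℝ} (hw : 0 < w) (hx : 0 ≤ x) (h : w * x ^ 2 ≤ 625) :
    Real.log w * Real.sqrt x ≤ 20 := by
  set s := Real.sqrt (Real.sqrt w) with hs
  have hs0 : 0 < s := Real.sqrt_pos.2 (Real.sqrt_pos.2 hw)
  have h2 : s ^ 2 = Real.sqrt w := Real.sq_sqrt (Real.sqrt_nonneg w)
  have h4 : s ^ 4 = w := by
    calc s ^ 4 = (s ^ 2) ^ 2 := by ring
      _ = w := by rw [h2, Real.sq_sqrt hw.le]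
  have hl : Real.log w ≤ 4 * s := by
    rw [← h4, Real.log_pow]
    have := Real.log_le_sub_one_of_pos hs0
    push_cast
    linarith
  have hx4 : Real.sqrt x ^ 4 = x ^ 2 := by
    calc Real.sqrt x ^ 4 = (Real.sqrt x ^ 2) ^ 2 := by ring
      _ = x ^ 2 := by rw [Real.sq_sqrt hx]
  have h5 : s * Real.sqrt x ≤ 5 := by
    apply le_of_pow_le_pow_left₀ (n := 4) (by norm_num) (by norm_num)
    rw [mul_pow, h4, hx4]
    linarith
  have := mul_le_mul_of_nonneg_right hl (Real.sqrt_nonneg x)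
  linarith

theorem le_hf_log {M x l w : ℝ} (hM : 0 ≤ M) (hx : 0 ≤ x) (hw : 0 < w) (h1 : l ≤ M)
    (h2 : l ≤ Real.log w) (h : w * x ^ 2 ≤ 625) : l ≤ hf M x :=
  le_hf hM h1 ((mul_le_mul_of_nonneg_right h2 (Real.sqrt_nonneg x)).trans (log_sqrt hw hx h))

theorem Br_eq {ε θ d n d' θ' : ℝ} (hε : 0 < ε) (hθ : n / d = θ) (h0 : 0 ≤ θ) (h0' : 0 ≤ θ')
    (hd' : 0 < d') :
    Br ε n d (θ' * d') d' =
      d' * (θ' * Real.log ((θ' + ε) / (θ + ε)) - θ * (θ' - θ) / (θ + ε)) := by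
  have h1 : 0 < θ + ε := by linarith
  have h2 : 0 < θ' + ε := by linarith
  unfold Br fn fd
  rw [hθ, mul_div_cancel_right₀ _ hd'.ne', Real.log_div h2.ne' h1.ne']
  field_simp
  ring

theorem Br_nonneg {ε n d n' d' : ℝ} (hε : 0 < ε) (hn : 0 ≤ n) (hd : 0 ≤ d) (hn' : 0 ≤ n')
    (hd' : 0 ≤ d') (h0 : d' = 0 → n' = 0) : 0 ≤ Br ε n d n' d' := by
  rcases hd'.eq_or_lt with h | h
  · rw [h0 h.symm, ← h]; simp [Br]
  have hθ : 0 ≤ n / d := div_nonneg hn hd
  have hθ' : 0 ≤ n' / d' := div_nonneg hn' hd'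
  have e : n' = n' / d' * d' := by field_simp
  rw [e, Br_eq hε rfl hθ hθ' h]
  generalize n / d = θ at hθ
  generalize n' / d' = θ' at hθ'
  have h1 : 0 < θ + ε := by linarith
  have h2 : 0 < θ' + ε := by linarith
  refine mul_nonneg hd' ?_
  have hl := Real.one_sub_inv_le_log_of_pos (div_pos h2 h1)
  have h3 := mul_le_mul_of_nonneg_left hl hθ'
  have h4 : θ' * (1 - ((θ' + ε) / (θ + ε))⁻¹) - θ * (θ' - θ) / (θ + ε) =
      ε * (θ' - θ) ^ 2 / ((θ + ε) * (θ' + ε)) := by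
    field_simp
    ring
  have h5 : 0 ≤ ε * (θ' - θ) ^ 2 / ((θ + ε) * (θ' + ε)) := by positivity
  linarith

theorem Br_self {ε n d : ℝ} (hε : 0 < ε) (hn : 0 ≤ n) (hd : 0 ≤ d) (h0 : d = 0 → n = 0) :
    Br ε n d n d = 0 := by
  rcases hd.eq_or_lt with h | h
  · rw [h0 h.symm, ← h]; simp [Br]
  have hθ : 0 ≤ n / d := div_nonneg hn hd
  have e : n = n / d * d := by field_simp
  have := Br_eq (n := n) (d := d) hε rfl hθ hθ h
  rw [← e] at this
  rw [this, div_self (by linarith : n / d + ε ≠ 0)]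
  simp

/-- the scalar upper bound -/
theorem Br_le {ε M θ d θ' d' x1 x2 c cw HA HD HN : ℝ} (hε : 0 < ε) (hε1 : ε ≤ 1)
    (hM : Real.log (68 / ε) ≤ M) (hθ : 0 ≤ θ) (hd : 0 ≤ d) (hθ' : 0 ≤ θ') (hd' : 0 ≤ d')
    (h67 : θ' ≤ 67) (hθd : θ * d / d = θ)
    (hx1 : 0 ≤ x1) (hx2 : 0 ≤ x2) (hc : 0 ≤ c) (hcw : 0 ≤ cw) (hcn : cw ≤ θ * d)
    (hxn : (Real.sqrt (θ' * d') - Real.sqrt (θ * d)) ^ 2 ≤ x1 + cw)
    (hxd : (Real.sqrt d' - Real.sqrt d) ^ 2 ≤ x2 + c)
    (hA0 : 0 ≤ HA) (hD0 : 0 ≤ HD) (hN0 : 0 ≤ HN)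
    (hA : d ≤ 100 * c → 0 < d → 0 < d' → ∀ l, l ≤ M → l ≤ Real.log (d / d') → l ≤ HA)
    (hD : 0 < d → 0 < d' → ∀ l, l ≤ M → l ≤ Real.log (d / d') → l ≤ HD)
    (hN : 0 < θ' * d' → θ' * d' ≤ 2 * x1 → ∀ l, l ≤ M →
      (0 < θ * d → l ≤ Real.log (θ' * d' / (θ * d))) → l ≤ HN) :
    Br ε (θ * d) d (θ' * d') d' ≤ 64 * (x1 + cw + θ * (x2 + c)) + 10000 * (θ * c * HA) +
      200 * (θ * x2 * HD) + 2 * (x1 * (HN + HD)) := by
  have p1 : 0 ≤ x1 + cw + θ * (x2 + c) := by positivity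
  have p2 : 0 ≤ θ * c * HA := by positivity
  have p3 : 0 ≤ θ * x2 * HD := by positivity
  have p4 : 0 ≤ x1 * (HN + HD) := by positivity
  rcases hd'.eq_or_lt with h | hd0
  · rw [← h]
    have : Br ε (θ * d) d (θ' * 0) 0 = 0 := by simp [Br]
    rw [this]; positivity
  rw [Br_eq hε hθd hθ hθ' hd0]
  have h1 : 0 < θ + ε := by linarith
  have h2 : 0 < θ' + ε := by linarith
  set l := Real.log ((θ' + ε) / (θ + ε)) with hl
  set s := Real.sqrt θ
  set s' := Real.sqrt θ'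
  set r := Real.sqrt d
  set r' := Real.sqrt d'
  have hs : s ^ 2 = θ := Real.sq_sqrt hθ
  have hs' : s' ^ 2 = θ' := Real.sq_sqrt hθ'
  have hr : r ^ 2 = d := Real.sq_sqrt hd
  have hr' : r' ^ 2 = d' := Real.sq_sqrt hd'
  have s0 : 0 ≤ s := Real.sqrt_nonneg _
  have s0' : 0 ≤ s' := Real.sqrt_nonneg _
  have r0 : 0 ≤ r := Real.sqrt_nonneg _
  have r0' : 0 ≤ r' := Real.sqrt_nonneg _
  rw [Real.sqrt_mul hθ', Real.sqrt_mul hθ] at hxn
  change (s' * r' - s * r) ^ 2 ≤ x1 + cw at hxn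
  have key : d' * (s' - s) ^ 2 ≤ 2 * (x1 + cw + θ * (x2 + c)) := by
    have e : d' * (s' - s) ^ 2 = 2 * (s' * r' - s * r) ^ 2 + 2 * (θ * (r' - r) ^ 2) -
        (s' * r' - s * r + s * (r' - r)) ^ 2 := by
      rw [← hr', ← hs]; ring
    have := mul_le_mul_of_nonneg_left hxd hθ
    have := sq_nonneg (s' * r' - s * r + s * (r' - r))
    linarith
  by_cases h4 : θ' ≤ 4 * θ
  · have hl1 : l ≤ (θ' + ε) / (θ + ε) - 1 := Real.log_le_sub_one_of_pos (div_pos h2 h1)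
    have h5 := mul_le_mul_of_nonneg_left hl1 hθ'
    have h6 : θ' * ((θ' + ε) / (θ + ε) - 1) - θ * (θ' - θ) / (θ + ε) = (θ' - θ) ^ 2 / (θ + ε) := by
      field_simp
      ring
    have h7 : s' ≤ 2 * s := by
      apply le_of_pow_le_pow_left₀ (n := 2) (by norm_num) (by positivity)
      rw [mul_pow, hs, hs']; linarith
    have h8 : (θ' - θ) ^ 2 / (θ + ε) ≤ 9 * (s' - s) ^ 2 := by
      rw [div_le_iff₀ h1]
      have e : (θ' - θ) ^ 2 = (s' - s) ^ 2 * (s' + s) ^ 2 := by rw [← hs, ← hs']; ring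
      have h9 : (s' + s) ^ 2 ≤ 9 * (θ + ε) := by
        have : (s' + s) ^ 2 ≤ (3 * s) ^ 2 := pow_le_pow_left₀ (by positivity) (by linarith) 2
        rw [mul_pow, hs] at this
        linarith
      have := mul_le_mul_of_nonneg_left h9 (sq_nonneg (s' - s))
      rw [e]; linarith
    have h10 : θ' * l - θ * (θ' - θ) / (θ + ε) ≤ 9 * (s' - s) ^ 2 := by linarith
    have := mul_le_mul_of_nonneg_left h10 hd'
    linarith
  have h4 : 4 * θ < θ' := lt_of_not_ge h4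
  have hθ0 : 0 < θ' := by linarith
  have hn0 : 0 < θ' * d' := mul_pos hθ0 hd0
  have hB : d' * (θ' * l - θ * (θ' - θ) / (θ + ε)) ≤ θ' * d' * l := by
    have : 0 ≤ θ * (θ' - θ) / (θ + ε) := div_nonneg (mul_nonneg hθ (by linarith)) h1.le
    have := mul_nonneg hd' this
    linarith
  refine hB.trans ?_
  have hn8 : θ' * d' ≤ 8 * (x1 + cw + θ * (x2 + c)) := by
    have h7 : 2 * s ≤ s' := by
      apply le_of_pow_le_pow_left₀ (n := 2) (by norm_num) s0'
      rw [mul_pow, hs, hs']; linarith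
    have h8 : s' ^ 2 ≤ (2 * (s' - s)) ^ 2 := pow_le_pow_left₀ s0' (by linarith) 2
    rw [hs', mul_pow] at h8
    have := mul_le_mul_of_nonneg_left h8 hd'
    linarith
  have hlM : l ≤ M := by
    refine le_trans (Real.log_le_log (div_pos h2 h1) ?_) hM
    exact div_le_div₀ (by norm_num) (by linarith) hε (by linarith)
  have hsplit : 0 < θ * d → l ≤ Real.log (θ' * d' / (θ * d)) + Real.log (d / d') := by
    intro h
    have hθp : 0 < θ := by
      rcases hθ.eq_or_lt with h' | h'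
      · rw [← h'] at h; simp at h
      · exact h'
    have hdp : 0 < d := (mul_pos_iff_of_pos_left hθp).1 h
    rw [← Real.log_mul (div_pos hn0 h).ne' (div_pos hdp hd0).ne']
    refine Real.log_le_log (div_pos h2 h1) ?_
    have e : θ' * d' / (θ * d) * (d / d') = θ' / θ := by field_simp
    rw [e, div_le_div_iff₀ h1 hθp]
    have := mul_le_mul_of_nonneg_right (by linarith : θ ≤ θ') hε.le
    linarith
  by_cases h100 : θ' * d' ≤ 100 * (θ * d)
  · have hnp : 0 < θ * d := by linarith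
    have hθp : 0 < θ := by
      rcases hθ.eq_or_lt with h' | h'
      · rw [← h'] at hnp; simp at hnp
      · exact h'
    have hdp : 0 < d := (mul_pos_iff_of_pos_left hθp).1 hnp
    have e1 : (2.7 : ℝ) ≤ Real.exp 1 := by have := Real.exp_one_gt_d9; linarith
    have l100 : Real.log (θ' * d' / (θ * d)) ≤ 5 := by
      rw [Real.log_le_iff_le_exp (div_pos hn0 hnp), div_le_iff₀ hnp]
      have : (2.7 : ℝ) ^ 5 ≤ Real.exp 5 := by
        have := pow_le_pow_left₀ (by norm_num) e1 5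
        rwa [← Real.exp_nat_mul, show ((5 : ℕ) : ℝ) * 1 = 5 by norm_num] at this
      have h' : (100 : ℝ) ≤ Real.exp 5 := le_trans (by norm_num) this
      have := mul_le_mul_of_nonneg_right h' hnp.le
      linarith
    have hl5 : l - 5 ≤ Real.log (d / d') := by have := hsplit hnp; linarith
    by_cases h16 : d ≤ 16 * d'
    · have l16 : Real.log (d / d') ≤ 3 := by
        rw [Real.log_le_iff_le_exp (div_pos hdp hd0), div_le_iff₀ hd0]
        have : (2.7 : ℝ) ^ 3 ≤ Real.exp 3 := by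
          have := pow_le_pow_left₀ (by norm_num) e1 3
          rwa [← Real.exp_nat_mul, show ((3 : ℕ) : ℝ) * 1 = 3 by norm_num] at this
        have h' : (16 : ℝ) ≤ Real.exp 3 := le_trans (by norm_num) this
        have := mul_le_mul_of_nonneg_right h' hd0.le
        linarith
      have := mul_le_mul_of_nonneg_left (by linarith : l ≤ 8) hn0.le
      linarith
    have h16 : 16 * d' < d := lt_of_not_ge h16
    by_cases hcd : d ≤ 100 * c
    · have h9 := hA hcd hdp hd0 (l - 5) (by linarith) hl5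
      have h10 := mul_le_mul_of_nonneg_left (by linarith : l ≤ 5 + HA) hn0.le
      have h11 := mul_le_mul_of_nonneg_right h100 hA0
      have h12 := mul_le_mul_of_nonneg_left hcd (mul_nonneg hθ hA0)
      linarith
    · have hcd : 100 * c < d := lt_of_not_ge hcd
      have h9 := hD hdp hd0 (l - 5) (by linarith) hl5
      have h10 := mul_le_mul_of_nonneg_left (by linarith : l ≤ 5 + HD) hn0.le
      have h11 := mul_le_mul_of_nonneg_right h100 hD0
      have h13 : 4 * r' ≤ r := by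
        apply le_of_pow_le_pow_left₀ (n := 2) (by norm_num) r0
        rw [mul_pow, hr, hr']; linarith
      have h14 : (3 / 4 * r) ^ 2 ≤ (r - r') ^ 2 := pow_le_pow_left₀ (by positivity) (by linarith) 2
      rw [mul_pow, hr] at h14
      have h15 : d ≤ 2 * x2 := by
        have : (r - r') ^ 2 = (r' - r) ^ 2 := by ring
        linarith
      have h12 := mul_le_mul_of_nonneg_left h15 (mul_nonneg hθ hD0)
      linarith
  have h100 : 100 * (θ * d) < θ' * d' := lt_of_not_ge h100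
  have h13 : 10 * (s * r) ≤ s' * r' := by
    apply le_of_pow_le_pow_left₀ (n := 2) (by norm_num) (by positivity)
    rw [mul_pow, mul_pow, mul_pow, hs, hs', hr, hr']; linarith
  have h14 : (9 / 10 * (s' * r')) ^ 2 ≤ (s' * r' - s * r) ^ 2 :=
    pow_le_pow_left₀ (by positivity) (by linarith) 2
  rw [mul_pow, mul_pow, hs', hr'] at h14
  have h15 : θ' * d' ≤ 2 * x1 := by linarith
  have h16 : l ≤ HN + HD := by
    rcases (mul_nonneg hθ hd).eq_or_lt with h | hnp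
    · have := hN hn0 h15 l hlM fun h' => absurd h' (by linarith)
      linarith
    have hθp : 0 < θ := by
      rcases hθ.eq_or_lt with h' | h'
      · rw [← h'] at hnp; simp at hnp
      · exact h'
    have hdp : 0 < d := (mul_pos_iff_of_pos_left hθp).1 hnp
    have a1 := hN hn0 h15 (min M (Real.log (θ' * d' / (θ * d)))) (min_le_left _ _)
      fun _ => min_le_right _ _
    have a2 := hD hdp hd0 (min M (Real.log (d / d'))) (min_le_left _ _) (min_le_right _ _)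
    have a3 := hsplit hnp
    rcases min_choice M (Real.log (θ' * d' / (θ * d))) with b1 | b1 <;>
      rcases min_choice M (Real.log (d / d')) with b2 | b2 <;> rw [b1] at a1 <;> rw [b2] at a2 <;>
      linarith
  have h17 := mul_le_mul_of_nonneg_left h16 hn0.le
  have h18 := mul_le_mul_of_nonneg_right h15 (add_nonneg hN0 hD0)
  linarith

/-- reverse triangle inequality in weighted `ℓ²` -/
theorem sqrt_sub_sq {P : Type} [Fintype P] (u v : P → ℂ) (w : P → ℝ) (hw : ∀ q, 0 ≤ w q) :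
    (Real.sqrt (∑ q, ‖u q‖ ^ 2 * w q) - Real.sqrt (∑ q, ‖v q‖ ^ 2 * w q)) ^ 2 ≤
      ∑ q, ‖u q - v q‖ ^ 2 * w q := by
  have hA : 0 ≤ ∑ q, ‖u q‖ ^ 2 * w q := sum_nonneg fun q _ => mul_nonneg (sq_nonneg _) (hw q)
  have hB : 0 ≤ ∑ q, ‖v q‖ ^ 2 * w q := sum_nonneg fun q _ => mul_nonneg (sq_nonneg _) (hw q)
  have cs := Real.sum_mul_le_sqrt_mul_sqrt univ (fun q => ‖u q‖ * Real.sqrt (w q))
    (fun q => ‖v q‖ * Real.sqrt (w q))
  have e1 : ∀ (x : P → ℂ) (q : P), (‖x q‖ * Real.sqrt (w q)) ^ 2 = ‖x q‖ ^ 2 * w q := fun x q => by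
    rw [mul_pow, Real.sq_sqrt (hw q)]
  simp only [e1] at cs
  have h1 : ∑ q, (‖u q‖ ^ 2 * w q + ‖v q‖ ^ 2 * w q -
      2 * (‖u q‖ * Real.sqrt (w q) * (‖v q‖ * Real.sqrt (w q)))) ≤ ∑ q, ‖u q - v q‖ ^ 2 * w q := by
    refine sum_le_sum fun q _ => ?_
    have h2 : (‖u q‖ - ‖v q‖) ^ 2 ≤ ‖u q - v q‖ ^ 2 := by
      rw [← sq_abs]
      exact pow_le_pow_left₀ (abs_nonneg _) (abs_norm_sub_norm_le _ _) 2
    have h3 := mul_le_mul_of_nonneg_right h2 (hw q)
    have h4 : ‖u q‖ * Real.sqrt (w q) * (‖v q‖ * Real.sqrt (w q)) = ‖u q‖ * ‖v q‖ * w q := by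
      calc _ = ‖u q‖ * ‖v q‖ * Real.sqrt (w q) ^ 2 := by ring
        _ = _ := by rw [Real.sq_sqrt (hw q)]
    rw [h4]; linarith
  rw [sum_sub_distrib, sum_add_distrib, ← mul_sum] at h1
  rw [sub_sq, Real.sq_sqrt hA, Real.sq_sqrt hB]
  linarith

end Crest.Agent.N334.G.Bg
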