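import Crest.Agent.N334.G.Lift
import Crest.Agent.N334.G.B20

/-!
# Row 334, S0519 GAIN: (B) Cauchy averages for the Bregman remainder
-/

set_option autoImplicit false

open MeasureTheory Finset Complex
open scoped BigOperators ComplexConjugate

noncomputable section

namespace Crest.Agent.N334.G.Bg

theorem cau_nonneg {δ : ℝ} (hδ : 0 < δ) (x : ℝ) : 0 ≤ cau δ x := by
  unfold cau; positivity

theorem int_cau {δ : ℝ} (hδ : 0 < δ) (a : ℝ) {F : ℝ → ℝ} (hF : BM F) :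
    Integrable fun a' => cau δ (a' - a) * F a' := by
  obtain ⟨M, hM⟩ := hF.bdd
  exact (cau_integral hδ a).1.mul_bdd hF.meas.aestronglyMeasurable
    (Filter.Eventually.of_forall fun x => by simpa using hM x)

theorem norm_zz_le' {s : ℂ} {γ : ℝ} (h : 0 < γ + s.im) (a : ℝ) : ‖zz s a γ‖ ≤ 1 / (γ + s.im) := by
  rw [le_div_iff₀ h, mul_comm]; exact norm_zz_le h a

theorem bm_zeta {s : ℂ} {γ : ℝ} (h : 0 < γ + s.im) (w : ℂ) : BM fun a => ‖zz s a γ - w‖ ^ 2 := by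
  refine ⟨((measurable_zz s γ).sub_const w).norm.pow_const 2, (1 / (γ + s.im) + ‖w‖) ^ 2, fun a => ?_⟩
  rw [abs_of_nonneg (sq_nonneg _)]
  refine pow_le_pow_left₀ (norm_nonneg _) ((norm_sub_le _ _).trans ?_) 2
  have := norm_zz_le' h a
  linarith

theorem bm_z {s : ℂ} {γ : ℝ} (h : 0 < γ + s.im) : BM fun a => ‖zz s a γ‖ ^ 2 := by
  simpa using bm_zeta h 0

theorem measurable_uu : Measurable uu :=
  measurable_const.div (Complex.measurable_ofReal.sub measurable_const)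

theorem bm_hf {M : ℝ} (hM : 0 ≤ M) (u0 : ℂ) : BM fun t => hf M ‖uu t - u0‖ :=
  ⟨(continuous_hf hM).measurable.comp (measurable_uu.sub_const u0).norm, 2 * M, fun _ => by
    rw [abs_of_nonneg (hf_nonneg hM _)]; exact hf_le hM _⟩

theorem bm_hf' {M : ℝ} (hM : 0 ≤ M) (u0 : ℂ) (u J : ℝ) :
    BM fun a => hf M ‖uu ((a - u) / J) - u0‖ :=
  (bm_hf hM u0).comp (g := fun a : ℝ => (a - u) / J) (by fun_prop)

theorem arc_hf : ∃ C : ℝ, 0 < C ∧ ∀ (M : ℝ) (u0 : ℂ), 0 ≤ M →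
    ∫ t, hf M ‖uu t - u0‖ / (1 + t ^ 2) ≤ C := by
  obtain ⟨C, hC, h⟩ := arc_sing
  exact ⟨C * 40, by positivity, fun M u0 hM => h u0 _ 40 (bm_hf hM u0) (by norm_num)
    (fun t => hf_nonneg hM _) fun t => hf_sq hM (norm_nonneg _)⟩

theorem int_change (g : ℝ → ℝ) (u : ℝ) {J : ℝ} (hJ : 0 < J) :
    ∫ a, g ((a - u) / J) = J * ∫ t, g t := by
  rw [integral_sub_right_eq_self (fun x => g (x / J)) u, Measure.integral_comp_div, abs_of_pos hJ,
    smul_eq_mul]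

theorem normSq_zz {s : ℂ} {γ : ℝ} (h : 0 < γ + s.im) (a : ℝ) :
    ‖zz s a γ‖ ^ 2 = 1 / (γ + s.im) ^ 2 * (1 / (1 + ((a - s.re) / (γ + s.im)) ^ 2)) := by
  have h1 := zz_eq_uu h ((a - s.re) / (γ + s.im))
  have e : s.re + (γ + s.im) * ((a - s.re) / (γ + s.im)) = a := by field_simp; ring
  rw [e] at h1
  rw [← (uu_normSq _).1, ← h1, norm_mul, mul_pow, Complex.norm_real, Real.norm_eq_abs, sq_abs]
  field_simp

theorem int_A {δ : ℝ} (hδ : 0 < δ) (a : ℝ) (f : ℝ → ℝ) :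
    ∫ a', cau δ (a' - a) * f ((a' - a) / δ) = 1 / Real.pi * ∫ t, f t / (1 + t ^ 2) := by
  have e : ∀ a', cau δ (a' - a) * f ((a' - a) / δ) =
      (fun t => 1 / (Real.pi * δ) * (f t / (1 + t ^ 2))) ((a' - a) / δ) := by
    intro a'
    unfold cau
    have := Real.pi_pos
    field_simp
    ring
  simp only [e]
  rw [int_change (fun t => 1 / (Real.pi * δ) * (f t / (1 + t ^ 2))) a hδ, integral_const_mul]
  have := Real.pi_pos
  field_simp

theorem int_D {s : ℂ} (hs : 0 < s.im) {γ γ' : ℝ} (h0 : 0 ≤ γ') (h : γ' < γ) (a : ℝ) (f : ℝ → ℝ) :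
    ∫ a', cau (γ - γ') (a' - a) *
        (‖zz s a' γ' - zz s a γ‖ ^ 2 * f ((a' - s.re) / (γ' + s.im))) =
      (γ - γ') * ‖zz s a γ‖ ^ 2 / (γ' + s.im) * (1 / Real.pi * ∫ t, f t / (1 + t ^ 2)) := by
  have hJ : 0 < γ' + s.im := by linarith
  have e : ∀ a', cau (γ - γ') (a' - a) *
      (‖zz s a' γ' - zz s a γ‖ ^ 2 * f ((a' - s.re) / (γ' + s.im))) =
      (fun t => (γ - γ') / Real.pi * ‖zz s a γ‖ ^ 2 * (1 / (γ' + s.im) ^ 2) * (f t / (1 + t ^ 2)))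
        ((a' - s.re) / (γ' + s.im)) := by
    intro a'
    rw [← mul_assoc, cau_mul_sq hs h0 h, normSq_zz hJ a']
    ring
  simp only [e]
  rw [int_change (fun t => (γ - γ') / Real.pi * ‖zz s a γ‖ ^ 2 * (1 / (γ' + s.im) ^ 2) *
    (f t / (1 + t ^ 2))) s.re hJ, integral_const_mul]
  have := Real.pi_pos
  field_simp

theorem int_0 {s : ℂ} (hs : 0 < s.im) {γ γ' : ℝ} (h0 : 0 ≤ γ') (h : γ' < γ) (a : ℝ) :
    ∫ a', cau (γ - γ') (a' - a) * ‖zz s a' γ' - zz s a γ‖ ^ 2 =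
      (γ - γ') * ‖zz s a γ‖ ^ 2 / (γ' + s.im) := by
  simpa using cau_quad hs h0 h a 0 1 0

/-- the ratio of two cavity values -/
theorem z_ratio {s : ℂ} (hs : 0 < s.im) {γ : ℝ} (hγ : 0 < γ) (a a' : ℝ) :
    ‖zz s a γ‖ ^ 2 * ‖uu ((a' - a) / (γ - γ / 2)) - 0‖ ^ 2 ≤ 3 * ‖zz s a' (γ / 2)‖ ^ 2 := by
  set t := (a' - a) / (γ - γ / 2) with ht
  have hA : (a : ℂ) - I * γ - s ≠ 0 := by
    intro h
    have := congrArg Complex.im h
    simp at this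
    linarith
  have hA' : (a' : ℂ) - I * ((γ / 2 : ℝ) : ℂ) - s ≠ 0 := by
    intro h
    have := congrArg Complex.im h
    simp at this
    linarith
  have hJ := norm_zz_le (by linarith : 0 < γ + s.im) a
  have hz : γ * ‖zz s a γ‖ ≤ 1 := by
    have := mul_nonneg hs.le (norm_nonneg (zz s a γ))
    linarith
  have e : zz s a γ = zz s a' (γ / 2) * (1 + (γ * zz s a γ) * (((t / 2 : ℝ) : ℂ) + I / 2)) := by
    have hg : (γ : ℂ) ≠ 0 := by exact_mod_cast hγ.ne'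
    have e1 : (γ : ℂ) * ((t / 2 : ℝ) : ℂ) = a' - a := by
      rw [← Complex.ofReal_mul, ← Complex.ofReal_sub]
      congr 1
      rw [ht]
      have : γ - γ / 2 = γ / 2 := by ring
      rw [this]
      field_simp
    have e2 : (γ * zz s a γ) * (((t / 2 : ℝ) : ℂ) + I / 2) =
        zz s a γ * ((a' : ℂ) - a + I * γ / 2) := by
      rw [← e1]; ring
    rw [e2]
    have e3 : (a' : ℂ) - a + I * γ / 2 =
        ((a' : ℂ) - I * ((γ / 2 : ℝ) : ℂ) - s) - ((a : ℂ) - I * γ - s) := by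
      push_cast; ring
    rw [e3]
    unfold zz
    generalize (a' : ℂ) - I * ((γ / 2 : ℝ) : ℂ) - s = B at hA'
    generalize (a : ℂ) - I * γ - s = A at hA
    field_simp
    ring
  have h1 : ‖(γ * zz s a γ) * (((t / 2 : ℝ) : ℂ) + I / 2)‖ ≤ |t| / 2 + 1 / 2 := by
    rw [norm_mul, norm_mul, Complex.norm_real, Real.norm_eq_abs, abs_of_pos hγ]
    have h2 : ‖((t / 2 : ℝ) : ℂ) + I / 2‖ ≤ |t| / 2 + 1 / 2 := by
      refine (norm_add_le _ _).trans (le_of_eq ?_)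
      rw [Complex.norm_real, Real.norm_eq_abs, abs_div]
      simp
    have := mul_le_mul hz h2 (norm_nonneg _) zero_le_one
    linarith
  have h3 : ‖zz s a γ‖ ≤ ‖zz s a' (γ / 2)‖ * (3 / 2 + |t| / 2) := by
    refine (congrArg norm e).le.trans ?_
    rw [norm_mul]
    refine mul_le_mul_of_nonneg_left ((norm_add_le _ _).trans ?_) (norm_nonneg _)
    rw [norm_one]
    linarith
  have h4 := pow_le_pow_left₀ (norm_nonneg _) h3 2
  have h5 : (3 / 2 + |t| / 2) ^ 2 ≤ 3 * (1 + t ^ 2) := by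
    have := sq_abs t
    have := sq_nonneg (|t| - 1 / 3)
    nlinarith
  rw [sub_zero, (uu_normSq t).1, mul_one_div, div_le_iff₀ (by positivity)]
  rw [mul_pow] at h4
  have := mul_le_mul_of_nonneg_left h5 (sq_nonneg ‖zz s a' (γ / 2)‖)
  linarith

variable {P : Type} [Fintype P] [DecidableEq P] {y : P} (c : Cav y)

theorem vec_ne (γ : ℝ) {p : P} (hp : p ≠ y) : c.vec γ p = c.rho p := by simp [Cav.vec, hp]

theorem cc_ne (a : ℝ) {γ : ℝ} (hγ : 0 ≤ γ) {p : P} (hp : p ≠ y) :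
    cc (c.K a γ) y p = 4 * γ * ‖c.z a γ‖ ^ 2 * ‖c.rho p‖ ^ 2 := by
  rw [c.cc_y a γ hγ, vec_ne c γ hp]

theorem vec_mono {γ : ℝ} (hγ : 0 ≤ γ) (q : P) : ‖c.vec (γ / 2) q‖ ^ 2 ≤ ‖c.vec γ q‖ ^ 2 := by
  unfold Cav.vec
  split_ifs
  · simp only [Complex.norm_real, Real.norm_eq_abs, sq_abs]
    rw [Real.sq_sqrt hγ, Real.sq_sqrt (by linarith)]
    linarith
  · exact le_rfl

/-- the change of a row -/
theorem row_diff (a a' : ℝ) {γ : ℝ} (hγ : 0 ≤ γ) {p : P} (hp : p ≠ y) (w : P → ℝ)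
    (hw : ∀ q, 0 ≤ w q) :
    ∑ q, ‖c.K a' (γ / 2) p q - c.K a γ p q‖ ^ 2 * w q ≤
      8 * ‖c.z a' (γ / 2) - c.z a γ‖ ^ 2 * ‖c.rho p‖ ^ 2 * ∑ q, ‖c.vec (γ / 2) q‖ ^ 2 * w q +
        cc (c.K a γ) y p * w y := by
  have h1 : ∀ q, ‖c.K a' (γ / 2) p q - c.K a γ p q‖ ^ 2 ≤
      8 * ‖c.z a' (γ / 2) - c.z a γ‖ ^ 2 * ‖c.rho p‖ ^ 2 * ‖c.vec (γ / 2) q‖ ^ 2 +
        if q = y then cc (c.K a γ) y p else 0 := by
    intro q
    have e : c.K a' (γ / 2) p q - c.K a γ p q =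
        2 * I * (c.z a' (γ / 2) - c.z a γ) * c.rho p * c.vec (γ / 2) q +
          2 * I * c.z a γ * c.rho p * (c.vec (γ / 2) q - c.vec γ q) := by
      unfold Cav.K
      rw [vec_ne c _ hp, vec_ne c _ hp]
      ring
    have h2 : ∀ u v : ℂ, ‖u + v‖ ^ 2 ≤ 2 * ‖u‖ ^ 2 + 2 * ‖v‖ ^ 2 := fun u v => by
      have := pow_le_pow_left₀ (norm_nonneg _) (norm_add_le u v) 2
      have := sq_nonneg (‖u‖ - ‖v‖)
      linarith
    rw [e]
    refine (h2 _ _).trans ?_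
    have h3 : ‖c.vec (γ / 2) q - c.vec γ q‖ ^ 2 ≤ if q = y then γ / 2 else 0 := by
      unfold Cav.vec
      split_ifs
      · rw [← Complex.ofReal_sub, Complex.norm_real, Real.norm_eq_abs, sq_abs]
        have a1 := Real.sq_sqrt hγ
        have a2 := Real.sq_sqrt (by linarith : 0 ≤ γ / 2)
        have a3 : Real.sqrt (γ / 2) ≤ Real.sqrt γ := Real.sqrt_le_sqrt (by linarith)
        have a4 := mul_le_mul_of_nonneg_left a3 (Real.sqrt_nonneg (γ / 2))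
        linarith
      · simp
    rw [cc_ne c a hγ hp]
    simp only [norm_mul, mul_pow, Complex.norm_I, Complex.norm_ofNat]
    have h4 := mul_le_mul_of_nonneg_left h3
      (by positivity : 0 ≤ ‖c.z a γ‖ ^ 2 * ‖c.rho p‖ ^ 2)
    split_ifs at h4 ⊢ <;> linarith
  calc _ ≤ ∑ q, (8 * ‖c.z a' (γ / 2) - c.z a γ‖ ^ 2 * ‖c.rho p‖ ^ 2 *
        (‖c.vec (γ / 2) q‖ ^ 2 * w q) + if q = y then cc (c.K a γ) y p * w y else 0) := by
        refine sum_le_sum fun q _ => ?_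
        have := mul_le_mul_of_nonneg_right (h1 q) (hw q)
        split_ifs at this ⊢ with h
        · subst h; linarith
        · linarith
    _ = _ := by rw [sum_add_distrib, ← mul_sum]; simp

theorem arc_pt {γ : ℝ} (hγ : 0 ≤ γ) (a : ℝ) : c.s.re + c.J γ * ((a - c.s.re) / c.J γ) = a := by
  have := (c.J_pos hγ).ne'
  field_simp
  ring

/-- lower bound on the arc for `d'` in terms of `d` -/
theorem dd_arc {γ : ℝ} (hγ : 0 < γ) {p : P} (hp : p ≠ y) : ∃ u0 : ℂ, ∀ a a',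
    dd (c.K a γ) p * ‖uu ((a' - c.s.re) / c.J (γ / 2)) - u0‖ ^ 2 ≤ 2 * dd (c.K a' (γ / 2)) p := by
  have hγ' : 0 ≤ γ / 2 := by linarith
  obtain ⟨qb, h1, -⟩ := c.aff_Gam hγ' (w := fun _ _ => 1) (fun _ _ => zero_le_one) p
  have e : ∀ K : P → P → ℂ, Gam (fun _ _ => 1) K p = dd K p := fun K => by simp [Gam, dd]
  simp only [e] at h1
  obtain ⟨h2, h3, u0, h4⟩ := h1.le_two fun t => dd_nonneg _ _
  refine ⟨u0, fun a a' => ?_⟩
  have h5 := h4 ((a' - c.s.re) / c.J (γ / 2))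
  rw [arc_pt c hγ'] at h5
  have hδ : 0 < γ - γ / 2 := by linarith
  have h6 : dd (c.K a γ) p ≤ 2 * qb := by
    have h7 := cau_quad c.s_pos hγ' (by linarith : γ / 2 < γ) a (dd (c.K a γ) p) 0
      (-4 * I * c.rho p ^ 2)
    have h8 : ∀ b, dd (c.K a γ) p + (-4 * I * c.rho p ^ 2 * (zz c.s b (γ / 2) - zz c.s a γ)).re +
        0 * ‖zz c.s b (γ / 2) - zz c.s a γ‖ ^ 2 = dd (c.K b (γ / 2)) p := fun b => by
      have := c.dd_sub a b hγ.le hγ' hp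
      unfold Cav.z at this
      linarith
    simp only [h8] at h7
    rw [zero_mul, add_zero] at h7
    rw [← h7]
    have h9 : ∫ b, cau (γ - γ / 2) (b - a) * (2 * qb) = 2 * qb := by
      rw [integral_mul_const, (cau_integral hδ a).2, one_mul]
    rw [← h9]
    refine integral_mono_of_nonneg (Filter.Eventually.of_forall fun b =>
      mul_nonneg (cau_nonneg hδ _) (dd_nonneg _ _)) ((cau_integral hδ a).1.mul_const _)
      (Filter.Eventually.of_forall fun b => mul_le_mul_of_nonneg_left ?_ (cau_nonneg hδ _))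
    have := h3 ((b - c.s.re) / c.J (γ / 2))
    rwa [arc_pt c hγ'] at this
  have := mul_le_mul_of_nonneg_right h6 (sq_nonneg ‖uu ((a' - c.s.re) / c.J (γ / 2)) - u0‖)
  linarith

/-- lower bound on the arc for `n` in terms of the row change -/
theorem nn_arc {γ : ℝ} (hγ : 0 < γ) {w : P → P → ℝ} (hw : ∀ p q, 0 ≤ w p q) {p : P} (hp : p ≠ y) :
    ∃ u0 : ℂ, ∀ a a', 8 * ‖c.z a' (γ / 2) - c.z a γ‖ ^ 2 * ‖c.rho p‖ ^ 2 *
      (∑ q, ‖c.vec (γ / 2) q‖ ^ 2 * w p q) * ‖uu ((a - c.s.re) / c.J γ) - u0‖ ^ 2 ≤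
        72 * Gam w (c.K a γ) p := by
  obtain ⟨qb, h1, h0⟩ := c.aff_Gam hγ.le hw p
  obtain ⟨h2, -, u0, h4⟩ := h1.le_two fun t => Gam_nonneg hw _ _
  refine ⟨u0, fun a a' => ?_⟩
  have h5 := h4 ((a - c.s.re) / c.J γ)
  rw [arc_pt c hγ.le] at h5
  have hJ := c.J_pos hγ.le
  have hs := c.s_pos
  have h6 : ‖c.z a' (γ / 2) - c.z a γ‖ ≤ 3 / c.J γ := by
    have a1 := norm_zz_le' (by linarith : 0 < γ + c.s.im) a
    have a2 := norm_zz_le' (by linarith : 0 < γ / 2 + c.s.im) a'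
    have a3 : 1 / (γ / 2 + c.s.im) ≤ 2 / (γ + c.s.im) := by
      rw [div_le_div_iff₀ (by linarith) (by linarith)]; linarith
    have a4 := norm_sub_le (c.z a' (γ / 2)) (c.z a γ)
    have a5 : 3 / (γ + c.s.im) = 1 / (γ + c.s.im) + 2 / (γ + c.s.im) := by ring
    unfold Cav.z Cav.J at *
    linarith
  have h7 := pow_le_pow_left₀ (norm_nonneg _) h6 2
  have h8 : ∑ q, ‖c.vec (γ / 2) q‖ ^ 2 * w p q ≤ ∑ q, ‖c.vec γ q‖ ^ 2 * w p q :=
    sum_le_sum fun q _ => mul_le_mul_of_nonneg_right (vec_mono c hγ.le q) (hw p q)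
  have h9 : 0 ≤ ∑ q, ‖c.vec (γ / 2) q‖ ^ 2 * w p q :=
    sum_nonneg fun q _ => mul_nonneg (sq_nonneg _) (hw p q)
  rw [vec_ne c γ hp] at h0
  have h10 := mul_le_mul h7 (mul_le_mul_of_nonneg_left h8 (sq_nonneg ‖c.rho p‖))
    (mul_nonneg (sq_nonneg _) h9) (sq_nonneg _)
  have h11 : (3 / c.J γ) ^ 2 * (‖c.rho p‖ ^ 2 * ∑ q, ‖c.vec γ q‖ ^ 2 * w p q) =
      9 * ((‖c.rho p‖ ^ 2 * ∑ q, ‖c.vec γ q‖ ^ 2 * w p q) / c.J γ ^ 2) := by
    field_simp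
    ring
  have h12 : ‖c.z a' (γ / 2) - c.z a γ‖ ^ 2 *
      (‖c.rho p‖ ^ 2 * ∑ q, ‖c.vec (γ / 2) q‖ ^ 2 * w p q) ≤ 9 * qb := by linarith
  have := mul_le_mul_of_nonneg_right h12 (sq_nonneg ‖uu ((a - c.s.re) / c.J γ) - u0‖)
  linarith

end Crest.Agent.N334.G.Bg
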