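import Crest.Agent.N334.G.Defs
import Crest.Agent.N334.AC.Mat

/-!
# Row 334, S0519 GAIN: port algebra
-/

set_option autoImplicit false

open MeasureTheory Finset Complex
open scoped BigOperators ComplexConjugate Matrix

noncomputable section

namespace Crest.Agent.N334.G

variable {P : Type} [Fintype P] [DecidableEq P] {K : P → P → ℂ}

omit [Fintype P] [DecidableEq P] in
theorem cc_nonneg (K : P → P → ℂ) (p q : P) : 0 ≤ cc K p q := sq_nonneg _
omit [DecidableEq P] in
theorem dd_nonneg (K : P → P → ℂ) (p : P) : 0 ≤ dd K p := sum_nonneg fun q _ => cc_nonneg K p q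
omit [DecidableEq P] in
theorem cc_le_dd (K : P → P → ℂ) (p q : P) : cc K p q ≤ dd K p :=
  single_le_sum (fun r _ => cc_nonneg K p r) (mem_univ q)
omit [DecidableEq P] in
theorem dd_le_nu (K : P → P → ℂ) (p : P) : dd K p ≤ nu K p := by
  have := cc_le_dd K p p
  unfold nu; linarith
omit [DecidableEq P] in
theorem nu_le (K : P → P → ℂ) (p : P) : nu K p ≤ 2 * dd K p := by
  have := cc_nonneg K p p
  unfold nu; linarith
omit [DecidableEq P] in
theorem Gam_nonneg {w : P → P → ℝ} (hw : ∀ p q, 0 ≤ w p q) (K : P → P → ℂ) (p : P) :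
    0 ≤ Gam w K p := sum_nonneg fun q _ => mul_nonneg (cc_nonneg K p q) (hw p q)
omit [DecidableEq P] in
theorem En_nonneg {w : P → P → ℝ} (hw : ∀ p q, 0 ≤ w p q) (K : P → P → ℂ) : 0 ≤ En w K :=
  sum_nonneg fun p _ => Gam_nonneg hw K p
omit [DecidableEq P] in
theorem Gn_nonneg {ι : Type} [Fintype ι] (Φ : ι → P → ℝ) (K : P → P → ℂ) (p : P) :
    0 ≤ Gn Φ K p :=
  div_nonneg (sum_nonneg fun _ _ => sq_nonneg _) ((dd_nonneg K p).trans (dd_le_nu K p))
omit [DecidableEq P] in
/-- Cauchy-Schwarz `m² ≤ d Γ` and `d ≤ ν` -/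
theorem Gn_le_Gam {ι : Type} [Fintype ι] (Φ : ι → P → ℝ) (K : P → P → ℂ) (p : P) :
    Gn Φ K p ≤ Gam (wt Φ) K p := by
  have hw : ∀ p q, 0 ≤ wt Φ p q := fun p q => sum_nonneg fun _ _ => sq_nonneg _
  refine div_le_of_le_mul₀ ((dd_nonneg K p).trans (dd_le_nu K p)) (Gam_nonneg hw K p) ?_
  refine le_trans ?_ (mul_le_mul_of_nonneg_left (dd_le_nu K p) (Gam_nonneg hw K p))
  simp only [Gam, wt, mul_sum]
  rw [sum_comm, sum_mul]
  refine sum_le_sum fun j _ => ?_
  exact sum_sq_le_sum_mul_sum_of_sq_le_mul _ (fun q _ => mul_nonneg (cc_nonneg K p q) (sq_nonneg _))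
    (fun q _ => cc_nonneg K p q) fun q _ => le_of_eq (by ring)

namespace IsPort
omit [DecidableEq P] in
theorem cc_symm (hK : IsPort K) (p q : P) : cc K p q = cc K q p := by
  rw [cc, cc, hK.symm]
omit [DecidableEq P] in
theorem dd_eq (hK : IsPort K) (p : P) : dd K p = -2 * (K p p).re := by
  have := congrArg Complex.re (hK.unit p p)
  simp only [Complex.conj_mul', ← Complex.ofReal_pow, ← Complex.ofReal_sum, Complex.ofReal_re,
    Complex.neg_re, Complex.add_re, Complex.conj_re] at this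
  simp only [dd, cc, hK.symm p]
  linarith
omit [DecidableEq P] in
theorem dd_le (hK : IsPort K) (p : P) : dd K p ≤ 4 := by
  have h1 := hK.dd_eq p
  have h2 : ‖K p p‖ ^ 2 ≤ dd K p := cc_le_dd K p p
  have h3 := (abs_le.1 (Complex.abs_re_le_norm (K p p))).1
  nlinarith [norm_nonneg (K p p)]
omit [DecidableEq P] in
theorem norm_le (hK : IsPort K) (p q : P) : ‖K p q‖ ≤ 2 :=
  (pow_le_pow_iff_left₀ (norm_nonneg _) zero_le_two two_ne_zero).1
    ((cc_le_dd K p q).trans ((hK.dd_le p).trans_eq (by norm_num)))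
theorem S_symm (hK : IsPort K) (p q : P) : Sm K p q = Sm K q p := by
  simp only [Sm, hK.symm p q, eq_comm]
theorem S_unit (hK : IsPort K) (p q : P) :
    ∑ r, conj (Sm K r p) * Sm K r q = if p = q then 1 else 0 := by
  simp only [Sm, map_add, add_mul, mul_add, sum_add_distrib, hK.unit, apply_ite conj, map_one,
    map_zero, ite_mul, mul_ite, one_mul, zero_mul, mul_one, mul_zero, sum_ite_eq', mem_univ, if_true,
    hK.symm q p]
  simp only [eq_comm (a := q)]
  ring
theorem S_unit' (hK : IsPort K) (p q : P) :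
    ∑ r, Sm K p r * conj (Sm K q r) = if p = q then 1 else 0 := by
  simp only [hK.S_symm p, hK.S_symm q, mul_comm (Sm K _ p), hK.S_unit, eq_comm]
theorem S_gram (hK : IsPort K) : (Matrix.of (Sm K))ᴴ * Matrix.of (Sm K) = 1 := by
  ext p q
  rw [Matrix.mul_apply, Matrix.one_apply, ← hK.S_unit]
  rfl
theorem S_iso (hK : IsPort K) (x : P → ℂ) :
    ∑ p, ‖∑ q, Sm K p q * x q‖ ^ 2 = ∑ q, ‖x q‖ ^ 2 := by
  have := AC.gram_form (Matrix.of (Sm K)) x x
  rw [hK.S_gram, Matrix.one_mulVec, AC.dot_self, AC.dot_self] at this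
  exact (Complex.ofReal_injective this).symm
theorem K_op (hK : IsPort K) (x : P → ℂ) :
    ∑ p, ‖∑ q, K p q * x q‖ ^ 2 ≤ 4 * ∑ q, ‖x q‖ ^ 2 := by
  have h := AC.nsq_add_le (fun p => ∑ q, Sm K p q * x q) (-x)
  have e : (fun p => ∑ q, Sm K p q * x q) + -x = fun p => ∑ q, K p q * x q := by
    funext p
    simp [Sm, add_mul, sum_add_distrib]
  rw [e, AC.nsq_neg] at h
  have h2 : AC.nsq (fun p => ∑ q, Sm K p q * x q) = AC.nsq x := hK.S_iso x
  rw [h2] at h
  exact h.trans_eq (by unfold AC.nsq; ring)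
theorem T_herm (hK : IsPort K) (f : P → ℝ) (p q : P) : Tm f K p q = conj (Tm f K q p) := by
  simp only [Tm, map_sub, map_sum, map_mul, Complex.conj_conj, Complex.conj_ofReal]
  congr 1
  · exact sum_congr rfl fun r _ => by ring
  · by_cases h : p = q
    · subst h; simp
    · simp [h, Ne.symm h]
theorem T_diag (hK : IsPort K) (f : P → ℝ) (p : P) : Tm f K p p = (mv f K p : ℂ) := by
  have h := hK.S_unit p p
  rw [if_pos rfl] at h
  rw [Tm, if_pos rfl, ← one_mul (f p : ℂ), ← h, sum_mul, ← sum_sub_distrib, mv, Complex.ofReal_sum]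
  refine sum_congr rfl fun r _ => ?_
  by_cases e : r = p
  · subst e; simp [mul_right_comm]
  · rw [Sm, if_neg e, zero_add, cc, hK.symm p r]
    push_cast
    rw [← Complex.conj_mul']
    ring
/-- adding a constant to `f` does not change `T` -/
theorem T_shift (hK : IsPort K) (f : P → ℝ) (t : ℝ) (p q : P) :
    Tm (fun r => f r - t) K p q = Tm f K p q := by
  have h : ∑ r, conj (Sm K r p) * (t : ℂ) * Sm K r q = t * if p = q then 1 else 0 := by
    rw [← hK.S_unit, mul_sum]
    exact sum_congr rfl fun r _ => by ring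
  simp only [Tm, Complex.ofReal_sub, mul_sub, sub_mul, sum_sub_distrib, h]
  split_ifs <;> ring
/-- `[f, S] = S T` -/
theorem comm_eq (hK : IsPort K) (f : P → ℝ) (p q : P) :
    ((f p - f q : ℝ) : ℂ) * K p q = ∑ r, Sm K p r * Tm f K r q := by
  have h : ∑ r, Sm K p r * ∑ s, conj (Sm K s r) * (f s : ℂ) * Sm K s q = f p * Sm K p q := by
    simp only [mul_sum]
    rw [sum_comm]
    have : ∀ s, ∑ r, Sm K p r * (conj (Sm K s r) * (f s : ℂ) * Sm K s q)
        = (if p = s then 1 else 0) * (f s * Sm K s q) := fun s => by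
      rw [← hK.S_unit', sum_mul]
      exact sum_congr rfl fun r _ => by ring
    simp [this]
  simp only [Tm, mul_sub, sum_sub_distrib, h, mul_ite, mul_zero, sum_ite_eq', mem_univ, if_true]
  by_cases e : p = q
  · subst e; simp [mul_comm]
  · simp only [Sm, if_neg e, zero_add]
    push_cast
    ring
theorem T_col (hK : IsPort K) (f : P → ℝ) (q : P) :
    ∑ p, ‖Tm f K p q‖ ^ 2 = ∑ p, cc K q p * (f q - f p) ^ 2 := by
  rw [← hK.S_iso fun r => Tm f K r q]
  refine sum_congr rfl fun p _ => ?_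
  rw [← hK.comm_eq, norm_mul, mul_pow, Complex.norm_real, Real.norm_eq_abs, sq_abs, cc, hK.symm q p]
  ring
end IsPort

end Crest.Agent.N334.G
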