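import Crest.Agent.N334.G.Basic
import Crest.Agent.N334.G.Arc

/-!
# Row 334, S0519 GAIN: cavity formulas
-/

set_option autoImplicit false

open MeasureTheory Finset Complex
open scoped BigOperators ComplexConjugate

noncomputable section

namespace Crest.Agent.N334.G

theorem ArcAux.aff_sum {ι : Type} (s : Finset ι) {q : ι → ℝ → ℝ} {qb : ι → ℝ}
    (h : ∀ i ∈ s, IsAff (q i) (qb i)) : IsAff (fun t => ∑ i ∈ s, q i t) (∑ i ∈ s, qb i) := by
  classical
  induction s using Finset.induction_on with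
  | empty => simpa using IsAff.const 0
  | insert i s hi ih =>
    simp only [sum_insert hi]
    exact (h i (mem_insert_self _ _)).add (ih fun j hj => h j (mem_insert_of_mem hj))

namespace Cav
variable {P : Type} [Fintype P] [DecidableEq P] {y : P} (c : Cav y)

theorem xvec_y (γ : ℝ) : c.vec γ y = (Real.sqrt γ : ℂ) := if_pos rfl
theorem xvec_ne (γ : ℝ) {p : P} (hp : p ≠ y) : c.vec γ p = c.rho p := if_neg hp
theorem xnorm_vec_y {γ : ℝ} (hγ : 0 ≤ γ) : ‖c.vec γ y‖ ^ 2 = γ := by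
  rw [xvec_y, Complex.norm_real, Real.norm_eq_abs, sq_abs, Real.sq_sqrt hγ]
theorem xnormSq_vec {γ : ℝ} (hγ : 0 ≤ γ) (p : P) :
    ‖c.vec γ p‖ ^ 2 = (if p = y then γ else 0) + ‖c.rho p‖ ^ 2 := by
  split_ifs with h
  · rw [h, c.xnorm_vec_y hγ, c.rho_y]; simp
  · rw [c.xvec_ne γ h, zero_add]
omit [DecidableEq P] in
theorem xK0_y (p : P) : c.K0 y p = 0 := by rw [c.port0.symm, c.K0_y]
theorem xfix_vec (γ : ℝ) (p : P) :
    ∑ q, c.K0 p q * conj (c.vec γ q) = c.vec γ p - conj (c.vec γ p) := by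
  have h : ∑ q, c.K0 p q * conj (c.vec γ q) = ∑ q, c.K0 p q * conj (c.rho q) :=
    sum_congr rfl fun q _ => by
      by_cases h : q = y
      · rw [h, c.K0_y, zero_mul, zero_mul]
      · rw [c.xvec_ne γ h]
  rw [h, c.fix]
  by_cases h : p = y
  · rw [h, c.rho_y, xvec_y]; simp
  · rw [c.xvec_ne γ h]

theorem J_pos {γ : ℝ} (hγ : 0 ≤ γ) : 0 < c.J γ := add_pos_of_nonneg_of_pos hγ c.s_pos
theorem sum_vec {γ : ℝ} (hγ : 0 ≤ γ) : ∑ p, ‖c.vec γ p‖ ^ 2 = c.J γ := by
  simp only [c.xnormSq_vec hγ, sum_add_distrib, sum_ite_eq', mem_univ, if_true, J, c.im_s]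
theorem port (a : ℝ) {γ : ℝ} (hγ : 0 ≤ γ) : IsPort (c.K a γ) := by
  refine ⟨fun p q => by unfold K; rw [c.port0.symm]; ring, fun p q => ?_⟩
  have h1 := c.port0.unit p q
  have h2 := c.xfix_vec γ q
  have h3 := congrArg conj (c.xfix_vec γ p)
  simp only [map_sum, map_mul, map_sub, Complex.conj_conj] at h3
  have h4 : ∑ r, conj (c.vec γ r) * c.vec γ r = (c.J γ : ℂ) := by
    rw [← c.sum_vec hγ]; push_cast
    exact sum_congr rfl fun r _ => by rw [Complex.conj_mul']
  have h5 : c.z a γ - conj (c.z a γ) = 2 * I * c.J γ * (conj (c.z a γ) * c.z a γ) := by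
    rw [Complex.sub_conj, Complex.conj_mul', z, im_zz, J]; push_cast; ring
  have h6 : ∀ r, conj (c.K a γ r p) * c.K a γ r q = conj (c.K0 r p) * c.K0 r q +
      2 * I * c.z a γ * c.vec γ q * (conj (c.K0 p r) * c.vec γ r) -
      2 * I * conj (c.z a γ) * conj (c.vec γ p) * (c.K0 q r * conj (c.vec γ r)) -
      (2 * I) ^ 2 * conj (c.z a γ) * c.z a γ * conj (c.vec γ p) * c.vec γ q *
        (conj (c.vec γ r) * c.vec γ r) := fun r => by
    simp only [K, map_add, map_mul, Complex.conj_I, map_ofNat]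
    rw [c.port0.symm p r, c.port0.symm q r]; ring
  simp only [h6, sum_add_distrib, sum_sub_distrib, ← mul_sum]
  rw [h1, h2, h3, h4]
  simp only [K, map_add, map_mul, Complex.conj_I, map_ofNat]
  linear_combination 2 * I * conj (c.vec γ p) * c.vec γ q * h5
theorem measurable_K (γ : ℝ) : Measurable fun a => c.K a γ := by
  refine measurable_pi_lambda _ fun p => measurable_pi_lambda _ fun q => ?_
  exact measurable_const.add
    ((((measurable_zz c.s γ).const_mul _).mul_const _).mul_const _)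
theorem cc_y (a γ : ℝ) (hγ : 0 ≤ γ) (p : P) :
    cc (c.K a γ) y p = 4 * γ * ‖c.z a γ‖ ^ 2 * ‖c.vec γ p‖ ^ 2 := by
  unfold cc K
  rw [c.xK0_y, zero_add]
  simp only [norm_mul, mul_pow, c.xnorm_vec_y hγ, norm_I, Complex.norm_ofNat]
  ring
theorem dd_y (a γ : ℝ) (hγ : 0 ≤ γ) : dd (c.K a γ) y = 4 * γ * ‖c.z a γ‖ ^ 2 * c.J γ := by
  simp only [dd, c.cc_y a γ hγ, ← mul_sum, c.sum_vec hγ]
theorem nu_y (a γ : ℝ) (hγ : 0 ≤ γ) :
    nu (c.K a γ) y = 4 * γ * ‖c.z a γ‖ ^ 2 * (2 * c.J γ - γ) := by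
  rw [nu, c.dd_y a γ hγ, c.cc_y a γ hγ, c.xnorm_vec_y hγ]; ring
theorem Gam_y (a γ : ℝ) (hγ : 0 ≤ γ) {w : P → P → ℝ} (hw : w y y = 0) :
    Gam w (c.K a γ) y = 4 * γ * ‖c.z a γ‖ ^ 2 * c.V w := by
  simp only [Gam, V, c.cc_y a γ hγ, mul_sum]
  refine sum_congr rfl fun p _ => ?_
  by_cases h : p = y
  · rw [h, hw]; simp
  · rw [c.xvec_ne γ h]; ring
theorem Bq_eq {a0 b γ : ℝ} (hb : 0 < b) {w : P → P → ℝ} (hw : w y y = 0) :
    γ / b * Gam w (c.K a0 b) y = c.Bq a0 b γ w := by
  rw [c.Gam_y a0 b hb.le hw, Bq]; field_simp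
/-- `d_p` is linear in `z` -/
theorem dd_sub (a a' : ℝ) {γ γ' : ℝ} (hγ : 0 ≤ γ) (hγ' : 0 ≤ γ') {p : P} (hp : p ≠ y) :
    dd (c.K a' γ') p - dd (c.K a γ) p =
      (-4 * I * c.rho p ^ 2 * (c.z a' γ' - c.z a γ)).re := by
  rw [(c.port a hγ).dd_eq, (c.port a' hγ').dd_eq]
  have h : -4 * I * c.rho p ^ 2 * (c.z a' γ' - c.z a γ) =
      ((-2 : ℝ) : ℂ) * (c.K a' γ' p p - c.K a γ p p) := by
    simp only [K, c.xvec_ne _ hp]; push_cast; ring
  rw [h, Complex.re_ofReal_mul, Complex.sub_re]; ring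
theorem K_arc {γ : ℝ} (hγ : 0 ≤ γ) (t : ℝ) (p q : P) :
    c.K (c.s.re + c.J γ * t) γ p q =
      c.K0 p q + uu t * (2 * I * c.vec γ p * c.vec γ q / c.J γ) := by
  have h := zz_eq_uu (c.J_pos hγ) t
  have hJ : ((c.J γ : ℝ) : ℂ) ≠ 0 := by exact_mod_cast (c.J_pos hγ).ne'
  rw [← h]
  change c.K0 p q + 2 * I * c.z _ γ * _ * _ = c.K0 p q + (c.J γ : ℂ) * c.z (c.s.re + c.J γ * t) γ * _
  field_simp
/-- every weighted row sum is affine on the arc -/
theorem aff_Gam {γ : ℝ} (hγ : 0 ≤ γ) {w : P → P → ℝ} (hw : ∀ p q, 0 ≤ w p q) (p : P) :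
    ∃ qb, IsAff (fun t => Gam w (c.K (c.s.re + c.J γ * t) γ) p) qb ∧
      ‖c.vec γ p‖ ^ 2 * (∑ q, ‖c.vec γ q‖ ^ 2 * w p q) / c.J γ ^ 2 ≤ qb := by
  have h := ArcAux.aff_sum univ fun q _ =>
    (isAff_normSq (c.K0 p q) (2 * I * c.vec γ p * c.vec γ q / c.J γ)).smul (w p q)
  refine ⟨_, by simpa only [Gam, cc, c.K_arc hγ, mul_comm (w p _)] using h, ?_⟩
  rw [mul_sum, sum_div]
  refine sum_le_sum fun q _ => ?_
  have hJ := c.J_pos hγ
  have e : ‖2 * I * c.vec γ p * c.vec γ q / c.J γ‖ ^ 2 / 4 =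
      ‖c.vec γ p‖ ^ 2 * ‖c.vec γ q‖ ^ 2 / c.J γ ^ 2 := by
    simp only [norm_div, norm_mul, norm_I, Complex.norm_ofNat, Complex.norm_real,
      Real.norm_of_nonneg hJ.le]
    ring
  rw [e, add_mul]
  have := mul_nonneg
    (sq_nonneg ‖c.K0 p q + I / 2 * (2 * I * c.vec γ p * c.vec γ q / c.J γ)‖) (hw p q)
  refine le_trans (le_of_eq (by ring)) (le_add_of_nonneg_left this)
theorem aff_T {γ : ℝ} (hγ : 0 ≤ γ) (f : P → ℝ) (p q : P) : ∃ f0 f1 f2 : ℂ, ∀ t,
    Tm f (c.K (c.s.re + c.J γ * t) γ) p q = f0 + f1 * (uu t).re + f2 * (uu t).im := by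
  set W : P → P → ℂ := fun p q => 2 * I * c.vec γ p * c.vec γ q / c.J γ with hW
  refine ⟨Tm f c.K0 p q,
    ∑ r, (conj (Sm c.K0 r p) * f r * W r q + conj (W r p) * f r * Sm c.K0 r q),
    ∑ r, (I * (conj (Sm c.K0 r p) * f r * W r q) - I * (conj (W r p) * f r * Sm c.K0 r q) +
      conj (W r p) * f r * W r q), fun t => ?_⟩
  have hS : ∀ r q, Sm (c.K (c.s.re + c.J γ * t) γ) r q = Sm c.K0 r q + uu t * W r q :=
    fun r q => by rw [Sm, Sm, c.K_arc hγ, add_assoc]
  have h1 : conj (uu t) * uu t = (uu t).im := by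
    rw [Complex.conj_mul', (uu_normSq t).2.1, ← (uu_normSq t).1]; push_cast; rfl
  have h2 : uu t = (uu t).re + (uu t).im * I := (Complex.re_add_im _).symm
  have h3 : conj (uu t) = (uu t).re - (uu t).im * I := by
    apply Complex.ext <;> simp
  unfold Tm
  simp only [hS, sum_mul]
  rw [sub_add_eq_add_sub, sub_add_eq_add_sub, ← sum_add_distrib, ← sum_add_distrib]
  congr 1
  refine sum_congr rfl fun r _ => ?_
  rw [map_add, map_mul]
  linear_combination conj (W r p) * f r * W r q * h1 + conj (Sm c.K0 r p) * f r * W r q * h2 +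
    conj (W r p) * f r * Sm c.K0 r q * h3
/-- `d_p + β_p` is comparable to a cavity constant -/
theorem dd_cmp {γ : ℝ} (hγ : 0 ≤ γ) (a a' : ℝ) {p : P} (hp : p ≠ y) :
    dd (c.K a γ) p ≤ 2 * dd (c.K a' γ) p + 32 * (‖c.rho p‖ ^ 2 / c.J γ) := by
  have hJ := c.J_pos hγ
  have h1 := c.dd_sub a' a hγ hγ hp
  have h2 := Complex.re_le_norm (-4 * I * c.rho p ^ 2 * (c.z a γ - c.z a' γ))
  have h3 : ∀ x, ‖c.z x γ‖ ≤ 1 / c.J γ := fun x => by
    rw [le_div_iff₀' hJ]; exact norm_zz_le hJ x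
  have h4 := (norm_sub_le (c.z a γ) (c.z a' γ)).trans (add_le_add (h3 a) (h3 a'))
  simp only [norm_mul, norm_neg, norm_I, Complex.norm_ofNat, norm_pow] at h2
  have h5 := mul_le_mul_of_nonneg_left h4 (show 0 ≤ 4 * 1 * ‖c.rho p‖ ^ 2 by positivity)
  have h6 := dd_nonneg (c.K a' γ) p
  have h7 : 0 ≤ ‖c.rho p‖ ^ 2 / c.J γ := by positivity
  have e : 4 * 1 * ‖c.rho p‖ ^ 2 * (1 / c.J γ + 1 / c.J γ) = 8 * (‖c.rho p‖ ^ 2 / c.J γ) := by ring
  linarith
end Cav

namespace CavAux
variable {X : Type} [Fintype X] [DecidableEq X]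

theorem green {M : Matrix X X ℂ} {Γ : X → ℝ} (hs : ∀ x y, M x y = M y x)
    (hI : ∀ x y, M x y - conj (M x y) = if x = y then -(2 * I * Γ x) else 0) (u v : X → ℂ) :
    2 * I * ∑ x, (Γ x : ℂ) * (conj (u x) * v x) =
      ∑ x, conj (∑ y, M x y * u y) * v x - ∑ x, conj (u x) * ∑ y, M x y * v y := by
  simp only [map_sum, map_mul, sum_mul, mul_sum]
  rw [sum_comm, ← sum_sub_distrib]
  refine sum_congr rfl fun x _ => ?_
  rw [← sum_sub_distrib]
  have h : ∀ y, conj (M y x) * conj (u x) * v y - conj (u x) * (M x y * v y) =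
      if x = y then 2 * I * (Γ x * (conj (u x) * v x)) else 0 := fun y => by
    have := hI x y
    rw [hs y x]
    split_ifs at this ⊢ with h
    · subst h; linear_combination -(conj (u x) * v x) * this
    · linear_combination -(conj (u x) * v y) * this
  simp only [h, sum_ite_eq, mem_univ, if_true]

omit [DecidableEq X] in
theorem eq_zero {Γ : X → ℝ} (hΓ : ∀ x, 0 < Γ x) {v : X → ℂ}
    (h : 2 * I * ∑ x, (Γ x : ℂ) * (conj (v x) * v x) = 0) : v = 0 := by
  have h1 : ((∑ x, Γ x * ‖v x‖ ^ 2 : ℝ) : ℂ) = 0 := by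
    simp only [Complex.conj_mul'] at h
    push_cast
    simpa using h
  rw [Complex.ofReal_eq_zero, sum_eq_zero_iff_of_nonneg
    fun x _ => mul_nonneg (hΓ x).le (sq_nonneg _)] at h1
  funext x
  simpa [(hΓ x).ne'] using h1 x (mem_univ x)

theorem mul_inv {M : Matrix X X ℂ} {Γ : X → ℝ} (hs : ∀ x y, M x y = M y x)
    (hI : ∀ x y, M x y - conj (M x y) = if x = y then -(2 * I * Γ x) else 0)
    (hΓ : ∀ x, 0 < Γ x) : M * M⁻¹ = 1 := by
  refine Matrix.mul_nonsing_inv _ (isUnit_iff_ne_zero.2 fun h => ?_)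
  obtain ⟨v, hv, h0⟩ := Matrix.exists_mulVec_eq_zero_iff.2 h
  have h1 : ∀ x, ∑ y, M x y * v y = 0 := fun x => congrFun h0 x
  exact hv (eq_zero hΓ (by rw [green hs hI]; simp [h1]))

theorem inv_symm {M : Matrix X X ℂ} (hs : ∀ x y, M x y = M y x) (x y : X) :
    M⁻¹ x y = M⁻¹ y x := by
  have h : M.transpose = M := by ext x y; exact hs y x
  have := congrFun (congrFun (Matrix.transpose_nonsing_inv M) y) x
  rwa [h] at this

theorem ward {M G : Matrix X X ℂ} {Γ : X → ℝ} (hs : ∀ x y, M x y = M y x)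
    (hI : ∀ x y, M x y - conj (M x y) = if x = y then -(2 * I * Γ x) else 0)
    (hG : M * G = 1) (hG' : ∀ x y, G x y = G y x) (u v : X) :
    2 * I * ∑ x, (Γ x : ℂ) * (conj (G x u) * G x v) = G u v - conj (G u v) := by
  have h : ∀ x v, ∑ y, M x y * G y v = if x = v then 1 else 0 := fun x v => by
    rw [← Matrix.mul_apply, hG, Matrix.one_apply]
  rw [green hs hI (fun x => G x u) (fun x => G x v), hG' u v]
  simp [h, hG' u v]

section alg
variable {G : Matrix X X ℂ} {Γ : X → ℝ} {y : X} {k : ℂ}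

omit [DecidableEq X] in
theorem ward0 (hG : ∀ x y, G x y = G y x)
    (W : ∀ u v, 2 * I * ∑ x, (Γ x : ℂ) * (conj (G x u) * G x v) = G u v - conj (G u v))
    (hk : k * G y y = 1) (u v : X) :
    2 * I * ∑ x, (Γ x : ℂ) * (conj (G x u - G x y * G u y * k) * (G x v - G x y * G v y * k)) =
      (G u v - G u y * G v y * k) - conj (G u v - G u y * G v y * k) := by
  have hk' := congrArg conj hk
  have e : ∑ x, (Γ x : ℂ) * (conj (G x u - G x y * G u y * k) * (G x v - G x y * G v y * k)) =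
      ∑ x, (Γ x : ℂ) * (conj (G x u) * G x v) -
      G v y * k * ∑ x, (Γ x : ℂ) * (conj (G x u) * G x y) -
      conj (G u y) * conj k * ∑ x, (Γ x : ℂ) * (conj (G x y) * G x v) +
      conj (G u y) * conj k * (G v y * k) * ∑ x, (Γ x : ℂ) * (conj (G x y) * G x y) := by
    simp only [mul_sum, ← sum_sub_distrib, ← sum_add_distrib, map_sub, map_mul]
    exact sum_congr rfl fun x _ => by ring
  have h3 := W y v
  rw [hG y v] at h3
  rw [e]
  simp only [map_sub, map_mul, map_one] at hk' ⊢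
  linear_combination W u v - G v y * k * W u y - conj (G u y) * conj k * h3 +
    conj (G u y) * conj k * (G v y * k) * W y y + conj (G u y) * G v y * conj k * hk -
    conj (G u y) * G v y * k * hk'

omit [DecidableEq X] in
theorem ward1 (hG : ∀ x y, G x y = G y x)
    (W : ∀ u v, 2 * I * ∑ x, (Γ x : ℂ) * (conj (G x u) * G x v) = G u v - conj (G u v))
    (hk : k * G y y = 1) (u : X) :
    2 * I * ∑ x, (Γ x : ℂ) * ((G u x - G u y * G x y * k) * conj (G x y * k)) =
      G u y * k - conj (G u y * k) := by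
  have hk' := congrArg conj hk
  have e : ∑ x, (Γ x : ℂ) * ((G u x - G u y * G x y * k) * conj (G x y * k)) =
      conj k * ∑ x, (Γ x : ℂ) * (conj (G x y) * G x u) -
      conj k * (G u y * k) * ∑ x, (Γ x : ℂ) * (conj (G x y) * G x y) := by
    simp only [mul_sum, ← sum_sub_distrib, map_mul]
    exact sum_congr rfl fun x _ => by rw [hG u x]; ring
  have h3 := W y u
  rw [hG y u] at h3
  rw [e]
  simp only [map_mul, map_one] at hk' ⊢
  linear_combination conj k * h3 - conj k * (G u y * k) * W y y - G u y * conj k * hk +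
    G u y * k * hk'

omit [DecidableEq X] in
theorem ward2
    (W : ∀ u v, 2 * I * ∑ x, (Γ x : ℂ) * (conj (G x u) * G x v) = G u v - conj (G u v))
    (hk : k * G y y = 1) : (-k).im = ∑ x, Γ x * ‖G x y * k‖ ^ 2 := by
  have hk' := congrArg conj hk
  have e : ((∑ x, Γ x * ‖G x y * k‖ ^ 2 : ℝ) : ℂ) =
      conj k * k * ∑ x, (Γ x : ℂ) * (conj (G x y) * G x y) := by
    push_cast
    simp only [mul_sum, ← Complex.conj_mul', map_mul]
    exact sum_congr rfl fun x _ => by ring
  have h := Complex.sub_conj (-k)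
  simp only [map_mul, map_one, map_neg] at hk' h
  push_cast at h
  have h2 : (2 * I : ℂ) ≠ 0 := by simp
  rw [← Complex.ofReal_inj, e]
  apply mul_left_cancel₀ h2
  linear_combination -h - conj k * k * W y y - conj k * hk + k * hk'

theorem inv_upd {M M' : Matrix X X ℂ} {τ z : ℂ} (hMG : M * G = 1) (hG : ∀ x y, G x y = G y x)
    (hk : k * G y y = 1) (hz : z * (τ + k) = 1)
    (hM : ∀ u x, M' u x = M u x + if x = y then (if u = y then τ else 0) else 0) (u v : X) :
    M'⁻¹ u v = (G u v - G u y * G v y * k) + z * (G u y * k) * (G v y * k) := by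
  have h : ∀ x v, ∑ y, M x y * G y v = if x = v then 1 else 0 := fun x v => by
    rw [← Matrix.mul_apply, hMG, Matrix.one_apply]
  have key : M' * Matrix.of (fun u v => (G u v - G u y * G v y * k) +
      z * (G u y * k) * (G v y * k)) = 1 := by
    ext u v
    have e : ∀ x, M' u x * ((G x v - G x y * G v y * k) + z * (G x y * k) * (G v y * k)) =
        M u x * G x v + (z * k - 1) * (G v y * k) * (M u x * G x y) +
        if x = y then (if u = y then τ else 0) * (z * (G v y * k)) else 0 := fun x => by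
      rw [hM]
      by_cases hx : x = y
      · subst hx
        simp only [if_true]
        rw [hG x v]
        linear_combination (if u = x then τ else 0) * G v x * (z * k - 1) * hk
      · simp only [hx, if_false]; ring
    simp only [Matrix.mul_apply, Matrix.of_apply, e, sum_add_distrib, ← mul_sum, h,
      sum_ite_eq', mem_univ, if_true, Matrix.one_apply]
    split_ifs
    · linear_combination G v y * k * hz
    · ring
    · linear_combination G v y * k * hz
    · ring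
  rw [Matrix.inv_eq_right_inv key, Matrix.of_apply]

end alg
end CavAux

/-- existence of the cavity in the model -/
theorem exists_cav (L : Lat) (E : ℝ) {η : ℝ} (hη : 0 < η) {γ : L.X → ℝ} (hγ : ∀ x, 0 ≤ γ x)
    (a : L.X → ℝ) (y : L.X) : ∃ c : Cav ((y, true) : L.P),
      (∀ t g, 0 ≤ g → L.Km E η (Function.update γ y g) (Function.update a y t) = c.K t g) ∧
      (∀ t g, 0 ≤ g → L.sE E η (Function.update γ y g) (Function.update a y t) y = c.s) ∧
      η ≤ c.s.im ∧ ‖c.rho (y, false)‖ ^ 2 = η := by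
  set γ1 := Function.update γ y 0 with hγ1
  set a1 := Function.update a y 0 with ha1
  set M : Matrix L.X L.X ℂ := L.A.map Complex.ofReal + Matrix.diagonal (L.wv E η γ1 a1) with hM
  have hγ1' : ∀ x, 0 ≤ γ1 x := fun x => by
    rw [hγ1, Function.update_apply]; split_ifs
    exacts [le_rfl, hγ x]
  have hΓ : ∀ x, 0 < η + γ1 x := fun x => add_pos_of_pos_of_nonneg hη (hγ1' x)
  have hMe : ∀ (w : L.X → ℂ) u x, (L.A.map Complex.ofReal + Matrix.diagonal w) u x =
      L.A u x + if u = x then w u else 0 := fun w u x => by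
    rw [Matrix.add_apply, Matrix.map_apply, Matrix.diagonal_apply]
  have hs : ∀ u x, M u x = M x u := fun u x => by
    rw [hM, hMe, hMe, L.A_symm u x]
    by_cases h : u = x
    · rw [h]
    · rw [if_neg h, if_neg (Ne.symm h)]
  have hI : ∀ u x, M u x - conj (M u x) =
      if u = x then -(2 * I * ((fun x => η + γ1 x) u : ℝ)) else 0 := fun u x => by
    rw [hM, hMe]
    split_ifs
    · simp only [Lat.wv, map_add, map_sub, map_mul, Complex.conj_ofReal, Complex.conj_I]
      push_cast; ring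
    · simp
  have hMG := CavAux.mul_inv hs hI hΓ
  have hG := CavAux.inv_symm hs
  have W := CavAux.ward hs hI hMG hG
  set G := M⁻¹ with hGd
  have hg : G y y ≠ 0 := fun h => by
    have h0 : (fun x => G x y) = 0 := CavAux.eq_zero hΓ (by rw [W y y, h]; simp)
    have h1 := congrFun (congrFun hMG y) y
    simp [Matrix.mul_apply, congrFun h0] at h1
  set k := (G y y)⁻¹ with hkd
  have hk : k * G y y = 1 := inv_mul_cancel₀ hg
  have hk1 : G y y * k = 1 := by rw [mul_comm, hk]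
  have hstr : ∀ p, 0 ≤ L.str η γ1 p := fun p => by
    unfold Lat.str; split_ifs
    exacts [hγ1' _, hη.le]
  set σ : L.P → ℂ := fun p => (Real.sqrt (L.str η γ1 p) : ℂ) with hσ
  have hσc : ∀ p, conj (σ p) = σ p := fun p => Complex.conj_ofReal _
  have hσ2 : ∀ p, σ p * σ p = L.str η γ1 p := fun p => by
    rw [hσ]; dsimp only; rw [← Complex.ofReal_mul, Real.mul_self_sqrt (hstr p)]
  have hσy : σ (y, true) = 0 := by simp [hσ, Lat.str, hγ1]
  have hsum : ∀ F : L.X → ℂ, ∑ r : L.P, (L.str η γ1 r : ℂ) * F r.1 =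
      ∑ x, ((η + γ1 x : ℝ) : ℂ) * F x := fun F => by
    rw [Fintype.sum_prod_type]
    refine sum_congr rfl fun x _ => ?_
    simp [Lat.str]; ring
  have hn : ∀ p, ‖σ p‖ ^ 2 = L.str η γ1 p := fun p => by
    rw [hσ]; dsimp only
    rw [Complex.norm_real, Real.norm_eq_abs, sq_abs, Real.sq_sqrt (hstr p)]
  have him := CavAux.ward2 W hk
  have hη' : η ≤ (-k).im := by
    rw [him]
    refine le_trans ?_ (single_le_sum (f := fun x => (η + γ1 x) * ‖G x y * k‖ ^ 2)
      (fun x _ => mul_nonneg (hΓ x).le (sq_nonneg _)) (mem_univ y))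
    simp [hk1, hγ1' y]
  have hz : ∀ t g : ℝ, 0 ≤ g → zz (-k) t g * (((t : ℂ) - I * g) + k) = 1 := fun t g hg => by
    have := Law.w_ne (s := -k) (γ := g) (by linarith) t
    rw [sub_neg_eq_add] at this
    rw [zz, sub_neg_eq_add, one_div, inv_mul_cancel₀ this]
  have hGr : ∀ t g : ℝ, 0 ≤ g → ∀ u v,
      L.Gr (L.wv E η (Function.update γ y g) (Function.update a y t)) u v =
        (G u v - G u y * G v y * k) + zz (-k) t g * (G u y * k) * (G v y * k) := by
    intro t g hg u v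
    refine CavAux.inv_upd hMG hG hk (hz t g hg) (fun u x => ?_) u v
    rw [hM, hMe, hMe]
    by_cases h1 : u = x
    · subst h1
      by_cases h2 : u = y
      · subst h2; simp [Lat.wv, hγ1, ha1]; ring
      · simp [Lat.wv, hγ1, ha1, h2]
    · by_cases h2 : x = y
      · subst h2; simp [h1]
      · simp [h1, h2]
  refine ⟨⟨fun p q => 2 * I * σ p * σ q * (G p.1 q.1 - G p.1 y * G q.1 y * k),
    fun p => σ p * (G p.1 y * k), -k, ⟨fun p q => by rw [hG p.1 q.1]; ring, fun p q => ?_⟩,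
    fun p => by rw [hσy]; ring, by rw [hσy]; ring, ?_, by linarith, fun p => ?_⟩,
    fun t g hg => ?_, fun t g hg => ?_, hη', ?_⟩
  · have h0 := CavAux.ward0 hG W hk p.1 q.1
    rw [← hsum fun x => conj (G x p.1 - G x y * G p.1 y * k) * (G x q.1 - G x y * G q.1 y * k)]
      at h0
    have e : ∀ r : L.P, conj (2 * I * σ r * σ p * (G r.1 p.1 - G r.1 y * G p.1 y * k)) *
        (2 * I * σ r * σ q * (G r.1 q.1 - G r.1 y * G q.1 y * k)) =
        -((2 * I) ^ 2 * σ p * σ q) * ((L.str η γ1 r : ℂ) *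
          (conj (G r.1 p.1 - G r.1 y * G p.1 y * k) * (G r.1 q.1 - G r.1 y * G q.1 y * k))) :=
      fun r => by
        rw [← hσ2]
        simp only [map_mul, hσc, Complex.conj_I, map_ofNat]; ring
    simp only [e, ← mul_sum]
    simp only [map_mul _ (2 * I * σ p * σ q), map_mul _ (2 * I * σ p), map_mul _ (2 * I),
      map_mul _ 2 I, hσc, Complex.conj_I, map_ofNat]
    linear_combination -(2 * I * σ p * σ q) * h0
  · rw [him, Fintype.sum_prod_type]
    refine sum_congr rfl fun x _ => ?_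
    simp only [norm_mul (σ _), mul_pow, hn, Fintype.sum_bool, Lat.str]
    simp; ring
  · have h0 := CavAux.ward1 hG W hk p.1
    rw [← hsum fun x => (G p.1 x - G p.1 y * G x y * k) * conj (G x y * k)] at h0
    have e : ∀ q : L.P, 2 * I * σ p * σ q * (G p.1 q.1 - G p.1 y * G q.1 y * k) *
        conj (σ q * (G q.1 y * k)) = 2 * I * σ p * ((L.str η γ1 q : ℂ) *
          ((G p.1 q.1 - G p.1 y * G q.1 y * k) * conj (G q.1 y * k))) := fun q => by
      rw [← hσ2, map_mul _ (σ q), hσc]; ring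
    simp only [e, ← mul_sum]
    rw [map_mul _ (σ p), hσc]
    linear_combination σ p * h0
  · funext p q
    have hτ : ∀ p : L.P, p ≠ (y, true) →
        (Real.sqrt (L.str η (Function.update γ y g) p) : ℂ) = σ p := by
      rintro ⟨x, b⟩ h
      cases b
      · simp [hσ, Lat.str]
      · have : x ≠ y := fun h' => h (by rw [h'])
        simp [hσ, Lat.str, hγ1, this]
    have hτy : (Real.sqrt (L.str η (Function.update γ y g) (y, true)) : ℂ) = Real.sqrt g := by
      simp [Lat.str]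
    simp only [Lat.Km, Cav.K, Cav.z, Cav.vec, hGr t g hg]
    by_cases hp : p = (y, true) <;> by_cases hq : q = (y, true)
    · subst hp hq
      simp only [if_true, hτy, hσy, hk1]
      linear_combination -(2 * I * (Real.sqrt g : ℂ) ^ 2 * G y y) * hk
    · subst hp
      simp only [if_true, hq, if_false, hτy, hτ q hq, hσy, hk1, hG y q.1]
      linear_combination -(2 * I * (Real.sqrt g : ℂ) * σ q * G q.1 y) * hk
    · subst hq
      simp only [if_true, hp, if_false, hτy, hτ p hp, hσy, hk1]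
      linear_combination -(2 * I * (Real.sqrt g : ℂ) * σ p * G p.1 y) * hk
    · simp only [hp, hq, if_false, hτ p hp, hτ q hq]
      ring
  · have h1 := hz t g hg
    have h2 : L.Gr (L.wv E η (Function.update γ y g) (Function.update a y t)) y y =
        zz (-k) t g := by
      rw [hGr t g hg, hk1]; linear_combination -G y y * hk
    simp only [Lat.sE, h2, Function.update_self]
    rw [one_div, ← eq_inv_of_mul_eq_one_right h1]; ring
  · simp only [norm_mul (σ _), mul_pow, hn, hk1, Lat.str]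
    simp

end Crest.Agent.N334.G
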