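import Crest.Agent.N334.G.Defs

/-!
# Row 334, S0519 GAIN: the smooth law, Cauchy averages, the quadratic step lemma
-/

set_option autoImplicit false

open MeasureTheory Finset Complex
open scoped BigOperators ComplexConjugate

noncomputable section

namespace Crest.Agent.N334.G

theorem lawD_nonneg (a0 : ℝ) {b : ℝ} (hb : 0 < b) (a : ℝ) : 0 ≤ lawD a0 b a := by
  unfold lawD; positivity
theorem lawD_le (a0 : ℝ) {b : ℝ} (hb : 0 < b) (a : ℝ) : lawD a0 b a ≤ 1 / b := by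
  unfold lawD
  have h0 : 0 ≤ max (1 - ((a - a0) / b) ^ 2) 0 := le_max_right _ _
  have h1 : max (1 - ((a - a0) / b) ^ 2) 0 ≤ 1 :=
    max_le (by nlinarith [sq_nonneg ((a - a0) / b)]) zero_le_one
  have h2 : (max (1 - ((a - a0) / b) ^ 2) 0) ^ 2 ≤ 1 := by nlinarith
  calc 15 / (16 * b) * (max (1 - ((a - a0) / b) ^ 2) 0) ^ 2 ≤ 15 / (16 * b) * 1 := by gcongr
    _ ≤ 1 / b := by
      rw [mul_one, div_le_div_iff₀ (by positivity) hb]; nlinarith
theorem continuous_lawD (a0 b : ℝ) : Continuous (lawD a0 b) := by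
  unfold lawD; fun_prop
theorem lawD_zero {a0 b a : ℝ} (hb : 0 < b) (h : b ≤ |a - a0|) : lawD a0 b a = 0 := by
  unfold lawD
  have h1 : 1 ≤ ((a - a0) / b) ^ 2 := by
    rw [div_pow, le_div_iff₀ (by positivity), one_mul, ← sq_abs (a - a0)]
    gcongr
  rw [max_eq_right (by linarith)]; simp
theorem Law.lawD_in {a0 b a : ℝ} (hb : 0 < b) (h : |a - a0| ≤ b) :
    lawD a0 b a = 15 / (16 * b) * (1 - ((a - a0) / b) ^ 2) ^ 2 := by
  unfold lawD
  have h1 : ((a - a0) / b) ^ 2 ≤ 1 := by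
    rw [div_pow, div_le_one (by positivity), ← sq_abs (a - a0)]
    gcongr
  rw [max_eq_left (by linarith)]
theorem lawD_two_sided {a0 b a : ℝ} (hb : 0 < b) (h : |a - a0| ≤ b) :
    (b - |a - a0|) ^ 2 / (2 * b ^ 3) ≤ lawD a0 b a ∧
      lawD a0 b a ≤ 4 * (b - |a - a0|) ^ 2 / b ^ 3 := by
  rw [Law.lawD_in hb h, div_pow, ← sq_abs (a - a0)]
  have ht := abs_nonneg (a - a0)
  generalize |a - a0| = t at *
  have e : 15 / (16 * b) * (1 - t ^ 2 / b ^ 2) ^ 2 =
      (b - t) ^ 2 / b ^ 3 * (15 / 16 * ((b + t) / b) ^ 2) := by field_simp; ring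
  have h1 : 1 ≤ (b + t) / b := by rw [le_div_iff₀ hb]; linarith
  have h2 : (b + t) / b ≤ 2 := by rw [div_le_iff₀ hb]; linarith
  have h3 : 0 ≤ (b - t) ^ 2 / b ^ 3 := by positivity
  rw [e]
  constructor
  · have : (b - t) ^ 2 / (2 * b ^ 3) = (b - t) ^ 2 / b ^ 3 * (1 / 2) := by field_simp
    rw [this]; gcongr; nlinarith
  · have : 4 * (b - t) ^ 2 / b ^ 3 = (b - t) ^ 2 / b ^ 3 * 4 := by ring
    rw [this]; gcongr; nlinarith

namespace Law

theorem lawD_supp (a0 : ℝ) {b : ℝ} (hb : 0 < b) : HasCompactSupport (lawD a0 b) := by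
  refine HasCompactSupport.intro (K := Set.Icc (a0 - b) (a0 + b)) isCompact_Icc fun x hx => ?_
  apply lawD_zero hb
  by_contra h
  push Not at h
  exact hx ⟨by linarith [(abs_lt.1 h).1], by linarith [(abs_lt.1 h).2]⟩

theorem integrable_lawD (a0 : ℝ) {b : ℝ} (hb : 0 < b) : Integrable (lawD a0 b) :=
  (continuous_lawD a0 b).integrable_of_hasCompactSupport (lawD_supp a0 hb)

theorem integral_lawD (a0 : ℝ) {b : ℝ} (hb : 0 < b) : ∫ a, lawD a0 b a = 1 := by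
  have h1 : ∫ a, lawD a0 b a = ∫ a in (a0 - b)..(a0 + b), lawD a0 b a := by
    symm
    apply intervalIntegral.integral_eq_integral_of_support_subset
    intro x hx
    by_contra h
    apply hx
    apply lawD_zero hb
    by_contra h'
    push Not at h'
    exact h ⟨by linarith [(abs_lt.1 h').1], by linarith [(abs_lt.1 h').2]⟩
  rw [h1]
  have h2 : ∫ a in (a0 - b)..(a0 + b), lawD a0 b a =
      ∫ a in (a0 - b)..(a0 + b), 15 / (16 * b) * (1 - ((a - a0) / b) ^ 2) ^ 2 := by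
    apply intervalIntegral.integral_congr
    intro x hx
    rw [Set.uIcc_of_le (by linarith)] at hx
    exact lawD_in hb (abs_le.2 ⟨by linarith [hx.1], by linarith [hx.2]⟩)
  rw [h2]
  have h3 : ∀ x, HasDerivAt (fun a : ℝ => 15 / 16 * ((a - a0) / b - 2 / 3 * ((a - a0) / b) ^ 3 +
      1 / 5 * ((a - a0) / b) ^ 5)) (15 / (16 * b) * (1 - ((x - a0) / b) ^ 2) ^ 2) x := by
    intro x
    have hu : HasDerivAt (fun a : ℝ => (a - a0) / b) (1 / b) x :=
      ((hasDerivAt_id x).sub_const a0).div_const b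
    have := ((hu.sub ((hu.pow 3).const_mul (2 / 3))).add
      ((hu.pow 5).const_mul (1 / 5))).const_mul (15 / 16)
    refine this.congr_deriv ?_
    simp only [Nat.cast_ofNat]
    generalize (x - a0) / b = u
    field_simp
    ring
  rw [intervalIntegral.integral_eq_sub_of_hasDerivAt (fun x _ => h3 x)
    (Continuous.intervalIntegrable (by fun_prop) _ _)]
  have e1 : (a0 + b - a0) / b = 1 := by field_simp; ring
  have e2 : (a0 - b - a0) / b = -1 := by field_simp; ring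
  rw [e1, e2]; norm_num

theorem meas_D (a0 b : ℝ) : Measurable fun a => ENNReal.ofReal (lawD a0 b a) :=
  (continuous_lawD a0 b).measurable.ennreal_ofReal

theorem integral_law' {E : Type} [NormedAddCommGroup E] [NormedSpace ℝ E] (a0 : ℝ) {b : ℝ}
    (hb : 0 < b) (f : ℝ → E) : ∫ a, f a ∂law a0 b = ∫ a, lawD a0 b a • f a := by
  unfold law
  rw [integral_withDensity_eq_integral_toReal_smul (meas_D a0 b) (by simp)]
  simp only [ENNReal.toReal_ofReal (lawD_nonneg a0 hb _)]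

theorem integrable_law_iff {E : Type} [NormedAddCommGroup E] [NormedSpace ℝ E] (a0 : ℝ) {b : ℝ}
    (hb : 0 < b) (f : ℝ → E) :
    Integrable f (law a0 b) ↔ Integrable fun a => lawD a0 b a • f a := by
  unfold law
  rw [integrable_withDensity_iff_integrable_smul' (meas_D a0 b) (by simp)]
  simp only [ENNReal.toReal_ofReal (lawD_nonneg a0 hb _)]

/-- the Poisson kernel -/
theorem pois {J : ℝ} (hJ : 0 < J) (x : ℝ) :
    Integrable (fun a : ℝ => J / ((a - x) ^ 2 + J ^ 2)) ∧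
      ∫ a : ℝ, J / ((a - x) ^ 2 + J ^ 2) = Real.pi := by
  have e : (fun a : ℝ => J / ((a - x) ^ 2 + J ^ 2)) =
      fun a => (fun t : ℝ => J⁻¹ * (1 + (t / J) ^ 2)⁻¹) (a - x) := by
    funext a; field_simp; ring
  rw [e]
  constructor
  · exact ((integrable_inv_one_add_sq.comp_div hJ.ne').const_mul _).comp_sub_right x
  · rw [integral_sub_right_eq_self (fun t : ℝ => J⁻¹ * (1 + (t / J) ^ 2)⁻¹), integral_const_mul,
      Measure.integral_comp_div (fun t : ℝ => (1 + t ^ 2)⁻¹), integral_univ_inv_one_add_sq,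
      abs_of_pos hJ, smul_eq_mul]
    field_simp

theorem normSq_w (s : ℂ) (a γ : ℝ) :
    ‖(a : ℂ) - I * γ - s‖ ^ 2 = (a - s.re) ^ 2 + (γ + s.im) ^ 2 := by
  rw [Complex.sq_norm, Complex.normSq_apply]; simp; ring

theorem norm_zz_sq (s : ℂ) (a γ : ℝ) :
    ‖zz s a γ‖ ^ 2 = 1 / ((a - s.re) ^ 2 + (γ + s.im) ^ 2) := by
  unfold zz
  rw [norm_div, norm_one, div_pow, one_pow, normSq_w]

theorem J_le_w (s : ℂ) (a γ : ℝ) : γ + s.im ≤ ‖(a : ℂ) - I * γ - s‖ := by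
  have := Complex.abs_im_le_norm ((a : ℂ) - I * γ - s)
  have e : ((a : ℂ) - I * γ - s).im = -(γ + s.im) := by simp; ring
  rw [e, abs_neg] at this
  exact (le_abs_self _).trans this

theorem w_ne {s : ℂ} {γ : ℝ} (h : 0 < γ + s.im) (a : ℝ) : (a : ℂ) - I * γ - s ≠ 0 :=
  norm_pos_iff.1 (h.trans_le (J_le_w s a γ))

end Law

theorem law_prob (a0 : ℝ) {b : ℝ} (hb : 0 < b) : IsProbabilityMeasure (law a0 b) := by
  constructor
  unfold law
  rw [withDensity_apply _ MeasurableSet.univ, Measure.restrict_univ,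
    ← ofReal_integral_eq_lintegral_ofReal (Law.integrable_lawD a0 hb)
      (ae_of_all _ (lawD_nonneg a0 hb)), Law.integral_lawD a0 hb]
  simp
theorem integral_law (a0 : ℝ) {b : ℝ} (hb : 0 < b) (f : ℝ → ℝ) :
    ∫ a, f a ∂law a0 b = ∫ a, lawD a0 b a * f a := Law.integral_law' a0 hb f
theorem law_ae (a0 : ℝ) {b : ℝ} (hb : 0 < b) : ∀ᵐ a ∂law a0 b, |a - a0| ≤ b := by
  unfold law
  rw [ae_withDensity_iff (Law.meas_D a0 b)]
  refine ae_of_all _ fun a ha => ?_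
  by_contra h
  push Not at h
  exact ha (by rw [lawD_zero hb h.le]; simp)
theorem im_zz (s : ℂ) (a γ : ℝ) : (zz s a γ).im = (γ + s.im) * ‖zz s a γ‖ ^ 2 := by
  rw [Law.norm_zz_sq, ← Law.normSq_w, Complex.sq_norm]
  unfold zz
  rw [one_div, Complex.inv_im]
  have e : ((a : ℂ) - I * γ - s).im = -(γ + s.im) := by simp; ring
  rw [e]; ring
theorem norm_zz_le {s : ℂ} {γ : ℝ} (h : 0 < γ + s.im) (a : ℝ) :
    (γ + s.im) * ‖zz s a γ‖ ≤ 1 := by
  unfold zz
  have h1 := Law.J_le_w s a γ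
  rw [norm_div, norm_one, mul_one_div, div_le_one (h.trans_le h1)]
  exact h1
theorem zz_eq_uu {s : ℂ} {γ : ℝ} (h : 0 < γ + s.im) (t : ℝ) :
    ((γ + s.im : ℝ) : ℂ) * zz s (s.re + (γ + s.im) * t) γ = uu t := by
  unfold zz uu
  have e : ((s.re + (γ + s.im) * t : ℝ) : ℂ) - I * γ - s = ((γ + s.im : ℝ) : ℂ) * (t - I) := by
    apply Complex.ext <;> simp
    ring
  have h1 : ((γ + s.im : ℝ) : ℂ) ≠ 0 := by exact_mod_cast h.ne'
  rw [e, mul_one_div, div_mul_cancel_left₀ h1, one_div]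
theorem measurable_zz (s : ℂ) (γ : ℝ) : Measurable fun a => zz s a γ := by
  unfold zz; fun_prop
theorem zref_le {s : ℂ} (hs : 0 < s.im) {a0 b a γ : ℝ} (hγ : 0 ≤ γ) (hb : γ ≤ b)
    (ha : |a - a0| ≤ b) : ‖zz s a0 b‖ ≤ 3 * ‖zz s a γ‖ := by
  unfold zz
  have h1 := Law.J_le_w s a γ
  have h2 := Law.J_le_w s a0 b
  have h3 : ‖(a : ℂ) - I * γ - s‖ ≤ 3 * ‖(a0 : ℂ) - I * b - s‖ := by
    have e : (a : ℂ) - I * γ - s =
        ((a0 : ℂ) - I * b - s) + ((a - a0 : ℝ) : ℂ) + I * ((b - γ : ℝ) : ℂ) := by push_cast; ring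
    rw [e]
    refine (norm_add₃_le).trans ?_
    rw [norm_mul, Complex.norm_I, one_mul, Complex.norm_real, Complex.norm_real, Real.norm_eq_abs,
      Real.norm_eq_abs, abs_of_nonneg (by linarith : 0 ≤ b - γ)]
    linarith
  rw [norm_div, norm_div, norm_one, mul_one_div, div_le_div_iff₀ (by linarith) (by linarith)]
  linarith
theorem integral_J_zz {s : ℂ} {γ : ℝ} (h : 0 < γ + s.im) :
    Integrable (fun a => (γ + s.im) * ‖zz s a γ‖ ^ 2) ∧
      ∫ a, (γ + s.im) * ‖zz s a γ‖ ^ 2 = Real.pi := by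
  simp only [Law.norm_zz_sq, mul_one_div]
  exact Law.pois h s.re
theorem law_J_zz {s : ℂ} {γ : ℝ} (h : 0 < γ + s.im) (a0 : ℝ) {b : ℝ} (hb : 0 < b) :
    ∫ a, b * (γ + s.im) * ‖zz s a γ‖ ^ 2 ∂law a0 b ≤ Real.pi := by
  rw [integral_law a0 hb, ← (integral_J_zz h).2]
  refine integral_mono_of_nonneg (ae_of_all _ fun a => ?_) (integral_J_zz h).1
    (ae_of_all _ fun a => ?_)
  · have := lawD_nonneg a0 hb a
    positivity
  · have h1 := lawD_le a0 hb a
    rw [le_div_iff₀ hb] at h1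
    have h2 : 0 ≤ (γ + s.im) * ‖zz s a γ‖ ^ 2 := by positivity
    calc lawD a0 b a * (b * (γ + s.im) * ‖zz s a γ‖ ^ 2) =
        (lawD a0 b a * b) * ((γ + s.im) * ‖zz s a γ‖ ^ 2) := by ring
      _ ≤ 1 * ((γ + s.im) * ‖zz s a γ‖ ^ 2) := by gcongr
      _ = _ := one_mul _
theorem Law.cau_eq (δ x : ℝ) : cau δ x = Real.pi⁻¹ * (δ / (x ^ 2 + δ ^ 2)) := by
  unfold cau; rw [mul_comm Real.pi, ← div_div, div_eq_inv_mul]
theorem Law.cau_nonneg {δ : ℝ} (hδ : 0 ≤ δ) (x : ℝ) : 0 ≤ cau δ x := by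
  unfold cau; have := Real.pi_pos; positivity
theorem cau_integral {δ : ℝ} (hδ : 0 < δ) (a : ℝ) :
    Integrable (fun a' => cau δ (a' - a)) ∧ ∫ a', cau δ (a' - a) = 1 := by
  simp only [Law.cau_eq]
  refine ⟨(Law.pois hδ a).1.const_mul _, ?_⟩
  rw [integral_const_mul, (Law.pois hδ a).2, inv_mul_cancel₀ Real.pi_pos.ne']
theorem Law.zz_sub {s : ℂ} {γ γ' : ℝ} (h : 0 < γ + s.im) (h' : 0 < γ' + s.im) (a a' : ℝ) :
    zz s a' γ' - zz s a γ = -(((a' - a : ℝ) : ℂ) + I * ((γ - γ' : ℝ) : ℂ)) *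
      (zz s a γ * zz s a' γ') := by
  unfold zz
  have h1 := Law.w_ne h a
  have h2 := Law.w_ne h' a'
  field_simp
  push_cast; ring
theorem Law.norm_zz_sub_sq {s : ℂ} {γ γ' : ℝ} (h : 0 < γ + s.im) (h' : 0 < γ' + s.im)
    (a a' : ℝ) : ‖zz s a' γ' - zz s a γ‖ ^ 2 =
      ((a' - a) ^ 2 + (γ - γ') ^ 2) * (‖zz s a γ‖ ^ 2 * ‖zz s a' γ'‖ ^ 2) := by
  rw [Law.zz_sub h h', norm_mul, norm_neg, mul_pow, norm_mul, mul_pow, Complex.sq_norm (_ + _),
    Complex.normSq_apply]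
  simp; left; ring
theorem cau_mul_sq {s : ℂ} (hs : 0 < s.im) {γ γ' : ℝ} (h0 : 0 ≤ γ') (h : γ' < γ) (a a' : ℝ) :
    cau (γ - γ') (a' - a) * ‖zz s a' γ' - zz s a γ‖ ^ 2 =
      (γ - γ') / Real.pi * ‖zz s a γ‖ ^ 2 * ‖zz s a' γ'‖ ^ 2 := by
  rw [Law.norm_zz_sub_sq (by linarith) (by linarith)]
  unfold cau
  have h1 : 0 < γ - γ' := by linarith
  have h2 : 0 < (a' - a) ^ 2 + (γ - γ') ^ 2 := by positivity
  have := Real.pi_pos
  field_simp

namespace Law
open Filter Topology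

theorem inv_tendsto (p : ℂ) {l : Filter ℝ} (hl : Tendsto (fun x : ℝ => |x|) l atTop) :
    Tendsto (fun x : ℝ => ((x : ℂ) - p)⁻¹) l (𝓝 0) := by
  refine tendsto_inv₀_cobounded.comp ?_
  rw [← tendsto_norm_atTop_iff_cobounded]
  refine tendsto_atTop_mono (fun x => ?_) (tendsto_atTop_add_const_right l (-‖p‖) hl)
  have := norm_sub_norm_le (x : ℂ) p
  rw [Complex.norm_real, Real.norm_eq_abs] at this
  linarith

theorem integrable_sq {p : ℂ} (hp : 0 < p.im) :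
    Integrable fun x : ℝ => ‖((x : ℂ) - p)⁻¹‖ ^ 2 := by
  have h := ((integral_J_zz (s := p) (γ := 0) (by simpa using hp)).1).const_mul p.im⁻¹
  refine h.congr (ae_of_all _ fun x => ?_)
  simp only [zz]
  field_simp
  simp

theorem integrable_two {p q : ℂ} (hp : 0 < p.im) (hq : 0 < q.im) :
    Integrable fun x : ℝ => ((x : ℂ) - q)⁻¹ * ((x : ℂ) - p)⁻¹ := by
  refine ((integrable_sq hp).add (integrable_sq hq)).mono' (Measurable.aestronglyMeasurable
    (by fun_prop)) (ae_of_all _ fun x => ?_)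
  rw [norm_mul]
  simp only [Pi.add_apply]
  nlinarith [sq_nonneg (‖((x : ℂ) - q)⁻¹‖ - ‖((x : ℂ) - p)⁻¹‖), norm_nonneg ((x : ℂ) - q)⁻¹,
    norm_nonneg ((x : ℂ) - p)⁻¹]

theorem sub_ne {p : ℂ} (hp : 0 < p.im) (x : ℝ) : (x : ℂ) - p ≠ 0 := by
  intro h
  have := congrArg Complex.im h
  simp at this
  linarith

/-- two poles in the same half plane -/
theorem integral_two {p q : ℂ} (hp : 0 < p.im) (hq : 0 < q.im) :
    ∫ x : ℝ, ((x : ℂ) - q)⁻¹ * ((x : ℂ) - p)⁻¹ = 0 := by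
  have hd : ∀ (r : ℂ) (x : ℝ), HasDerivAt (fun y : ℝ => (y : ℂ) - r) 1 x := fun r x =>
    (Complex.ofRealCLM.hasDerivAt (x := x)).sub_const r
  by_cases hpq : p = q
  · subst hpq
    have h1 : ∀ x : ℝ, HasDerivAt (fun y : ℝ => -((y : ℂ) - p)⁻¹)
        (((x : ℂ) - p)⁻¹ * ((x : ℂ) - p)⁻¹) x := by
      intro x
      have := ((hd p x).inv (sub_ne hp x)).neg
      refine this.congr_deriv ?_
      field_simp
    have := integral_of_hasDerivAt_of_tendsto h1 (integrable_two hp hp)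
      (inv_tendsto p tendsto_abs_atBot_atTop).neg (inv_tendsto p tendsto_abs_atTop_atTop).neg
    simpa using this
  · have hqp : p - q ≠ 0 := sub_ne_zero.2 hpq
    have hs : ∀ x : ℝ, 1 + (p - q) * ((x : ℂ) - p)⁻¹ ∈ slitPlane := by
      intro x
      by_contra hn
      rw [mem_slitPlane_iff] at hn
      push Not at hn
      set r := 1 + (p - q) * ((x : ℂ) - p)⁻¹ with hr
      have e : r * ((x : ℂ) - p) = (x : ℂ) - q := by
        rw [hr]; field_simp [sub_ne hp x]; ring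
      have := congrArg Complex.im e
      simp [hn.2] at this
      nlinarith [hn.1]
    have h1 : ∀ x : ℝ, HasDerivAt
        (fun y : ℝ => (q - p)⁻¹ * Complex.log (1 + (p - q) * ((y : ℂ) - p)⁻¹))
        (((x : ℂ) - q)⁻¹ * ((x : ℂ) - p)⁻¹) x := by
      intro x
      have := (((((hd p x).inv (sub_ne hp x)).const_mul (p - q)).const_add 1).clog_real
        (hs x)).const_mul (q - p)⁻¹
      refine this.congr_deriv ?_
      have e : 1 + (p - q) * ((x : ℂ) - p)⁻¹ = ((x : ℂ) - q) / ((x : ℂ) - p) := by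
        field_simp [sub_ne hp x]; ring
      have hqp' : q - p ≠ 0 := sub_ne_zero.2 (Ne.symm hpq)
      simp only [Pi.inv_apply]
      rw [e]
      field_simp [sub_ne hp x, sub_ne hq x]
      ring
    have h2 : ∀ {l : Filter ℝ}, Tendsto (fun x : ℝ => |x|) l atTop → Tendsto
        (fun y : ℝ => (q - p)⁻¹ * Complex.log (1 + (p - q) * ((y : ℂ) - p)⁻¹)) l (𝓝 0) := by
      intro l hl
      have h3 := ((inv_tendsto p hl).const_mul (p - q)).const_add 1
      simp only [mul_zero, add_zero] at h3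
      have h4 := (h3.clog (by simp [mem_slitPlane_iff])).const_mul (q - p)⁻¹
      simpa using h4
    have := integral_of_hasDerivAt_of_tendsto h1 (integrable_two hp hq)
      (h2 tendsto_abs_atBot_atTop) (h2 tendsto_abs_atTop_atTop)
    simpa using this

/-- the ideal step is a martingale for `z` -/
theorem cau_lin {s : ℂ} (hs : 0 < s.im) {γ γ' : ℝ} (h0 : 0 ≤ γ') (h : γ' < γ) (a : ℝ) :
    Integrable (fun a' => (cau (γ - γ') (a' - a) : ℂ) * (zz s a' γ' - zz s a γ)) ∧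
      ∫ a', (cau (γ - γ') (a' - a) : ℂ) * (zz s a' γ' - zz s a γ) = 0 := by
  have hp : 0 < (s + I * γ').im := by simp; linarith
  have hq : 0 < ((a : ℂ) + I * ((γ - γ' : ℝ) : ℂ)).im := by simp; linarith
  have e : (fun a' => (cau (γ - γ') (a' - a) : ℂ) * (zz s a' γ' - zz s a γ)) = fun a' : ℝ =>
      (-(((γ - γ') / Real.pi : ℝ) : ℂ) * zz s a γ) *
        (((a' : ℂ) - (a + I * ((γ - γ' : ℝ) : ℂ)))⁻¹ * ((a' : ℂ) - (s + I * γ'))⁻¹) := by
    funext a'
    rw [zz_sub (by linarith) (by linarith)]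
    have e1 : zz s a' γ' = ((a' : ℂ) - (s + I * γ'))⁻¹ := by
      unfold zz; rw [one_div]; congr 1; ring
    have h1 := sub_ne hq a'
    have hδ : 0 < γ - γ' := by linarith
    have e2 : (cau (γ - γ') (a' - a) : ℂ) * (((a' - a : ℝ) : ℂ) + I * ((γ - γ' : ℝ) : ℂ)) =
        (((γ - γ') / Real.pi : ℝ) : ℂ) * ((a' : ℂ) - (a + I * ((γ - γ' : ℝ) : ℂ)))⁻¹ := by
      rw [← div_eq_mul_inv, eq_div_iff h1, mul_assoc]
      have e3 : (((a' - a : ℝ) : ℂ) + I * ((γ - γ' : ℝ) : ℂ)) *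
          ((a' : ℂ) - (a + I * ((γ - γ' : ℝ) : ℂ))) = (((a' - a) ^ 2 + (γ - γ') ^ 2 : ℝ) : ℂ) := by
        push_cast; linear_combination (-(γ - γ' : ℂ) ^ 2) * I_sq
      rw [e3, ← Complex.ofReal_mul]
      congr 1
      unfold cau
      have h2 : 0 < (a' - a) ^ 2 + (γ - γ') ^ 2 := by positivity
      have := Real.pi_pos
      field_simp
    rw [← e1]
    linear_combination (-(zz s a γ * zz s a' γ')) * e2
  rw [e]
  exact ⟨(integrable_two hp hq).const_mul _, by rw [integral_const_mul, integral_two hp hq, mul_zero]⟩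

theorem cau_lin_re {s : ℂ} (hs : 0 < s.im) {γ γ' : ℝ} (h0 : 0 ≤ γ') (h : γ' < γ) (a : ℝ) (c1 : ℂ) :
    Integrable (fun a' => cau (γ - γ') (a' - a) * (c1 * (zz s a' γ' - zz s a γ)).re) ∧
      ∫ a', cau (γ - γ') (a' - a) * (c1 * (zz s a' γ' - zz s a γ)).re = 0 := by
  have e : (fun a' => cau (γ - γ') (a' - a) * (c1 * (zz s a' γ' - zz s a γ)).re) = fun a' =>
      RCLike.re (c1 * ((cau (γ - γ') (a' - a) : ℂ) * (zz s a' γ' - zz s a γ))) := by
    funext a'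
    rw [mul_left_comm, RCLike.re_to_complex, Complex.re_ofReal_mul]
  have h1 := (cau_lin hs h0 h a).1.const_mul c1
  rw [e]
  refine ⟨h1.re, ?_⟩
  rw [integral_re h1, integral_const_mul, (cau_lin hs h0 h a).2]
  simp

theorem cau_sq {s : ℂ} (hs : 0 < s.im) {γ γ' : ℝ} (h0 : 0 ≤ γ') (h : γ' < γ) (a : ℝ) :
    Integrable (fun a' => cau (γ - γ') (a' - a) * ‖zz s a' γ' - zz s a γ‖ ^ 2) ∧
      ∫ a', cau (γ - γ') (a' - a) * ‖zz s a' γ' - zz s a γ‖ ^ 2 =
        (γ - γ') * ‖zz s a γ‖ ^ 2 / (γ' + s.im) := by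
  have hJ : 0 < γ' + s.im := by linarith
  have := Real.pi_pos
  have e : (fun a' => cau (γ - γ') (a' - a) * ‖zz s a' γ' - zz s a γ‖ ^ 2) = fun a' =>
      ((γ - γ') / Real.pi * ‖zz s a γ‖ ^ 2 / (γ' + s.im)) * ((γ' + s.im) * ‖zz s a' γ'‖ ^ 2) := by
    funext a'
    rw [cau_mul_sq hs h0 h]; field_simp
  rw [e]
  refine ⟨(integral_J_zz hJ).1.const_mul _, ?_⟩
  rw [integral_const_mul, (integral_J_zz hJ).2]; field_simp

theorem cau_quad_int {s : ℂ} (hs : 0 < s.im) {γ γ' : ℝ} (h0 : 0 ≤ γ') (h : γ' < γ) (a c0 c2 : ℝ)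
    (c1 : ℂ) : Integrable fun a' => cau (γ - γ') (a' - a) *
        (c0 + (c1 * (zz s a' γ' - zz s a γ)).re + c2 * ‖zz s a' γ' - zz s a γ‖ ^ 2) := by
  refine ((((cau_integral (by linarith : 0 < γ - γ') a).1.const_mul c0).add
    (cau_lin_re hs h0 h a c1).1).add ((cau_sq hs h0 h a).1.const_mul c2)).congr
    (ae_of_all _ fun a' => ?_)
  simp only [Pi.add_apply]; ring

end Law

/-- ideal average of a quadratic form in `z' - z` -/
theorem cau_quad {s : ℂ} (hs : 0 < s.im) {γ γ' : ℝ} (h0 : 0 ≤ γ') (h : γ' < γ) (a c0 c2 : ℝ)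
    (c1 : ℂ) :
    ∫ a', cau (γ - γ') (a' - a) *
        (c0 + (c1 * (zz s a' γ' - zz s a γ)).re + c2 * ‖zz s a' γ' - zz s a γ‖ ^ 2) =
      c0 + c2 * ((γ - γ') * ‖zz s a γ‖ ^ 2 / (γ' + s.im)) := by
  have h1 := cau_integral (by linarith : 0 < γ - γ') a
  have h2 := Law.cau_lin_re hs h0 h a c1
  have h3 := Law.cau_sq hs h0 h a
  have e : (fun a' => cau (γ - γ') (a' - a) *
      (c0 + (c1 * (zz s a' γ' - zz s a γ)).re + c2 * ‖zz s a' γ' - zz s a γ‖ ^ 2)) = fun a' =>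
      (c0 * cau (γ - γ') (a' - a) + cau (γ - γ') (a' - a) * (c1 * (zz s a' γ' - zz s a γ)).re) +
        c2 * (cau (γ - γ') (a' - a) * ‖zz s a' γ' - zz s a γ‖ ^ 2) := by
    funext a'; ring
  have h4 : Integrable fun a' => c0 * cau (γ - γ') (a' - a) +
      cau (γ - γ') (a' - a) * (c1 * (zz s a' γ' - zz s a γ)).re := (h1.1.const_mul c0).add h2.1
  rw [e, integral_add h4 (h3.1.const_mul c2),
    integral_add (h1.1.const_mul c0) h2.1, integral_const_mul, integral_const_mul, h1.2, h2.2, h3.2]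
  ring

end Crest.Agent.N334.G
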