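import Crest.Agent.N334.G.Lift
import Crest.Agent.N334.G.Law
import Crest.Agent.N334.AC.Mat

/-!
# Row 334, S0519 GAIN: deterministic commutator bounds and the mass bound
-/

set_option autoImplicit false

open MeasureTheory Finset Complex
open scoped BigOperators ComplexConjugate

noncomputable section

namespace Crest.Agent.N334.G

namespace Det
open Matrix AC

section
variable {X : Type} [Fintype X] [DecidableEq X]

/-- commutator with a multiplication operator -/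
def ad (φ : X → ℂ) (M : Matrix X X ℂ) : Matrix X X ℂ := of fun x y => (φ x - φ y) * M x y

omit [DecidableEq X] in
theorem ad_mul (φ : X → ℂ) (M N : Matrix X X ℂ) : ad φ (M * N) = ad φ M * N + M * ad φ N := by
  ext x y
  simp only [ad, of_apply, Matrix.add_apply, mul_apply, mul_sum, ← sum_add_distrib]
  exact sum_congr rfl fun z _ => by ring

omit [Fintype X] [DecidableEq X] in
theorem ad_neg (φ : X → ℂ) (M : Matrix X X ℂ) : ad φ (-M) = -ad φ M := by
  ext x y; simp [ad]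

omit [Fintype X] in
theorem ad_add_diag (φ w : X → ℂ) (M : Matrix X X ℂ) : ad φ (M + diagonal w) = ad φ M := by
  ext x y
  by_cases h : x = y
  · simp [ad, h]
  · simp [ad, h]

theorem ad_inv (φ : X → ℂ) {H : Matrix X X ℂ} (h : IsUnit H.det) :
    ad φ H⁻¹ = -(H⁻¹ * ad φ H * H⁻¹) := by
  have h1 := ad_mul φ H H⁻¹
  have h2 : ad φ (1 : Matrix X X ℂ) = 0 := by
    ext x y
    by_cases e : x = y <;> simp [ad, e]
  rw [mul_nonsing_inv _ h, h2] at h1
  rw [Matrix.mul_assoc, eq_neg_of_add_eq_zero_left h1.symm, Matrix.mul_neg, neg_neg,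
    ← Matrix.mul_assoc, nonsing_inv_mul _ h, Matrix.one_mul]

theorem diss {H : Matrix X X ℂ} {e : ℝ} (he : 0 < e)
    (h : ∀ x, e * nsq x ≤ -(star x ⬝ᵥ H *ᵥ x).im) : IsUnit H.det ∧ Bd H⁻¹ e⁻¹ := by
  have key : ∀ x, nsq x ≤ e⁻¹ ^ 2 * nsq (H *ᵥ x) := fun x => by
    have h1 := (h x).trans ((neg_le_abs _).trans (abs_im_le_norm _))
    have h2 := (pow_le_pow_left₀ (mul_nonneg he.le (nsq_nonneg x)) h1 2).trans (cs x (H *ᵥ x))
    rw [inv_pow, ← div_eq_inv_mul, le_div_iff₀ (by positivity)]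
    rcases (nsq_nonneg x).eq_or_lt with h0 | h0
    · rw [← h0, zero_mul]; exact nsq_nonneg _
    · nlinarith
  have hd : IsUnit H.det := isUnit_iff_ne_zero.2 fun h0 => by
    obtain ⟨x, hx, h1⟩ := Matrix.exists_mulVec_eq_zero_iff.2 h0
    have := key x
    rw [h1, nsq_zero, mul_zero] at this
    exact hx (nsq_eq_zero (le_antisymm this (nsq_nonneg x)))
  refine ⟨hd, fun x => ?_⟩
  have := key (H⁻¹ *ᵥ x)
  rwa [mulVec_mulVec x H, mul_nonsing_inv _ hd, one_mulVec] at this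

omit [DecidableEq X] in
theorem hs_left {B : Matrix X X ℂ} {C : ℝ} (h : Bd B C) (M : Matrix X X ℂ) :
    ∑ x, ∑ y, ‖(B * M) x y‖ ^ 2 ≤ C ^ 2 * ∑ x, ∑ y, ‖M x y‖ ^ 2 := by
  rw [sum_comm, sum_comm (f := fun x y => ‖M x y‖ ^ 2), mul_sum]
  exact sum_le_sum fun y _ => h fun z => M z y

omit [DecidableEq X] in
theorem hs_right {B : Matrix X X ℂ} {C : ℝ} (h : Bd B C) (M : Matrix X X ℂ) :
    ∑ x, ∑ y, ‖(M * B) x y‖ ^ 2 ≤ C ^ 2 * ∑ x, ∑ y, ‖M x y‖ ^ 2 := by
  have := hs_left h.transpose Mᵀ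
  rw [← transpose_mul, sum_comm, sum_comm (f := fun x y => ‖Mᵀ x y‖ ^ 2)] at this
  exact this
end

variable (L : Lat)

theorem green (E : ℝ) {η η0 : ℝ} {γ : L.X → ℝ} (a : L.X → ℝ) (h0 : 0 < η0)
    (h : ∀ x, η0 ≤ η + γ x) :
    IsUnit (L.A.map ofReal + diagonal (L.wv E η γ a)).det ∧ Bd (L.Gr (L.wv E η γ a)) η0⁻¹ := by
  refine diss h0 fun x => ?_
  have h1 : (star x ⬝ᵥ L.A.map ofReal *ᵥ x).im = 0 := by
    rw [← conj_eq_iff_im]
    simp only [dotProduct, mulVec, map_apply, mul_sum, map_sum, map_mul, Pi.star_apply, star_def,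
      conj_conj, conj_ofReal]
    rw [sum_comm]
    exact sum_congr rfl fun i _ => sum_congr rfl fun j _ => by rw [L.A_symm j i]; ring
  rw [add_mulVec, dotProduct_add, add_im, h1, zero_add, nsq, mul_sum]
  simp only [dotProduct, mulVec_diagonal, im_sum, ← sum_neg_distrib]
  refine sum_le_sum fun i _ => ?_
  rw [mul_left_comm, Pi.star_apply, star_def, conj_mul', ← ofReal_pow, im_mul_ofReal, ← neg_mul]
  exact mul_le_mul_of_nonneg_right (by simpa [Lat.wv] using h i) (sq_nonneg _)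

theorem schur {M : Matrix L.X L.X ℂ} {δ : ℝ} (h0 : 0 ≤ δ)
    (h : ∀ x y, ‖M x y‖ ≤ δ * |L.A x y|) : Bd M (4 * δ) := by
  have := bd_schur M (R := 4 * δ) (C := 4 * δ) (by positivity) (by positivity)
    (fun x => (sum_le_sum fun y _ => h x y).trans (by
      rw [← mul_sum, mul_comm]; exact mul_le_mul_of_nonneg_right (L.A_row x) h0))
    (fun y => (sum_le_sum fun x _ => h x y).trans (by
      simp only [fun x => L.A_symm x y]
      rw [← mul_sum, mul_comm]; exact mul_le_mul_of_nonneg_right (L.A_row y) h0))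
  rwa [Real.sqrt_mul_self (by positivity)] at this

theorem U_loc {m : ℕ} (hm : m ≤ L.N) (i : Fin 2) {x y : L.X} (h : L.A x y ≠ 0) :
    ‖L.U m i x - L.U m i y‖ ≤ 7 / 2 ^ m := by
  have h1 := (L.rho2_le_r2 hm (x, true) (y, true)).trans (L.A_loc x y h)
  have h2 := single_le_sum (f := fun i => L.del m i x y) (fun i _ => L.del_nonneg m i x y)
    (mem_univ i)
  have h3 : ((2 : ℝ) ^ m) ^ 2 = 4 ^ m := by rw [← pow_mul, mul_comm, pow_mul]; norm_num
  refine (pow_le_pow_iff_left₀ (norm_nonneg _) (by positivity) two_ne_zero).1 ?_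
  rw [div_pow, h3, le_div_iff₀' (by positivity)]
  exact (mul_le_mul_of_nonneg_left h2 (by positivity)).trans (h1.trans (by norm_num))

theorem ad_A {m : ℕ} (hm : m ≤ L.N) (i : Fin 2) :
    Bd (ad (L.U m i) (L.A.map ofReal)) (4 * (7 / 2 ^ m)) ∧
      Bd (ad (L.U m i) (ad (L.U m i) (L.A.map ofReal))) (4 * (7 / 2 ^ m * (7 / 2 ^ m))) := by
  have h1 : ∀ x y, ‖ad (L.U m i) (L.A.map ofReal) x y‖ ≤ 7 / 2 ^ m * |L.A x y| := fun x y => by
    by_cases h : L.A x y = 0
    · simp [ad, h]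
    · rw [ad, of_apply, norm_mul, map_apply, norm_real, Real.norm_eq_abs]
      exact mul_le_mul_of_nonneg_right (U_loc L hm i h) (abs_nonneg _)
  refine ⟨schur L (by positivity) h1, schur L (by positivity) fun x y => ?_⟩
  by_cases h : L.A x y = 0
  · simp [ad, h]
  · rw [ad, of_apply, norm_mul, mul_assoc]
    exact mul_le_mul (U_loc L hm i h) (h1 x y) (norm_nonneg _) (by positivity)

theorem str_nonneg {η : ℝ} (hη : 0 < η) {γ : L.X → ℝ} (h : ∀ x, 0 ≤ γ x) (p : L.P) :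
    0 ≤ L.str η γ p := by
  unfold Lat.str; split_ifs; exacts [h _, hη.le]

theorem sum_str (η : ℝ) (γ : L.X → ℝ) (f : L.X → ℝ) :
    ∑ p : L.P, L.str η γ p * f p.1 = ∑ x, (η + γ x) * f x := by
  simp only [Fintype.sum_prod_type, Fintype.sum_bool, Lat.str, if_true, Bool.false_eq_true,
    if_false]
  exact sum_congr rfl fun x _ => by ring

theorem Gam_le (E : ℝ) {η : ℝ} (hη : 0 < η) (h1 : η ≤ 1) {γ : L.X → ℝ} (a : L.X → ℝ)
    (h : ∀ x, 0 ≤ γ x ∧ γ x ≤ 1) {W : L.X → L.X → ℝ} (hW : ∀ x y, 0 ≤ W x y) (p : L.P) :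
    Gam (fun p q => W p.1 q.1) (L.Km E η γ a) p ≤
      8 * L.str η γ p * ∑ y, W p.1 y * ‖L.Gr (L.wv E η γ a) p.1 y‖ ^ 2 := by
  have hs := str_nonneg L hη fun x => (h x).1
  have : Gam (fun p q => W p.1 q.1) (L.Km E η γ a) p = ∑ q : L.P, L.str η γ q *
      (4 * L.str η γ p * (W p.1 q.1 * ‖L.Gr (L.wv E η γ a) p.1 q.1‖ ^ 2)) :=
    sum_congr rfl fun q _ => by
      simp only [cc, Lat.Km, norm_mul, mul_pow, norm_real, Real.norm_eq_abs, sq_abs, norm_I,
        Real.sq_sqrt (hs _), Complex.norm_ofNat]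
      ring
  rw [this, sum_str L η γ fun y => 4 * L.str η γ p * (W p.1 y * ‖L.Gr (L.wv E η γ a) p.1 y‖ ^ 2),
    mul_sum]
  refine sum_le_sum fun y _ => ?_
  have := mul_nonneg (hs p) (mul_nonneg (hW p.1 y) (sq_nonneg ‖L.Gr (L.wv E η γ a) p.1 y‖))
  nlinarith [(h y).2]

theorem shell (c : L.X) {R2 : ℝ} (hR : 1 ≤ R2) :
    ∑ x, (R2 * (1 + L.rx x c / R2) ^ 2)⁻¹ ≤ 8 := by
  have h0 : ∀ x, 0 ≤ L.rx x c / R2 := fun x => div_nonneg (L.rx_nonneg x c) (by positivity)
  choose k hk hk' using fun x => exists_nat_pow_near (x := 1 + L.rx x c / R2) (y := 2)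
    (by linarith [h0 x]) one_lt_two
  calc _ ≤ ∑ x, ∑ j ∈ image k univ,
        (if L.rx c x ≤ 2 ^ (j + 1) * R2 then (R2 * (2 ^ j) ^ 2)⁻¹ else 0 : ℝ) := by
        refine sum_le_sum fun x _ => le_trans ?_ (single_le_sum (fun j _ => by positivity)
          (mem_image_of_mem k (mem_univ x)))
        rw [if_pos (by rw [L.rx_symm, ← div_le_iff₀ (by positivity)]; linarith [hk' x])]
        gcongr
        exact hk x
    _ ≤ ∑ j ∈ image k univ, 4 * (1 / 2 : ℝ) ^ j := by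
        rw [sum_comm]
        refine sum_le_sum fun j _ => ?_
        rw [← sum_filter, sum_const, nsmul_eq_mul, ← div_eq_mul_inv, div_le_iff₀ (by positivity)]
        refine (L.ball_le c _ (by positivity)).trans ?_
        have : (1 : ℝ) ≤ 2 ^ j * R2 := one_le_mul_of_one_le_of_one_le (one_le_pow₀ one_le_two) hR
        rw [one_div, inv_pow, pow_succ]
        field_simp
        linarith
    _ ≤ 8 := by
        have := Geo0.geo_inj (r := 1 / 2) (by norm_num) (by norm_num) (image k univ)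
          (Set.injOn_id _)
        rw [← mul_sum]
        norm_num at this ⊢
        linarith
end Det
open Det AC

theorem det_r2 : ∃ C : ℝ, 0 < C ∧ ∀ (L : Lat) (E η η0 : ℝ) (γ a : L.X → ℝ), 0 < η → η ≤ 1 →
    0 < η0 → η0 ≤ 1 → (∀ x, 0 ≤ γ x ∧ γ x ≤ 1 ∧ η0 ≤ η + γ x) → ∀ p,
    Gam L.r2 (L.Km E η γ a) p ≤ C * L.str η γ p / η0 ^ 4 := by
  refine ⟨8 * 1568, by norm_num, fun L E η η0 γ a hη h1 h0 _ h p => ?_⟩
  obtain ⟨hd, hG⟩ := green L E a h0 fun x => (h x).2.2
  have key : ∀ i, ∑ y, L.del L.N i p.1 y * ‖L.Gr (L.wv E η γ a) p.1 y‖ ^ 2 ≤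
      (η0⁻¹ * (4 * (7 / 2 ^ L.N)) * η0⁻¹) ^ 2 := fun i => by
    have := ((hG.mul (ad_A L le_rfl i).1).mul hG).neg.row p.1
    rw [← ad_add_diag _ (L.wv E η γ a), Lat.Gr, ← ad_inv _ hd] at this
    simpa only [ad, Matrix.of_apply, norm_mul, mul_pow, Lat.del, Lat.Gr] using this
  refine (Gam_le L E hη h1 a (fun x => ⟨(h x).1, (h x).2.1⟩) L.rx_nonneg p).trans ?_
  have h3 : ((2 : ℝ) ^ L.N) ^ 2 = 4 ^ L.N := by rw [← pow_mul, mul_comm, pow_mul]; norm_num
  have : ∑ y, L.rx p.1 y * ‖L.Gr (L.wv E η γ a) p.1 y‖ ^ 2 ≤ 1568 / η0 ^ 4 := by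
    simp only [Lat.rx, mul_assoc, ← mul_sum, sum_mul]
    rw [sum_comm, Fin.sum_univ_two, ← h3]
    refine (mul_le_mul_of_nonneg_left (add_le_add (key 0) (key 1)) (by positivity)).trans_eq ?_
    field_simp
    norm_num
  have hs := str_nonneg L hη (fun x => (h x).1) p
  exact (mul_le_mul_of_nonneg_left this (by positivity)).trans_eq (by ring)
theorem det_s4 : ∃ C : ℝ, 0 < C ∧ ∀ (L : Lat) (E η η0 : ℝ) (γ a : L.X → ℝ), 0 < η → η ≤ 1 →
    0 < η0 → η0 ≤ 1 → (∀ x, 0 ≤ γ x ∧ γ x ≤ 1 ∧ η0 ≤ η + γ x) → ∀ m, m < L.N → ∀ p,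
    Gam (L.s4 m) (L.Km E η γ a) p ≤ C * L.str η γ p / (16 ^ m * η0 ^ 6) := by
  refine ⟨8 * (2 * 441 ^ 2), by norm_num, fun L E η η0 γ a hη h1 h0 h2 h m hm p => ?_⟩
  obtain ⟨hd, hG⟩ := green L E a h0 fun x => (h x).2.2
  have key : ∀ i, ∑ y, L.del (m + 1) i p.1 y ^ 2 * ‖L.Gr (L.wv E η γ a) p.1 y‖ ^ 2 ≤
      (441 / ((2 ^ m) ^ 2 * η0 ^ 3)) ^ 2 := fun i => by
    obtain ⟨a1, a2⟩ := ad_A L (show m + 1 ≤ L.N from hm) i
    have e : ad (L.U (m + 1) i) (L.Gr (L.wv E η γ a)) = _ := ad_inv _ hd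
    rw [ad_add_diag] at e
    have b1 := ((hG.mul a1).mul hG).neg
    rw [Lat.Gr, ← e] at b1
    have b2 := (((((b1.mul a1).add (hG.mul a2) (by positivity) (by positivity)).mul hG).add
      ((hG.mul a1).mul b1) (by positivity) (by positivity)).neg.mono (by positivity)
      (C' := 441 / ((2 ^ m) ^ 2 * η0 ^ 3)) (by
        rw [pow_succ (2 : ℝ) m]
        field_simp
        nlinarith)).row p.1
    rw [← ad_mul, ← ad_mul, ← ad_neg, Lat.Gr, ← e] at b2
    refine le_of_eq_of_le (sum_congr rfl fun y _ => ?_) b2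
    simp only [ad, Matrix.of_apply, norm_mul, Lat.del]
    ring
  refine (Gam_le L E hη h1 a (fun x => ⟨(h x).1, (h x).2.1⟩)
    (W := fun x y => ∑ i, L.del (m + 1) i x y ^ 2) (fun _ _ => by positivity) p).trans ?_
  have h3 : ((2 : ℝ) ^ m) ^ 4 = 16 ^ m := by rw [← pow_mul, mul_comm, pow_mul]; norm_num
  have hs := str_nonneg L hη (fun x => (h x).1) p
  simp only [sum_mul]
  rw [sum_comm, Fin.sum_univ_two, ← h3]
  exact (mul_le_mul_of_nonneg_left (add_le_add (key 0) (key 1)) (by positivity)).trans_eq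
    (by ring)
theorem det_wF : ∃ C : ℝ, 0 < C ∧ ∀ (L : Lat) (E η η0 : ℝ) (γ a : L.X → ℝ), 0 < η → η ≤ 1 →
    0 < η0 → η0 ≤ 1 → (∀ x, 0 ≤ γ x ∧ γ x ≤ 1 ∧ η0 ≤ η + γ x) → ∀ (c : L.X) (R2 : ℝ), 1 ≤ R2 →
    En (L.wF c R2) (L.Km E η γ a) ≤ C / η0 ^ 4 := by
  refine ⟨16 * (16 * 12960 * 8), by norm_num, fun L E η η0 γ a hη h1 h0 _ h c R2 hR => ?_⟩
  obtain ⟨hd, hG⟩ := green L E a h0 fun x => (h x).2.2
  obtain ⟨F, -, hF⟩ := exists_stereo L c (R2 := R2) (by positivity)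
  set W : L.X → L.X → ℝ := fun x y => L.wF c R2 (x, true) (y, true) with hW
  have hW0 : ∀ x y, 0 ≤ W x y := fun x y => wF_nonneg L c (by positivity) _ _
  have e : ∀ M : Matrix L.X L.X ℂ, ∑ x, ∑ y, W x y * ‖M x y‖ ^ 2 =
      ∑ j, ∑ x, ∑ y, ‖ad (fun x => (F j (x, true) : ℂ)) M x y‖ ^ 2 := fun M => by
    simp only [hW, ← hF, wt, sum_mul, ad, Matrix.of_apply, norm_mul, mul_pow, ← ofReal_sub,
      norm_real, Real.norm_eq_abs, sq_abs]
    exact (sum_congr rfl fun x _ => sum_comm).trans sum_comm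
  have hA : ∑ x, ∑ y, W x y * ‖L.A.map ofReal x y‖ ^ 2 ≤ 16 * 12960 * 8 := by
    refine le_trans (sum_le_sum fun x _ => ?_) ((mul_sum _ _ _).symm.trans_le
      (mul_le_mul_of_nonneg_left (shell L c hR) (by norm_num)))
    have r0 := div_nonneg (L.rx_nonneg x c) (zero_le_one.trans hR)
    calc _ ≤ ∑ y, 12960 * (R2 * (1 + L.rx x c / R2) ^ 2)⁻¹ * |L.A x y| ^ 2 := by
          refine sum_le_sum fun y _ => ?_
          rw [Matrix.map_apply, norm_real, Real.norm_eq_abs]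
          by_cases hy : L.A x y = 0
          · simp [hy]
          refine mul_le_mul_of_nonneg_right ?_ (sq_nonneg _)
          have r1 : L.rx x y ≤ 40 := L.A_loc x y hy
          have r2 := div_nonneg (L.rx_nonneg y c) (zero_le_one.trans hR)
          have r3 : L.rx x c / R2 ≤ 80 + 2 * (L.rx y c / R2) := by
            rw [div_le_iff₀ (by positivity), add_mul, mul_assoc, div_mul_cancel₀ _ (by positivity)]
            linarith [L.rx_le_two x y c]
          calc W x y ≤ 4 * (40 / R2) / ((1 + L.rx x c / R2) * ((1 + L.rx x c / R2) / 81)) := by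
                simp only [hW, Lat.wF, L.rx_eq]
                gcongr
                linarith
            _ = _ := by field_simp; norm_num
      _ ≤ 12960 * (R2 * (1 + L.rx x c / R2) ^ 2)⁻¹ * 4 ^ 2 := by
          rw [← mul_sum]
          exact mul_le_mul_of_nonneg_left ((sum_sq_le_sq_sum_of_nonneg fun _ _ => abs_nonneg _).trans
            (pow_le_pow_left₀ (sum_nonneg fun _ _ => abs_nonneg _) (L.A_row x) 2)) (by positivity)
      _ = _ := by ring
  have hS : ∑ x, ∑ y, W x y * ‖L.Gr (L.wv E η γ a) x y‖ ^ 2 ≤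
      η0⁻¹ ^ 2 * (η0⁻¹ ^ 2 * (16 * 12960 * 8)) := by
    rw [e] at hA ⊢
    refine le_trans ?_ (mul_le_mul_of_nonneg_left (mul_le_mul_of_nonneg_left hA (sq_nonneg _))
      (sq_nonneg _))
    rw [mul_sum, mul_sum]
    refine sum_le_sum fun j _ => ?_
    simp only [Lat.Gr, ad_inv _ hd, ad_add_diag, Matrix.neg_apply, norm_neg]
    exact (hs_right hG _).trans (mul_le_mul_of_nonneg_left (hs_left hG _) (sq_nonneg _))
  calc _ ≤ ∑ p : L.P, L.str η γ p *
        (8 * ∑ y, W p.1 y * ‖L.Gr (L.wv E η γ a) p.1 y‖ ^ 2) := sum_le_sum fun p _ =>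
        (Gam_le L E hη h1 a (fun x => ⟨(h x).1, (h x).2.1⟩) hW0 p).trans_eq (by ring)
    _ ≤ 16 * ∑ x, ∑ y, W x y * ‖L.Gr (L.wv E η γ a) x y‖ ^ 2 := by
        rw [sum_str L η γ fun x => 8 * ∑ y, W x y * ‖L.Gr (L.wv E η γ a) x y‖ ^ 2, mul_sum]
        refine sum_le_sum fun x _ => ?_
        have : 0 ≤ ∑ y, W x y * ‖L.Gr (L.wv E η γ a) x y‖ ^ 2 :=
          sum_nonneg fun y _ => mul_nonneg (hW0 x y) (sq_nonneg _)
        nlinarith [(h x).2.1]
    _ ≤ _ := (mul_le_mul_of_nonneg_left hS (by norm_num)).trans_eq (by ring)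
/-- energy at the top scales -/
theorem det_tail : ∃ C : ℝ, 0 < C ∧ ∀ (L : Lat) (E η : ℝ) (γ a : L.X → ℝ), 0 < η → η ≤ 1 →
    (∀ x, 0 ≤ γ x ∧ γ x ≤ 1) → ∀ M : ℕ,
    ∑ p, ∑ m ∈ Ico M L.N, 4 ^ m * L.nn (L.Km E η γ a) p m ≤
      C * (M + 1) / (4 ^ M * η ^ 6) * Fintype.card L.X := by
  obtain ⟨C, hC, H⟩ := det_s4
  refine ⟨C * (4 / 3) * 2, by positivity, fun L E η γ a hη h1 h M => ?_⟩
  have geo : ∀ s : Finset ℕ, ∑ k ∈ s, (if M ≤ k then ((4 : ℝ) ^ k)⁻¹ else 0) ≤
      4 / 3 * (4 ^ M)⁻¹ := fun s => by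
    refine le_trans (le_of_eq ?_) (mul_le_mul_of_nonneg_right
      ((Geo0.geo_up (r := 1 / 4) (by norm_num) (by norm_num) s M).trans_eq (by norm_num))
      (by positivity))
    rw [sum_mul]
    refine sum_congr rfl fun k _ => ?_
    split_ifs with hk
    · rw [one_div, ← inv_pow, ← inv_pow, ← pow_add, Nat.sub_add_cancel hk]
    · rw [zero_mul]
  have e16 : ∀ k, (16 : ℝ) ^ k = 4 ^ k * 4 ^ k := fun k => by rw [← mul_pow]; norm_num
  have hb : ∀ k ∈ range L.N, (∑ m ∈ Ico M L.N, 4 ^ m * L.al m k) / 16 ^ k ≤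
      (if k < M then 4 / 3 * ((4 : ℝ) ^ M)⁻¹ else 0) + if M ≤ k then (4 ^ k)⁻¹ else 0 := by
    intro k hk
    rcases lt_or_ge k M with hM | hM
    · rw [if_pos hM, if_neg hM.not_ge, add_zero, sum_div]
      refine le_trans (sum_le_sum fun m hm => ?_) (geo (Ico M L.N))
      have hm' := (mem_Ico.1 hm).1
      obtain ⟨j, rfl⟩ := Nat.exists_eq_add_of_le (hM.le.trans hm')
      rw [if_pos hm']
      refine (div_le_div_of_nonneg_right (mul_le_mul_of_nonneg_left
        (L.al_le (mem_range.1 hk) _).2 (by positivity)) (by positivity)).trans_eq ?_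
      rw [Lat.al0, if_pos (by omega), Nat.add_sub_cancel_left, one_div, inv_pow, e16, e16, pow_add]
      field_simp
    · rw [if_neg hM.not_gt, if_pos hM, zero_add]
      refine (div_le_div_of_nonneg_right ((sum_le_sum_of_subset_of_nonneg
        (fun m hm => mem_range.2 (mem_Ico.1 hm).2) fun m _ _ =>
          mul_nonneg (by positivity) (L.al_nonneg m k)).trans_eq (L.sum_al (mem_range.1 hk)))
        (by positivity)).trans_eq ?_
      rw [e16]
      field_simp
  have hs : ∑ k ∈ range L.N, (∑ m ∈ Ico M L.N, 4 ^ m * L.al m k) / 16 ^ k ≤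
      4 / 3 * ((4 : ℝ) ^ M)⁻¹ * (M + 1) := by
    refine (sum_le_sum hb).trans ?_
    rw [sum_add_distrib, ← sum_filter, sum_const, nsmul_eq_mul, mul_add, mul_one, mul_comm _ (M : ℝ)]
    refine add_le_add (mul_le_mul_of_nonneg_right (Nat.cast_le.2 ?_) (by positivity)) (geo _)
    exact (card_le_card fun k hk => mem_range.2 (mem_filter.1 hk).2).trans_eq (card_range M)
  calc _ ≤ ∑ p : L.P, L.str η γ p * (C / η ^ 6 * (4 / 3 * ((4 : ℝ) ^ M)⁻¹ * (M + 1))) := by
        refine sum_le_sum fun p _ => ?_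
        have hp := str_nonneg L hη (fun x => (h x).1) p
        calc _ = ∑ k ∈ range L.N, (∑ m ∈ Ico M L.N, 4 ^ m * L.al m k) *
              Gam (L.s4 k) (L.Km E η γ a) p := by
              simp only [Lat.nn, Gam, Lat.wh, mul_sum, sum_mul]
              exact (sum_congr rfl fun m _ => sum_comm).trans (sum_comm.trans (sum_congr rfl
                fun k _ => sum_comm.trans (sum_congr rfl fun q _ => sum_congr rfl fun m _ => by
                  ring)))
          _ ≤ ∑ k ∈ range L.N, L.str η γ p * (C / η ^ 6 *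
              ((∑ m ∈ Ico M L.N, 4 ^ m * L.al m k) / 16 ^ k)) := sum_le_sum fun k hk =>
              (mul_le_mul_of_nonneg_left (H L E η η γ a hη h1 hη h1 (fun x =>
                ⟨(h x).1, (h x).2, le_add_of_nonneg_right (h x).1⟩) k (mem_range.1 hk) p)
                (sum_nonneg fun m _ => mul_nonneg (by positivity) (L.al_nonneg m k))).trans_eq
                (by ring)
          _ ≤ _ := by
              rw [← mul_sum, ← mul_sum]
              gcongr
    _ ≤ ∑ _x : L.X, 2 * (C / η ^ 6 * (4 / 3 * ((4 : ℝ) ^ M)⁻¹ * (M + 1))) := by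
        rw [sum_str L η γ fun _ => C / η ^ 6 * (4 / 3 * ((4 : ℝ) ^ M)⁻¹ * (M + 1))]
        exact sum_le_sum fun x _ => mul_le_mul_of_nonneg_right (by linarith [(h x).2])
          (by positivity)
    _ = _ := by
        rw [sum_const, card_univ, nsmul_eq_mul]
        ring
/-- Wegner bound for the total mass -/
theorem mass : ∃ C : ℝ, 0 < C ∧ ∀ (L : Lat) (st : Stat L) (D : ℝ), 0 ≤ D →
    (∀ x, st.mu x ≤ ENNReal.ofReal D • (volume : Measure ℝ)) →
    st.I0 (fun K => ∑ p, dd K p) ≤ C * D * ∑ x, (st.η + st.γ x) := by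
  refine ⟨4 * Real.pi, by positivity, fun L st D hD h => ?_⟩
  have hb := fun p => st.bm_Km (nice_dd p) st.γ_nonneg
  calc _ = ∑ p, st.Ia fun a => dd (L.Km st.E st.η st.γ a) p := st.Ia_sum _ fun p _ => hb p
    _ ≤ ∑ p : L.P, L.str st.η st.γ p * (4 * Real.pi * D) := by
        refine sum_le_sum fun p _ => (st.lift (hb p) (.const _) p.1 fun a => ?_).trans_eq
          (st.Ia_const _)
        obtain ⟨c, -, h2, h3, -⟩ := exists_cav L st.E st.η_pos st.γ_nonneg a p.1
        have hs := str_nonneg L st.η_pos st.γ_nonneg p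
        have hJ : 0 < st.γ p.1 + c.s.im := by linarith [st.γ_nonneg p.1, st.η_pos]
        have e : ∀ t, dd (L.Km st.E st.η st.γ (Function.update a p.1 t)) p =
            4 * L.str st.η st.γ p * ((st.γ p.1 + c.s.im) * ‖zz c.s t (st.γ p.1)‖ ^ 2) := fun t => by
          have := h2 t _ (st.γ_nonneg p.1)
          rw [Function.update_eq_self] at this
          rw [← im_zz, ← this, (L.port_Km _ st.η_pos st.γ_nonneg _).dd_eq, zz, Lat.sE,
            Function.update_self, sub_sub_cancel, one_div_one_div, Lat.Km,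
            mul_assoc (2 * I), ← ofReal_mul, Real.mul_self_sqrt hs]
          simp
          ring
        simp only [e, integral_const_mul, integral_const, probReal_univ, one_smul]
        have := integral_mono_measure (h p.1) (ae_of_all _ fun t => by positivity)
          ((integral_J_zz hJ).1.smul_measure ENNReal.ofReal_ne_top)
        rw [integral_smul_measure, (integral_J_zz hJ).2, ENNReal.toReal_ofReal hD,
          integral_const_mul] at this
        exact (mul_le_mul_of_nonneg_left this (by positivity)).trans_eq (by rw [smul_eq_mul]; ring)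
    _ = _ := by
        rw [sum_str L st.η st.γ fun _ => 4 * Real.pi * D, ← sum_mul, mul_comm]

end Crest.Agent.N334.G
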