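import Crest.Agent.N334.G.E1b

/-!
# Row 334, S0519 GAIN: (E) rigidity (deterministic)
-/

set_option autoImplicit false

open MeasureTheory Finset Complex
open scoped BigOperators ComplexConjugate

noncomputable section

namespace Crest.Agent.N334.G

namespace E1

variable {L : Lat} {K : L.Mat}

/-- the estimate at one scale -/
theorem scale (hK : IsPort K) {Y Gd : Finset L.X} (hG : Gd ⊆ Y)
    {i1 i2 i l Λ1 Λ2 l1 l2 Ck κ0 : ℝ} (hi : i2 + 1 ≤ i) (hl : 0 < l) (hl1 : 0 < l1) (hl2 : 0 < l2)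
    (h1 : 4 ≤ Λ1) (h2 : 4 * Λ1 ≤ Λ2) (hκ : 1 ≤ κ0) (hCk : 0 < Ck) {m : ℕ} (hm : m < L.N)
    (hk : ∀ (c : L.X) (Z : Finset L.X), (∀ x ∈ Z, L.rx x c ≤ Λ2 * 4 ^ m) →
      ∑ x ∈ Z, L.nn K (x, true) m ≤ Ck * Λ2 * L.kap Λ2 c m K) :
    ∑ y ∈ Vm K Y i1 l m, 4 ^ m * L.nn K (y, true) m
      ≤ 400 * (Ck * Λ2) * (∑ c, if κ0 < L.kap Λ2 c m K then L.kap Λ2 c m K else 0)
        + 1200 * ∑ y ∈ Vm K Y i1 l m,
          (67 * (4 ^ m * far K Λ1 m y + 4 ^ m * deep K Y i i2 m y + 4 ^ m * bad K Y Gd i i2 m y)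
            + (l1 / l + 3 * l2) * (4 ^ m * dd K (y, true)))
        + 1200 * (Λ1 ^ 2 / l1) * ∑ x ∈ Gd.filter fun x => L.gd Y i K (x, true) m ≤ i2,
            (4 ^ m * far K Λ2 m x + 4 ^ m * deep K Y i (i - 1) m x)
        + 400 * (32 * (Λ1 * (1 + Real.exp i * (Ck * Λ2)) ^ 2 / l2)
          / (l / (Real.exp i1 + 1) ^ 2) ^ (1 / 8 : ℝ)) * κ0 ^ 2 *
          ∑ c, if L.kap Λ2 c m K ≤ κ0 then L.Main Y Gd i Λ2 K c m / 4 ^ m else 0 := by
  have h4 : (1 : ℝ) ≤ 4 ^ m := one_le_pow₀ (by norm_num)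
  have hΛ : 0 < Λ2 := by linarith
  set a : L.X → ℝ := fun y => 67 * (4 ^ m * far K Λ1 m y + 4 ^ m * deep K Y i i2 m y
    + 4 ^ m * bad K Y Gd i i2 m y) + (l1 / l + 3 * l2) * (4 ^ m * dd K (y, true))
  set b : L.X → ℝ := fun x => 4 ^ m * far K Λ2 m x + 4 ^ m * deep K Y i (i - 1) m x
  set C' := 32 * (Λ1 * (1 + Real.exp i * (Ck * Λ2)) ^ 2 / l2)
    / (l / (Real.exp i1 + 1) ^ 2) ^ (1 / 8 : ℝ) with hC'
  have ha : ∀ y, 0 ≤ a y := fun y => by
    have := far_nonneg (K := K) Λ1 m y; have := deep_nonneg (K := K) Y i i2 m y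
    have := bad_nonneg (K := K) Y Gd i i2 m y; have := dd_nonneg K (y, true)
    positivity
  have hb : ∀ y, 0 ≤ b y := fun y => by
    have := far_nonneg (K := K) Λ2 m y; have := deep_nonneg (K := K) Y i (i - 1) m y
    positivity
  have k1 := count_ge (Vm K Y i1 l m) (a := fun y => 4 ^ m * L.nn K (y, true) m)
    (fun y _ => mul_nonneg (by positivity) (nn_nonneg _ m)) hm
  have k2 := count_le (Vm K Y i1 l m) (fun y _ => ha y) h4
  have k3 := mul_le_mul_of_nonneg_left (count_le (Gd.filter fun x => L.gd Y i K (x, true) m ≤ i2)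
    (fun y _ => hb y) (show 1 ≤ Λ1 * 4 ^ m by nlinarith)) (show 0 ≤ Λ1 / l1 by positivity)
  have k4 : ∀ c, ∑ y ∈ (Vm K Y i1 l m).filter (fun y => L.rx y c ≤ 4 ^ m),
      4 ^ m * L.nn K (y, true) m ≤ 4 ^ m * (Ck * Λ2) *
        (if κ0 < L.kap Λ2 c m K then L.kap Λ2 c m K else 0)
      + ∑ y ∈ (Vm K Y i1 l m).filter (fun y => L.rx y c ≤ 4 ^ m), a y
      + Λ1 / l1 * ∑ x ∈ (Gd.filter fun x => L.gd Y i K (x, true) m ≤ i2).filter
          (fun x => L.rx x c ≤ Λ1 * 4 ^ m), b x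
      + 4 ^ m * C' * κ0 ^ 2 *
        if L.kap Λ2 c m K ≤ κ0 then L.Main Y Gd i Λ2 K c m / 4 ^ m else 0 := fun c => by
    by_cases h : L.kap Λ2 c m K ≤ κ0
    · rw [if_neg (not_lt.2 h), if_pos h, mul_zero, zero_add]
      refine (cell hK hG hi hl hl1 hl2 h1 h2 hm c
        (Mb := (1 + Real.exp i * (Ck * Λ2)) * κ0) ?_).trans (le_of_eq ?_)
      · have j1 := sum_le_sum (s := Y.filter fun z => Real.exp (-i) ≤ L.th K (z, true) m ∧
          L.rx z c ≤ Λ2 * 4 ^ m) fun z hz => dd_le_nn (one_le_th (mem_filter.1 hz).2.1)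
        rw [← mul_sum] at j1
        have j2 := mul_le_mul_of_nonneg_left ((hk c _ fun z (hz : z ∈ Y.filter fun z =>
          Real.exp (-i) ≤ L.th K (z, true) m ∧ L.rx z c ≤ Λ2 * 4 ^ m) =>
            (mem_filter.1 hz).2.2).trans (mul_le_mul_of_nonneg_left h (by positivity)))
          (Real.exp_pos i).le
        linarith
      · congr 1
        rw [hC']
        field_simp
    · rw [if_pos (not_le.1 h), if_neg h, mul_zero, add_zero, ← mul_sum]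
      have j1 := mul_le_mul_of_nonneg_left (hk c ((Vm K Y i1 l m).filter
        fun y => L.rx y c ≤ 4 ^ m) fun x hx => (mem_filter.1 hx).2.trans (by nlinarith))
        (show (0 : ℝ) ≤ 4 ^ m by positivity)
      have j2 := sum_nonneg (s := (Vm K Y i1 l m).filter fun y => L.rx y c ≤ 4 ^ m) fun y _ => ha y
      have j3 := mul_nonneg (show 0 ≤ Λ1 / l1 by positivity) (sum_nonneg
        (s := (Gd.filter fun x => L.gd Y i K (x, true) m ≤ i2).filter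
          fun x => L.rx x c ≤ Λ1 * 4 ^ m) fun y _ => hb y)
      linarith
  have k5 := sum_le_sum fun c (_ : c ∈ univ) => k4 c
  rw [sum_add_distrib, sum_add_distrib, sum_add_distrib, ← mul_sum, ← mul_sum, ← mul_sum] at k5
  refine le_of_mul_le_mul_left ?_ (show (0 : ℝ) < 4 ^ m by positivity)
  have e : Λ1 ^ 2 / l1 = Λ1 / l1 * Λ1 := by ring
  rw [e]
  linarith

/-- removal of the scales that are too large or too small -/
theorem split (Y : Finset L.X) (i1 : ℝ) {l : ℝ} (hl : 0 < l) (M : ℕ) :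
    ∑ y ∈ Y, L.Sh i1 K (y, true) ≤ 90 * l * En L.r2 K
      + ∑ p, ∑ m ∈ Ico M L.N, 4 ^ m * L.nn K p m
      + ∑ m ∈ range (min M L.N), ∑ y ∈ Vm K Y i1 l m, 4 ^ m * L.nn K (y, true) m := by
  have hn : ∀ p m, 0 ≤ 4 ^ m * L.nn K p m := fun p m => mul_nonneg (by positivity) (nn_nonneg p m)
  simp only [Vm, sum_filter]
  rw [sum_comm (s := range _), En, mul_sum]
  refine le_trans ?_ (add_le_add (add_le_add
    (sum_true_le Y fun p => mul_nonneg (by positivity) (G_nonneg p))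
    (sum_true_le Y fun p => sum_nonneg fun m _ => hn p m)) le_rfl)
  rw [← sum_add_distrib, ← sum_add_distrib]
  refine sum_le_sum fun y _ => ?_
  have e : Ico (min M L.N) L.N = Ico M L.N := by ext; simp only [mem_Ico]; omega
  have hG := G_nonneg (K := K) (y, true)
  have hd := dd_nonneg K (y, true)
  rw [Lat.Sh, ← sum_range_add_sum_Ico _ (min_le_right M L.N), e]
  have k1 : ∑ m ∈ Ico M L.N, (if Real.exp (-i1) ≤ L.th K (y, true) m
      then 4 ^ m * L.nn K (y, true) m else 0) ≤ ∑ m ∈ Ico M L.N, 4 ^ m * L.nn K (y, true) m :=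
    sum_le_sum fun m _ => by split_ifs; exacts [le_rfl, hn _ m]
  have k2 := mul_le_mul_of_nonneg_right (sum_pow_le (min M L.N)
    (show 0 ≤ l * Gam L.r2 K (y, true) / dd K (y, true) by positivity))
    (show 0 ≤ 67 * dd K (y, true) by positivity)
  have k3 : l * Gam L.r2 K (y, true) / dd K (y, true) * dd K (y, true)
      ≤ l * Gam L.r2 K (y, true) := by
    rcases hd.eq_or_lt with h | h
    · rw [← h, mul_zero]; positivity
    · rw [div_mul_cancel₀ _ h.ne']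
  have k4 : ∑ m ∈ range (min M L.N), (if Real.exp (-i1) ≤ L.th K (y, true) m
      then 4 ^ m * L.nn K (y, true) m else 0) ≤ (∑ m ∈ (range (min M L.N)).filter fun m =>
        (4 : ℝ) ^ m ≤ l * Gam L.r2 K (y, true) / dd K (y, true), (4 : ℝ) ^ m)
        * (67 * dd K (y, true)) + ∑ m ∈ range (min M L.N),
        if Real.exp (-i1) ≤ L.th K (y, true) m ∧ l * Gam L.r2 K (y, true) ≤ 4 ^ m * dd K (y, true)
        then 4 ^ m * L.nn K (y, true) m else 0 := by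
    rw [sum_filter, sum_mul, ← sum_add_distrib]
    refine sum_le_sum fun m _ => ?_
    have j0 : 0 ≤ (if (4 : ℝ) ^ m ≤ l * Gam L.r2 K (y, true) / dd K (y, true) then (4 : ℝ) ^ m
      else 0) * (67 * dd K (y, true)) := mul_nonneg (ite_nonneg (by positivity) le_rfl)
        (by positivity)
    by_cases h : Real.exp (-i1) ≤ L.th K (y, true) m
    · by_cases h' : l * Gam L.r2 K (y, true) ≤ 4 ^ m * dd K (y, true)
      · rw [if_pos h, if_pos (And.intro h h')]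
        linarith
      · rw [if_pos h, if_neg (not_and_of_not_right _ h'), add_zero,
          if_pos ((le_div_iff₀ (dd_pos ((Real.exp_pos _).trans_le h))).2 (not_le.1 h').le)]
        exact mul_le_mul_of_nonneg_left (nn_le _ m) (by positivity)
    · rw [if_neg h, if_neg (not_and_of_not_left _ h)]
      linarith
  nlinarith

theorem rigid0 (hK : IsPort K) {Y Gd : Finset L.X} (hG : Gd ⊆ Y)
    {i1 i2 i l Λ1 Λ2 l1 l2 Ck κ0 : ℝ} (hi : i2 + 1 ≤ i) (hl : 0 < l) (hl1 : 0 < l1) (hl2 : 0 < l2)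
    (h1 : 4 ≤ Λ1) (h2 : 4 * Λ1 ≤ Λ2) (hκ : 1 ≤ κ0) (hCk : 0 < Ck) (M : ℕ)
    (hk : ∀ m < L.N, ∀ (c : L.X) (Z : Finset L.X), (∀ x ∈ Z, L.rx x c ≤ Λ2 * 4 ^ m) →
      ∑ x ∈ Z, L.nn K (x, true) m ≤ Ck * Λ2 * L.kap Λ2 c m K) :
    ∑ y ∈ Y, L.Sh i1 K (y, true) ≤ (90 * l + 1200 * 67 * (16 / (3 * Λ1))
        + 1200 * (l1 / l + 3 * l2) * Real.exp i1
        + 1200 * (Λ1 ^ 2 / l1) * (16 / (3 * Λ2))) * En L.r2 K
      + 1200 * 67 * Real.exp i1 * L.Hub Y Y i i1 i2 K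
      + 1200 * (Λ1 ^ 2 / l1) * (2 * Real.exp i2) * L.Hub Y Y i i2 (i - 1) K
      + 1200 * 67 * (2 * Real.exp i2) * ∑ y ∈ Y \ Gd, Gam L.r2 K (y, true)
      + ∑ p, ∑ m ∈ Ico M L.N, 4 ^ m * L.nn K p m
      + 400 * (Ck * Λ2) *
        (∑ m ∈ range (min M L.N), ∑ c, if κ0 < L.kap Λ2 c m K then L.kap Λ2 c m K else 0)
      + 400 * (32 * (Λ1 * (1 + Real.exp i * (Ck * Λ2)) ^ 2 / l2)
          / (l / (Real.exp i1 + 1) ^ 2) ^ (1 / 8 : ℝ)) * κ0 ^ 2 * ∑ m ∈ range L.N, ∑ c,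
        if L.kap Λ2 c m K ≤ κ0 then L.Main Y Gd i Λ2 K c m / 4 ^ m else 0 := by
  have sub : ∀ f : ℕ → ℝ, (∀ m, 0 ≤ f m) → ∑ m ∈ range (min M L.N), f m ≤ ∑ m ∈ range L.N, f m :=
    fun f hf => sum_le_sum_of_subset_of_nonneg (range_subset_range.2 (min_le_right _ _))
      fun m _ _ => hf m
  have sub' : ∀ (S : ℕ → Finset L.X) (f : ℕ → L.X → ℝ), (∀ m y, 0 ≤ f m y) →
      ∑ m ∈ range (min M L.N), ∑ y ∈ S m, 4 ^ m * f m y
        ≤ ∑ m ∈ range L.N, ∑ y ∈ S m, 4 ^ m * f m y := fun S f hf =>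
    sub _ fun m => sum_nonneg fun y _ => mul_nonneg (by positivity) (hf m y)
  have k0 := split (K := K) Y i1 hl M
  have k1 := sum_le_sum fun m (hm : m ∈ range (min M L.N)) =>
    have hm' := (mem_range.1 hm).trans_le (min_le_right _ _)
    scale (i1 := i1) hK hG hi hl hl1 hl2 h1 h2 hκ hCk hm' (hk m hm')
  simp only [sum_add_distrib, ← mul_sum _ _ (67 : ℝ), ← mul_sum _ _ (1200 : ℝ),
    ← mul_sum _ _ (l1 / l + 3 * l2), ← mul_sum _ _ (400 * (Ck * Λ2)),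
    ← mul_sum _ _ (1200 * (Λ1 ^ 2 / l1)), ← mul_sum _ _ (_ * κ0 ^ 2)] at k1
  have hV : ∀ m, ∀ y ∈ Vm K Y i1 l m, y ∈ Y ∧ Real.exp (-i1) ≤ L.th K (y, true) m :=
    fun m y hy => ⟨(mem_filter.1 hy).1, (mem_filter.1 hy).2.1⟩
  have a1 := (sub' _ _ (far_nonneg Λ1)).trans (sum_far (K := K) (show 0 < Λ1 by linarith)
    (Vm K Y i1 l))
  have a2 := (sub' _ _ (deep_nonneg Y i i2)).trans (sum_deep (K := K) (Real.exp_pos i1).le
    fun m y hy => ⟨(hV m y hy).1, gd_le (hV m y hy).1 (hV m y hy).2, one_le_th (hV m y hy).2⟩)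
  have a3 := (sub' _ _ (bad_nonneg Y Gd i i2)).trans (sum_bad hK hi (Vm K Y i1 l))
  have a4 := mul_le_mul_of_nonneg_left (((sub' _ _ fun _ y => dd_nonneg K (y, true)).trans
    (sum_dd (K := K) (Real.exp_pos i1).le (fun m y hy => (hV m y hy).1)
      fun m y hy => one_le_th (hV m y hy).2)).trans (mul_le_mul_of_nonneg_left
        (sum_true_le Y G_nonneg) (Real.exp_pos i1).le)) (show 0 ≤ l1 / l + 3 * l2 by positivity)
  have a5 := (sub' _ _ (far_nonneg Λ2)).trans (sum_far (K := K) (show 0 < Λ2 by linarith)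
    fun m => Gd.filter fun x => L.gd Y i K (x, true) m ≤ i2)
  have a6 := (sub' _ _ (deep_nonneg Y i (i - 1))).trans (sum_deep (K := K) (j := i2)
    (S := fun m => Gd.filter fun x => L.gd Y i K (x, true) m ≤ i2)
    (show 0 ≤ 2 * Real.exp i2 by positivity) fun m y hy => ⟨hG (mem_filter.1 hy).1,
      (mem_filter.1 hy).2, (th_of_gd (hG (mem_filter.1 hy).1) hi (mem_filter.1 hy).2).2⟩)
  have a7 := mul_le_mul_of_nonneg_left (add_le_add a5 a6)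
    (show 0 ≤ 1200 * (Λ1 ^ 2 / l1) by positivity)
  have a8 := mul_le_mul_of_nonneg_left (sub _ fun m => sum_nonneg (s := univ) fun c _ =>
    ite_nonneg (p := L.kap Λ2 c m K ≤ κ0)
      (div_nonneg (Main_nonneg (K := K) Y Gd i Λ2 c m) (show (0 : ℝ) ≤ 4 ^ m by positivity)) le_rfl)
    (show 0 ≤ 400 * (32 * (Λ1 * (1 + Real.exp i * (Ck * Λ2)) ^ 2 / l2)
      / (l / (Real.exp i1 + 1) ^ 2) ^ (1 / 8 : ℝ)) * κ0 ^ 2 by positivity)
  unfold En at *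
  linarith

end E1

theorem rigid : ∀ i1 δ : ℝ, 1 ≤ i1 → 0 < δ → ∃ C1 Λ2 : ℝ, 0 < C1 ∧ 1 ≤ Λ2 ∧ ∀ i2 : ℝ, i1 < i2 →
    ∃ C2 : ℝ, 0 < C2 ∧ ∀ i : ℝ, i2 + 1 ≤ i → ∃ C3 : ℝ, 0 < C3 ∧
    ∀ (L : Lat) (K : L.Mat), IsPort K → ∀ (Y Gd : Finset L.X) (M : ℕ) (κ0 : ℝ), Gd ⊆ Y → 1 ≤ κ0 →
    ∑ y ∈ Y, L.Sh i1 K (y, true) ≤ δ * En L.r2 K + C1 * L.Hub Y Y i i1 i2 K +
      C2 * L.Hub Y Y i i2 (i - 1) K + C3 * ∑ y ∈ Y \ Gd, Gam L.r2 K (y, true) +
      ∑ p, ∑ m ∈ Ico M L.N, 4 ^ m * L.nn K p m +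
      C3 * (∑ m ∈ range (min M L.N), ∑ c, if κ0 < L.kap Λ2 c m K then L.kap Λ2 c m K else 0) +
      C3 * κ0 ^ 2 * ∑ m ∈ range L.N, ∑ c,
        if L.kap Λ2 c m K ≤ κ0 then L.Main Y Gd i Λ2 K c m / 4 ^ m else 0 := by
  intro i1 δ _ hδ
  obtain ⟨Ck, hCk, hk⟩ := sum_nn_le_kap
  have he := Real.exp_pos i1
  obtain ⟨Λ1, h1, e1⟩ : ∃ Λ1 : ℝ, 4 ≤ Λ1 ∧ 1200 * 67 * (16 / (3 * Λ1)) ≤ δ / 5 :=
    ⟨4 + 2144000 / δ, le_add_of_nonneg_right (by positivity), by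
      rw [← mul_div_assoc, div_le_iff₀ (by positivity)]
      field_simp
      nlinarith⟩
  set l := δ / 450 with hl
  set l1 := δ / (6000 * Real.exp i1) * l with hl1
  set l2 := δ / (18000 * Real.exp i1) with hl2
  have pl : 0 < l := by positivity
  have pl1 : 0 < l1 := by positivity
  have pl2 : 0 < l2 := by positivity
  obtain ⟨Λ2, h2, e2⟩ : ∃ Λ2 : ℝ, 4 * Λ1 ≤ Λ2 ∧ 1200 * (Λ1 ^ 2 / l1) * (16 / (3 * Λ2)) ≤ δ / 5 :=
    ⟨4 * Λ1 + 32000 * (Λ1 ^ 2 / l1) / δ, le_add_of_nonneg_right (by positivity), by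
      rw [← mul_div_assoc, div_le_iff₀ (by positivity)]
      generalize Λ1 ^ 2 / l1 = u
      field_simp
      nlinarith [mul_pos hδ (show 0 < Λ1 by linarith)]⟩
  have e3 : 90 * l + 1200 * (l1 / l + 3 * l2) * Real.exp i1 = 3 * (δ / 5) := by
    rw [hl1, mul_div_cancel_right₀ _ pl.ne', hl2, hl]
    field_simp
    ring
  have pΛ1 : 0 < Λ1 := by linarith
  have pΛ2 : 0 < Λ2 := by linarith
  refine ⟨1200 * 67 * Real.exp i1, Λ2, by positivity, by linarith, fun i2 _ =>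
    ⟨1200 * (Λ1 ^ 2 / l1) * (2 * Real.exp i2), by positivity, fun i hi => ?_⟩⟩
  set c1 := 1200 * 67 * (2 * Real.exp i2)
  set c2 := 400 * (Ck * Λ2)
  set c3 := 400 * (32 * (Λ1 * (1 + Real.exp i * (Ck * Λ2)) ^ 2 / l2)
    / (l / (Real.exp i1 + 1) ^ 2) ^ (1 / 8 : ℝ))
  have p1 : 0 < c1 := by positivity
  have p2 : 0 < c2 := by positivity
  have p3 : 0 < c3 := by positivity
  refine ⟨c1 + c2 + c3, by positivity, fun L K hK Y Gd M κ0 hG hκ => ?_⟩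
  refine (E1.rigid0 (i1 := i1) hK hG hi pl pl1 pl2 h1 h2 hκ hCk M
    fun m hm c Z hZ => hk L c m Λ2 K Z hm (by linarith) hZ).trans ?_
  gcongr
  · exact En_nonneg E1.r2_nonneg K
  · linarith
  · exact sum_nonneg fun y _ => E1.G_nonneg _
  · linarith
  · exact sum_nonneg fun m _ => sum_nonneg fun c _ => by split_ifs <;> linarith
  · linarith
  · exact sum_nonneg fun m _ => sum_nonneg fun c _ =>
      ite_nonneg (div_nonneg (E1.Main_nonneg _ _ _ _ _ _) (by positivity)) le_rfl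
  · linarith

end Crest.Agent.N334.G
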