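import Crest.Agent.N334.G.Geo2

/-!
# Row 334, S0519 GAIN: (E) rigidity, the matrix estimate in one cell
-/

set_option autoImplicit false
set_option linter.unusedSectionVars false

open MeasureTheory Finset Complex
open scoped BigOperators ComplexConjugate

noncomputable section

namespace Crest.Agent.N334.G.E1

theorem amgm {t a b R s : ℝ} (ha : 0 ≤ a) (hb : 0 ≤ b) (hR : 0 ≤ R) (hs : 0 < s)
    (h : t ^ 2 ≤ 4 * R * (a * b)) : t ≤ s * a + R / s * b := by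
  refine (le_abs_self t).trans (abs_le_of_sq_le_sq (h.trans ?_) (by positivity))
  have e : 4 * R * (a * b) = 4 * ((s * a) * (R / s * b)) := by field_simp
  rw [e]
  nlinarith [sq_nonneg (s * a - R / s * b)]

theorem sum_le_three {α : Type} [DecidableEq α] (Z : Finset α) {f : α → ℝ} (hf : ∀ z, 0 ≤ f z)
    (x y : α) : ∑ z ∈ Z, f z ≤ f y + f x + ∑ z ∈ (Z.erase y).erase x, f z := by
  have h : ∀ (Z : Finset α) (a : α), ∑ z ∈ Z, f z ≤ f a + ∑ z ∈ Z.erase a, f z := fun Z a => by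
    by_cases ha : a ∈ Z
    · exact (add_sum_erase Z f ha).ge
    · rw [erase_eq_of_notMem ha]; linarith [hf a]
  linarith [h Z y, h (Z.erase y) x]

section mat
variable {P : Type} [Fintype P] [DecidableEq P] {K : P → P → ℂ} {ι : Type} [Fintype ι]
  {Φ : ι → P → ℝ}

/-- the commutator `[f, S]` -/
def Am (f : P → ℝ) (K : P → P → ℂ) (x y : P) : ℂ := ((f x - f y : ℝ) : ℂ) * K x y

theorem iso (hK : IsPort K) (V N : Finset P) (v : P → ℂ) :
    ∑ y ∈ V, ‖∑ x ∈ N, conj (Sm K x y) * v x‖ ^ 2 ≤ ∑ x ∈ N, ‖v x‖ ^ 2 := by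
  have h := hK.S_iso fun x => if x ∈ N then conj (v x) else 0
  have e : ∀ y, ‖∑ x ∈ N, conj (Sm K x y) * v x‖
      = ‖∑ q, Sm K y q * if q ∈ N then conj (v q) else 0‖ := fun y => by
    rw [← Complex.norm_conj]
    simp only [map_sum, map_mul, Complex.conj_conj, mul_ite, mul_zero, sum_ite_mem, univ_inter,
      hK.S_symm y]
  simp only [e]
  refine (sum_le_sum_of_subset_of_nonneg (subset_univ V) fun _ _ _ => sq_nonneg _).trans
    (h.le.trans (le_of_eq ?_))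
  simp only [apply_ite norm, Complex.norm_conj, norm_zero, ite_pow, ne_eq, OfNat.ofNat_ne_zero,
    not_false_eq_true, zero_pow, sum_ite_mem, univ_inter]

theorem norm_S_le (hK : IsPort K) (x : P) : ‖Sm K x x‖ ^ 2 ≤ 1 := by
  simpa using iso hK {x} {x} fun _ => 1

theorem opB (hK : IsPort K) {V N : Finset P} {t : ι → ℝ} {R : ℝ} (hR : 0 ≤ R)
    (hN : ∀ x ∈ N, ∑ j, (Φ j x - t j) ^ 2 ≤ R) (hV : ∀ y ∈ V, ∑ j, (Φ j y - t j) ^ 2 ≤ R)
    (u : P → ℂ) : ∑ y ∈ V, ∑ j, ‖∑ x ∈ N, conj (Am (Φ j) K x y) * u x‖ ^ 2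
      ≤ 4 * R * ∑ x ∈ N, ‖u x‖ ^ 2 := by
  have e : ∀ j y, ∑ x ∈ N, conj (Am (Φ j) K x y) * u x
      = ∑ x ∈ N, conj (Sm K x y) * (((Φ j x - t j : ℝ) : ℂ) * u x)
        - ((Φ j y - t j : ℝ) : ℂ) * ∑ x ∈ N, conj (Sm K x y) * u x := fun j y => by
    rw [mul_sum, ← sum_sub_distrib]
    refine sum_congr rfl fun x _ => ?_
    by_cases h : x = y
    · subst h; simp [Am]; ring
    · simp [Am, Sm, h]; ring
  have h1 : ∀ j y, ‖∑ x ∈ N, conj (Am (Φ j) K x y) * u x‖ ^ 2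
      ≤ 2 * ‖∑ x ∈ N, conj (Sm K x y) * (((Φ j x - t j : ℝ) : ℂ) * u x)‖ ^ 2
        + 2 * ((Φ j y - t j) ^ 2 * ‖∑ x ∈ N, conj (Sm K x y) * u x‖ ^ 2) := fun j y => by
    rw [e]
    refine (pow_le_pow_left₀ (norm_nonneg _) (norm_sub_le _ _) 2).trans (add_sq_le.trans ?_)
    rw [norm_mul, mul_pow, Complex.norm_real, Real.norm_eq_abs, sq_abs, mul_add]
  have h2 : ∑ y ∈ V, ∑ j, ‖∑ x ∈ N, conj (Sm K x y) * (((Φ j x - t j : ℝ) : ℂ) * u x)‖ ^ 2
      ≤ R * ∑ x ∈ N, ‖u x‖ ^ 2 := by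
    rw [sum_comm]
    refine (sum_le_sum fun j _ => iso hK V N _).trans ?_
    rw [sum_comm, mul_sum]
    refine sum_le_sum fun x hx => ?_
    simp only [norm_mul, mul_pow, Complex.norm_real, Real.norm_eq_abs, sq_abs, ← sum_mul]
    exact mul_le_mul_of_nonneg_right (hN x hx) (sq_nonneg _)
  have h3 : ∑ y ∈ V, ∑ j, (Φ j y - t j) ^ 2 * ‖∑ x ∈ N, conj (Sm K x y) * u x‖ ^ 2
      ≤ R * ∑ x ∈ N, ‖u x‖ ^ 2 := by
    refine le_trans ?_ (mul_le_mul_of_nonneg_left (iso hK V N u) hR)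
    rw [mul_sum]
    refine sum_le_sum fun y hy => ?_
    rw [← sum_mul]
    exact mul_le_mul_of_nonneg_right (hV y hy) (sq_nonneg _)
  refine (sum_le_sum fun y _ => sum_le_sum fun j _ => h1 j y).trans ?_
  simp only [sum_add_distrib, ← mul_sum]
  linarith

theorem wt_le {t : ι → ℝ} {R : ℝ} {x y : P} (hx : ∑ j, (Φ j x - t j) ^ 2 ≤ R)
    (hy : ∑ j, (Φ j y - t j) ^ 2 ≤ R) : wt Φ x y ≤ 4 * R := by
  have : wt Φ x y ≤ ∑ j, (2 * (Φ j x - t j) ^ 2 + 2 * (Φ j y - t j) ^ 2) :=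
    sum_le_sum fun j _ => by nlinarith [sq_nonneg (Φ j x - t j + (Φ j y - t j))]
  simp only [sum_add_distrib, ← mul_sum] at this
  linarith

theorem sum_Am (x y : P) : ∑ j, ‖Am (Φ j) K x y‖ ^ 2 = cc K x y * wt Φ x y := by
  simp only [Am, norm_mul, mul_pow, Complex.norm_real, Real.norm_eq_abs, sq_abs, cc, wt, mul_sum,
    mul_comm]

/-- the basic identity -/
theorem ident (hK : IsPort K) (N : Finset P) (y : P) :
    ((∑ x ∈ N, cc K x y * wt Φ x y : ℝ) : ℂ)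
      = ∑ z, ∑ j, (∑ x ∈ N, conj (Am (Φ j) K x y) * Sm K x z) * Tm (Φ j) K z y := by
  simp only [← sum_Am, sum_mul, Complex.ofReal_sum, Complex.ofReal_pow]
  rw [sum_comm (s := univ), sum_comm]
  refine sum_congr rfl fun j _ => ?_
  rw [sum_comm]
  refine sum_congr rfl fun x _ => ?_
  simp only [mul_assoc, ← mul_sum]
  rw [← hK.comm_eq, ← Am, Complex.conj_mul']

theorem sum_T (hK : IsPort K) (y : P) : ∑ z, ∑ j, ‖Tm (Φ j) K z y‖ ^ 2 = Gam (wt Φ) K y := by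
  rw [sum_comm]
  simp only [hK.T_col, Gam, wt, mul_sum]
  exact sum_comm

/-- the part outside `Z` -/
theorem out (hK : IsPort K) {V N Z : Finset P} (hNZ : N ⊆ Z) {t : ι → ℝ} {R : ℝ} (hR : 0 ≤ R)
    (hN : ∀ x ∈ N, ∑ j, (Φ j x - t j) ^ 2 ≤ R) (hV : ∀ y ∈ V, ∑ j, (Φ j y - t j) ^ 2 ≤ R)
    {l : ℝ} (hl : 0 < l) :
    ∑ y ∈ V, ‖∑ z ∈ Zᶜ, ∑ j, (∑ x ∈ N, conj (Am (Φ j) K x y) * Sm K x z) * Tm (Φ j) K z y‖
      ≤ l * ∑ y ∈ V, Gam (wt Φ) K y + R / l * ∑ x ∈ N, ∑ z ∈ Zᶜ, cc K x z := by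
  have h1 : ∀ y, ‖∑ z ∈ Zᶜ, ∑ j, (∑ x ∈ N, conj (Am (Φ j) K x y) * Sm K x z) * Tm (Φ j) K z y‖
      ≤ l * Gam (wt Φ) K y
        + 1 / 4 / l * ∑ z ∈ Zᶜ, ∑ j, ‖∑ x ∈ N, conj (Am (Φ j) K x y) * Sm K x z‖ ^ 2 := fun y => by
    refine (norm_sum_le _ _).trans ((sum_le_sum fun z _ => (norm_sum_le _ _).trans
      (sum_le_sum fun j _ => amgm (a := ‖Tm (Φ j) K z y‖ ^ 2)
        (b := ‖∑ x ∈ N, conj (Am (Φ j) K x y) * Sm K x z‖ ^ 2) (R := 1 / 4) (sq_nonneg _)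
        (sq_nonneg _) (by norm_num) hl (le_of_eq (by rw [norm_mul]; ring)))).trans ?_)
    simp only [sum_add_distrib, ← mul_sum, ← sum_T hK]
    gcongr
    exact subset_univ _
  refine (sum_le_sum fun y _ => h1 y).trans ?_
  rw [sum_add_distrib, ← mul_sum, ← mul_sum, sum_comm (s := V), sum_comm (s := N)]
  have h2 : ∑ z ∈ Zᶜ, ∑ y ∈ V, ∑ j, ‖∑ x ∈ N, conj (Am (Φ j) K x y) * Sm K x z‖ ^ 2
      ≤ 4 * R * ∑ z ∈ Zᶜ, ∑ x ∈ N, cc K x z := by
    rw [mul_sum]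
    refine sum_le_sum fun z hz => (opB hK hR hN hV _).trans (le_of_eq ?_)
    congr 1
    refine sum_congr rfl fun x hx => ?_
    have : x ≠ z := fun h => (mem_compl.1 hz) (h ▸ hNZ hx)
    simp [Sm, cc, this]
  refine add_le_add le_rfl ((mul_le_mul_of_nonneg_left h2 (by positivity)).trans (le_of_eq ?_))
  ring

theorem tau_sq {R : ℝ} {x y : P} (h : wt Φ x y ≤ 4 * R) (z : P) :
    ‖∑ j, conj (Am (Φ j) K x y) * Sm K x z * Tm (Φ j) K z y‖ ^ 2
      ≤ 4 * R * (cc K x y * ‖Sm K x z‖ ^ 2 * ∑ j, ‖Tm (Φ j) K z y‖ ^ 2) := by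
  refine (pow_le_pow_left₀ (norm_nonneg _) (norm_sum_le _ _) 2).trans ?_
  simp only [norm_mul, Complex.norm_conj, mul_assoc]
  refine (sum_mul_sq_le_sq_mul_sq _ _ _).trans ?_
  simp only [sum_Am, mul_pow, ← mul_sum]
  have h1 := mul_le_mul_of_nonneg_left h (mul_nonneg (cc_nonneg K x y)
    (show 0 ≤ ‖Sm K x z‖ ^ 2 * ∑ j, ‖Tm (Φ j) K z y‖ ^ 2 by positivity))
  linarith

end mat

variable {L : Lat} {K : L.Mat}

theorem T2_nonneg (p q : L.P) : 0 ≤ L.T2 K p q := by unfold Lat.T2; positivity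

theorem ph_nonneg (x y : L.P) : 0 ≤ L.ph K x y :=
  div_nonneg (mul_nonneg (cc_nonneg _ _ _) (T2_nonneg _ _))
    (add_nonneg (mul_nonneg (dd_nonneg _ _) (dd_nonneg _ _)) (cc_nonneg _ _ _))

theorem XX_nonneg (x y z : L.P) : 0 ≤ L.XX K x y z := by
  have := cc_nonneg K x y; have := cc_nonneg K x z; have := T2_nonneg (K := K) z y
  have := dd_nonneg K x; have := dd_nonneg K y; have := dd_nonneg K z
  unfold Lat.XX
  positivity

/-- the part inside `Z` -/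
theorem ins (hK : IsPort K) {N Z : Finset L.P} (hNZ : N ⊆ Z) {y : L.P} {R Mb s : ℝ} (hR : 0 ≤ R)
    (hs : 0 < s) (hw : ∀ x ∈ N, wt (L.Phi L.N) x y ≤ 4 * R) (hd : ∀ x ∈ N, 0 < dd K x)
    (hy : 0 < dd K y) (hM : 1 + ∑ z ∈ Z, dd K z ≤ Mb) :
    ‖∑ z ∈ Z, ∑ j, (∑ x ∈ N, conj (Am (L.Phi L.N j) K x y) * Sm K x z) * Tm (L.Phi L.N j) K z y‖
      ≤ 3 * s * Mb ^ 2 * dd K y + 32 * (R / s) * (L.GN K y + ∑ x ∈ N.erase y,
        (L.ph K x y + ∑ z ∈ (Z.erase y).erase x, L.XX K x y z)) := by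
  set τ : L.P → L.P → ℝ := fun x z =>
    ‖∑ j, conj (Am (L.Phi L.N j) K x y) * Sm K x z * Tm (L.Phi L.N j) K z y‖ with hτ
  have hm : 0 ≤ ∑ z ∈ Z, dd K z := sum_nonneg fun z _ => dd_nonneg K z
  have hM1 : 1 ≤ Mb := by linarith
  have h0 : ‖∑ z ∈ Z, ∑ j, (∑ x ∈ N, conj (Am (L.Phi L.N j) K x y) * Sm K x z)
      * Tm (L.Phi L.N j) K z y‖ ≤ ∑ x ∈ N.erase y, ∑ z ∈ Z, τ x z := by
    simp only [sum_mul]
    rw [sum_erase _ (by simp [hτ, Am]), sum_comm (s := N)]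
    refine (norm_sum_le _ _).trans (sum_le_sum fun z _ => ?_)
    rw [sum_comm]
    exact norm_sum_le _ _
  have h1 : ∀ x ∈ N.erase y, ∑ z ∈ Z, τ x z
      ≤ s * (cc K x y + (dd K x * dd K y + cc K x y) * (1 + Mb)) + R / s * (cc K x y * L.T2 K y y
        + (L.ph K x y + ∑ z ∈ (Z.erase y).erase x, L.XX K x y z)) := fun x hx => by
    obtain ⟨hxy, hx⟩ := mem_erase.1 hx
    have hdx := hd x hx
    have hc := cc_nonneg K x y
    have a1 : τ x y ≤ s * cc K x y + R / s * (cc K x y * L.T2 K y y) :=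
      amgm hc (mul_nonneg hc (T2_nonneg _ _)) hR hs ((tau_sq (hw x hx) y).trans (le_of_eq (by
        simp only [Sm, hxy, if_false, zero_add, cc, Lat.T2]; ring)))
    have a2 : τ x x ≤ s * (dd K x * dd K y + cc K x y) + R / s * L.ph K x y :=
      amgm (by positivity) (ph_nonneg _ _) hR hs ((tau_sq (hw x hx) x).trans (by
        rw [Lat.ph, mul_div_cancel₀ _ (by positivity)]
        exact mul_le_mul_of_nonneg_left (mul_le_mul_of_nonneg_right
          (mul_le_of_le_one_right hc (norm_S_le hK x)) (T2_nonneg _ _)) (by positivity)))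
    have a3 : ∀ z ∈ (Z.erase y).erase x, τ x z ≤ s * ((dd K x * dd K y + cc K x y)
        * (dd K z + cc K x z / dd K x)) + R / s * L.XX K x y z := fun z hz => by
      have hxz := (mem_erase.1 hz).1.symm
      have hcz := cc_nonneg K x z
      have hdz := dd_nonneg K z
      refine amgm (by positivity) (XX_nonneg _ _ _) hR hs ((tau_sq (hw x hx) z).trans ?_)
      have e : ‖Sm K x z‖ ^ 2 = cc K x z := by simp only [Sm, hxz, if_false, zero_add, cc]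
      rw [e]
      rcases hcz.eq_or_lt with h | h
      · rw [← h, mul_zero, zero_mul, mul_zero]
        have := XX_nonneg (K := K) x y z
        positivity
      · refine le_of_eq ?_
        rw [Lat.XX, Lat.T2]
        field_simp
    have a4 : ∑ z ∈ (Z.erase y).erase x, (dd K z + cc K x z / dd K x) ≤ Mb := by
      rw [sum_add_distrib, ← sum_div]
      have b1 : ∑ z ∈ (Z.erase y).erase x, dd K z ≤ ∑ z ∈ Z, dd K z :=
        sum_le_sum_of_subset_of_nonneg ((erase_subset _ _).trans (erase_subset _ _))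
          fun z _ _ => dd_nonneg K z
      have b2 : (∑ z ∈ (Z.erase y).erase x, cc K x z) / dd K x ≤ 1 := (div_le_one hdx).2
        (sum_le_sum_of_subset_of_nonneg (subset_univ _) fun z _ _ => cc_nonneg K x z)
      linarith
    have a5 := sum_le_sum a3
    rw [sum_add_distrib, ← mul_sum, ← mul_sum, ← mul_sum] at a5
    have a6 := mul_le_mul_of_nonneg_left (mul_le_mul_of_nonneg_left a4
      (show 0 ≤ dd K x * dd K y + cc K x y by positivity)) hs.le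
    linarith [sum_le_three Z (f := τ x) (fun z => norm_nonneg _) x y]
  refine h0.trans ((sum_le_sum h1).trans ?_)
  have c1 : ∑ x ∈ N.erase y, cc K x y ≤ dd K y := by
    simp only [hK.cc_symm _ y]
    exact sum_le_sum_of_subset_of_nonneg (subset_univ _) fun z _ _ => cc_nonneg K y z
  have c2 : ∑ x ∈ N.erase y, dd K x ≤ ∑ z ∈ Z, dd K z :=
    sum_le_sum_of_subset_of_nonneg ((erase_subset _ _).trans hNZ) fun z _ _ => dd_nonneg K z
  have c3 : dd K y * L.T2 K y y ≤ 32 * L.GN K y := by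
    have e : L.T2 K y y = L.GN K y * nu K y := by
      rw [Lat.GN, Gn, div_mul_cancel₀ _ (hy.trans_le (dd_le_nu K y)).ne']
      simp only [Lat.T2, hK.T_diag, Complex.norm_real, Real.norm_eq_abs, sq_abs]
    have := Gn_nonneg (L.Phi L.N) K y
    have h4 := hK.dd_le y
    have h5 : dd K y * nu K y ≤ 32 := by nlinarith [nu_le K y]
    rw [e, mul_left_comm, mul_comm]
    exact mul_le_mul_of_nonneg_right h5 this
  have c4 : 0 ≤ ∑ x ∈ N.erase y, (L.ph K x y + ∑ z ∈ (Z.erase y).erase x, L.XX K x y z) :=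
    sum_nonneg fun x _ => add_nonneg (ph_nonneg _ _) (sum_nonneg fun z _ => XX_nonneg _ _ _)
  rw [sum_add_distrib, ← mul_sum, ← mul_sum, sum_add_distrib, sum_add_distrib (f := fun x =>
    cc K x y * L.T2 K y y), ← sum_mul, ← sum_mul, sum_add_distrib, ← sum_mul]
  have c5 : ∑ x ∈ N.erase y, cc K x y + ((∑ x ∈ N.erase y, dd K x) * dd K y
      + ∑ x ∈ N.erase y, cc K x y) * (1 + Mb) ≤ 3 * Mb ^ 2 * dd K y := by
    have d1 : (∑ x ∈ N.erase y, dd K x) * dd K y + ∑ x ∈ N.erase y, cc K x y ≤ Mb * dd K y := by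
      nlinarith
    have d2 := mul_le_mul_of_nonneg_right d1 (show 0 ≤ 1 + Mb by positivity)
    have d3 : (1 + Mb * (1 + Mb)) * dd K y ≤ 3 * Mb ^ 2 * dd K y :=
      mul_le_mul_of_nonneg_right (by nlinarith) hy.le
    linarith
  have c6 := mul_le_mul_of_nonneg_right c1 (T2_nonneg (K := K) y y)
  have c7 := mul_le_mul_of_nonneg_left c5 hs.le
  have c8 := mul_le_mul_of_nonneg_left (show (∑ x ∈ N.erase y, cc K x y) * L.T2 K y y
    + ∑ x ∈ N.erase y, (L.ph K x y + ∑ z ∈ (Z.erase y).erase x, L.XX K x y z) ≤ 32 * (L.GN K y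
    + ∑ x ∈ N.erase y, (L.ph K x y + ∑ z ∈ (Z.erase y).erase x, L.XX K x y z)) by linarith)
    (show 0 ≤ R / s by positivity)
  linarith

/-- **the matrix estimate** -/
theorem mat (hK : IsPort K) {V N Z : Finset L.P} (hNZ : N ⊆ Z) (o : L.P) {R Mb s l : ℝ}
    (hR : 0 ≤ R) (hs : 0 < s) (hl : 0 < l) (hN : ∀ x ∈ N, L.r2 x o ≤ R ∧ 0 < dd K x)
    (hV : ∀ y ∈ V, L.r2 y o ≤ R ∧ 0 < dd K y) (hM : 1 + ∑ z ∈ Z, dd K z ≤ Mb) :
    ∑ y ∈ V, ∑ x ∈ N, cc K y x * L.r2 y x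
      ≤ l * ∑ y ∈ V, Gam L.r2 K y + R / l * ∑ x ∈ N, ∑ z ∈ Zᶜ, cc K x z
        + ∑ y ∈ V, (3 * s * Mb ^ 2 * dd K y + 32 * (R / s) * (L.GN K y + ∑ x ∈ N.erase y,
          (L.ph K x y + ∑ z ∈ (Z.erase y).erase x, L.XX K x y z))) := by
  have e : wt (L.Phi L.N) = L.r2 := L.wt_Phi L.N
  have hN' : ∀ x ∈ N, ∑ j, (L.Phi L.N j x - L.Phi L.N j o) ^ 2 ≤ R := fun x hx => by
    have := (hN x hx).1
    rwa [← e] at this
  have hV' : ∀ x ∈ V, ∑ j, (L.Phi L.N j x - L.Phi L.N j o) ^ 2 ≤ R := fun x hx => by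
    have := (hV x hx).1
    rwa [← e] at this
  have h1 := out hK hNZ hR hN' hV' hl
  rw [e] at h1
  refine le_trans ?_ (add_le_add h1 (sum_le_sum fun y hy => ins hK hNZ hR hs
    (fun x hx => wt_le (hN' x hx) (hV' y hy)) (fun x hx => (hN x hx).2) (hV y hy).2 hM))
  rw [← sum_add_distrib]
  refine sum_le_sum fun y _ => le_trans ?_ (norm_add_le _ _)
  rw [add_comm, sum_add_sum_compl, ← ident hK, e, Complex.norm_real]
  simp only [hK.cc_symm y, L.rx_eq, L.rx_symm y.1]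
  exact le_abs_self _

end Crest.Agent.N334.G.E1
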