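import Crest.Agent.N334.G.E1a

/-!
# Row 334, S0519 GAIN: (E) rigidity, the cell estimate and the sums over scales
-/

set_option autoImplicit false

open MeasureTheory Finset Complex
open scoped BigOperators ComplexConjugate

noncomputable section

namespace Crest.Agent.N334.G.E1

variable {L : Lat} {K : L.Mat}

/-- active ports -/
def act (L : Lat) : L.X ↪ L.P := ⟨fun x => (x, true), fun _ _ h => congrArg Prod.fst h⟩

theorem act_apply (x : L.X) : act L x = (x, true) := rfl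

theorem mem_act {S : Finset L.X} {q : L.P} : q ∈ S.map (act L) ↔ q.2 = true ∧ q.1 ∈ S := by
  obtain ⟨x, b⟩ := q
  simp only [mem_map, act_apply, Prod.mk.injEq]
  exact ⟨fun ⟨a, h, e, e'⟩ => ⟨e'.symm, e ▸ h⟩, fun h => ⟨x, h.2, rfl, h.1.symm⟩⟩

theorem sum_true_le (S : Finset L.X) {a : L.P → ℝ} (ha : ∀ p, 0 ≤ a p) :
    ∑ y ∈ S, a (y, true) ≤ ∑ p, a p :=
  (sum_map S (act L) a).ge.trans
    (sum_le_sum_of_subset_of_nonneg (subset_univ _) fun p _ _ => ha p)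

theorem r2_nonneg (p q : L.P) : 0 ≤ L.r2 p q := L.rx_nonneg _ _
theorem nn_nonneg (p : L.P) (m : ℕ) : 0 ≤ L.nn K p m := Gam_nonneg (L.wh_nonneg m) K p
theorem G_nonneg (p : L.P) : 0 ≤ Gam L.r2 K p := Gam_nonneg r2_nonneg K p
theorem nn_le (p : L.P) (m : ℕ) : L.nn K p m ≤ 67 * dd K p := by
  rw [← L.th_mul]
  exact mul_le_mul_of_nonneg_right (L.th_le K p m) (dd_nonneg K p)
theorem nn_le_G {m : ℕ} (hm : m < L.N) (p : L.P) : 4 ^ m * L.nn K p m ≤ Gam L.r2 K p := by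
  rw [← L.sum_nn]
  exact single_le_sum (f := fun m => 4 ^ m * L.nn K p m)
    (fun m _ => mul_nonneg (by positivity) (nn_nonneg p m)) (mem_range.2 hm)
theorem dd_pos {p : L.P} {m : ℕ} (h : 0 < L.th K p m) : 0 < dd K p :=
  (dd_nonneg K p).lt_of_ne fun e => by simp [Lat.th, ← e] at h
theorem one_le_th {p : L.P} {m : ℕ} {j : ℝ} (h : Real.exp (-j) ≤ L.th K p m) :
    1 ≤ Real.exp j * L.th K p m := by
  have := mul_le_mul_of_nonneg_left h (Real.exp_pos j).le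
  rwa [← Real.exp_add, add_neg_cancel, Real.exp_zero] at this
theorem dd_le_nn {p : L.P} {m : ℕ} {κ : ℝ} (h : 1 ≤ κ * L.th K p m) :
    dd K p ≤ κ * L.nn K p m := by
  rw [← L.th_mul, ← mul_assoc]
  exact le_mul_of_one_le_left (dd_nonneg K p) h

section depth
variable {Y : Finset L.X} {i j : ℝ} {m : ℕ}

theorem gd_le {y : L.X} (hy : y ∈ Y) (h : Real.exp (-j) ≤ L.th K (y, true) m) :
    L.gd Y i K (y, true) m ≤ j := by
  rw [Lat.gd, if_pos ⟨rfl, hy⟩, neg_le, Real.le_log_iff_exp_le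
    (add_pos_of_nonneg_of_pos (L.th_nonneg K _ m) (Real.exp_pos _))]
  exact h.trans (le_add_of_nonneg_right (Real.exp_pos _).le)

theorem two_exp_le {a b : ℝ} (h : a + 1 ≤ b) : 2 * Real.exp a ≤ Real.exp b := by
  refine le_trans ?_ (Real.exp_le_exp.2 h)
  rw [Real.exp_add, mul_comm]
  exact mul_le_mul_of_nonneg_left (by linarith [Real.add_one_le_exp 1]) (Real.exp_pos a).le

theorem th_of_gd {y : L.X} (hy : y ∈ Y) (hi : j + 1 ≤ i) (h : L.gd Y i K (y, true) m ≤ j) :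
    Real.exp (-i) ≤ L.th K (y, true) m ∧ 1 ≤ 2 * Real.exp j * L.th K (y, true) m := by
  rw [Lat.gd, if_pos ⟨rfl, hy⟩, neg_le, Real.le_log_iff_exp_le
    (add_pos_of_nonneg_of_pos (L.th_nonneg K _ m) (Real.exp_pos _))] at h
  have h1 := two_exp_le (show -i + 1 ≤ -j by linarith)
  refine ⟨by linarith, ?_⟩
  have h2 := mul_le_mul_of_nonneg_left (show Real.exp (-j) ≤ 2 * L.th K (y, true) m by linarith)
    (Real.exp_pos j).le
  rw [← Real.exp_add, add_neg_cancel, Real.exp_zero] at h2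
  linarith

theorem le_gd {p : L.P} (h : ¬ (p.2 = true ∧ p.1 ∈ Y ∧ Real.exp (-i) ≤ L.th K p m)) :
    i - 1 ≤ L.gd Y i K p m := by
  rw [Lat.gd]
  split_ifs with h1
  · have h2 : L.th K p m < Real.exp (-i) := not_le.1 fun h' => h ⟨h1.1, h1.2, h'⟩
    rw [le_neg, Real.log_le_iff_le_exp
      (add_pos_of_nonneg_of_pos (L.th_nonneg K _ m) (Real.exp_pos _))]
    linarith [two_exp_le (show -i + 1 ≤ -(i - 1) by linarith)]
  · linarith

end depth

/-! ### counting centres -/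

theorem count_le (S : Finset L.X) {a : L.X → ℝ} (ha : ∀ y ∈ S, 0 ≤ a y) {R : ℝ} (hR : 1 ≤ R) :
    ∑ c, ∑ y ∈ S.filter (fun y => L.rx y c ≤ R), a y ≤ 3 * R * ∑ y ∈ S, a y := by
  simp only [sum_filter]
  rw [sum_comm, mul_sum]
  refine sum_le_sum fun y hy => ?_
  rw [← sum_filter, sum_const, nsmul_eq_mul]
  exact mul_le_mul_of_nonneg_right ((L.ball_le y R (by linarith)).trans (by linarith)) (ha y hy)

theorem count_ge (S : Finset L.X) {a : L.X → ℝ} (ha : ∀ y ∈ S, 0 ≤ a y) {m : ℕ} (hm : m < L.N) :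
    4 ^ m * ∑ y ∈ S, a y ≤ 400 * ∑ c, ∑ y ∈ S.filter (fun y => L.rx y c ≤ 4 ^ m), a y := by
  simp only [sum_filter]
  rw [sum_comm, mul_sum, mul_sum]
  refine sum_le_sum fun y hy => ?_
  rw [← sum_filter, sum_const, nsmul_eq_mul, ← mul_assoc]
  exact mul_le_mul_of_nonneg_right (L.ball_ge y m hm) (ha y hy)

/-! ### the three error terms -/

variable (K) in
/-- mass sent far away -/
def far (Λ : ℝ) (m : ℕ) (y : L.X) : ℝ :=
  ∑ q, if Λ * 4 ^ m ≤ 4 * L.r2 (y, true) q then cc K (y, true) q else 0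
variable (K) in
/-- mass sent to deep ports -/
def deep (Y : Finset L.X) (i j : ℝ) (m : ℕ) (y : L.X) : ℝ :=
  ∑ q, if j ≤ L.gd Y i K q m then cc K (y, true) q else 0
variable (K) in
/-- mass sent to bad shallow ports -/
def bad (Y Gd : Finset L.X) (i j : ℝ) (m : ℕ) (y : L.X) : ℝ :=
  ∑ x ∈ (Y \ Gd).filter (fun x => L.gd Y i K (x, true) m ≤ j), cc K (y, true) (x, true)

theorem far_nonneg (Λ : ℝ) (m : ℕ) (y : L.X) : 0 ≤ far K Λ m y :=
  sum_nonneg fun _ _ => ite_nonneg (cc_nonneg _ _ _) le_rfl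
theorem deep_nonneg (Y : Finset L.X) (i j : ℝ) (m : ℕ) (y : L.X) : 0 ≤ deep K Y i j m y :=
  sum_nonneg fun _ _ => ite_nonneg (cc_nonneg _ _ _) le_rfl
theorem bad_nonneg (Y Gd : Finset L.X) (i j : ℝ) (m : ℕ) (y : L.X) : 0 ≤ bad K Y Gd i j m y :=
  sum_nonneg fun _ _ => cc_nonneg _ _ _

theorem sum_far {Λ : ℝ} (hΛ : 0 < Λ) (S : ℕ → Finset L.X) :
    ∑ m ∈ range L.N, ∑ y ∈ S m, 4 ^ m * far K Λ m y ≤ 16 / (3 * Λ) * En L.r2 K := by
  refine (sum_le_sum fun m _ => sum_true_le (S m) (a := fun p => 4 ^ m *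
    ∑ q, if Λ * 4 ^ m ≤ 4 * L.r2 p q then cc K p q else 0) fun p => mul_nonneg (by positivity)
      (sum_nonneg fun _ _ => ite_nonneg (cc_nonneg _ _ _) le_rfl)).trans ?_
  rw [sum_comm, En, mul_sum]
  refine sum_le_sum fun p _ => ?_
  simp only [mul_sum, Gam]
  rw [sum_comm]
  refine sum_le_sum fun q _ => ?_
  have h := mul_le_mul_of_nonneg_right (sum_pow_le L.N
    (show 0 ≤ 4 * L.r2 p q / Λ from div_nonneg (by linarith [r2_nonneg p q]) hΛ.le))
    (cc_nonneg K p q)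
  simp only [sum_filter, sum_mul, le_div_iff₀ hΛ, mul_comm _ Λ, ite_mul, zero_mul] at h
  simp only [mul_ite, mul_zero]
  exact h.trans (le_of_eq (by field_simp; ring))

theorem sum_deep {Y : Finset L.X} {i j j' κ : ℝ} (hκ : 0 ≤ κ) {S : ℕ → Finset L.X}
    (hS : ∀ m, ∀ y ∈ S m, y ∈ Y ∧ L.gd Y i K (y, true) m ≤ j ∧ 1 ≤ κ * L.th K (y, true) m) :
    ∑ m ∈ range L.N, ∑ y ∈ S m, 4 ^ m * deep K Y i j' m y ≤ κ * L.Hub Y Y i j j' K := by
  rw [Lat.Hub, sum_comm (s := Y), mul_sum]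
  refine sum_le_sum fun m _ => ?_
  rw [mul_sum]
  refine le_trans (sum_le_sum fun y hy => ?_) (sum_le_sum_of_subset_of_nonneg
    (fun y hy => (hS m y hy).1) fun y _ _ => mul_nonneg hκ (ite_nonneg (mul_nonneg
      (mul_nonneg (by positivity) (L.th_nonneg K _ m)) (deep_nonneg Y i j' m y)) le_rfl))
  rw [if_pos (hS m y hy).2.1]
  have := mul_le_mul_of_nonneg_right (hS m y hy).2.2
    (show 0 ≤ 4 ^ m * deep K Y i j' m y from mul_nonneg (by positivity) (deep_nonneg Y i j' m y))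
  unfold deep at this ⊢
  linarith

theorem sum_nn_le (S : ℕ → Finset L.X) {Y : Finset L.X} (hS : ∀ m, S m ⊆ Y) :
    ∑ m ∈ range L.N, ∑ y ∈ S m, 4 ^ m * L.nn K (y, true) m ≤ ∑ y ∈ Y, Gam L.r2 K (y, true) := by
  simp only [← L.sum_nn]
  rw [sum_comm (s := Y)]
  exact sum_le_sum fun m _ => sum_le_sum_of_subset_of_nonneg (hS m)
    fun y _ _ => mul_nonneg (by positivity) (nn_nonneg _ m)

theorem sum_dd {κ : ℝ} (hκ : 0 ≤ κ) {S : ℕ → Finset L.X} {Y : Finset L.X} (hY : ∀ m, S m ⊆ Y)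
    (hS : ∀ m, ∀ y ∈ S m, 1 ≤ κ * L.th K (y, true) m) :
    ∑ m ∈ range L.N, ∑ y ∈ S m, 4 ^ m * dd K (y, true)
      ≤ κ * ∑ y ∈ Y, Gam L.r2 K (y, true) := by
  refine le_trans ?_ (mul_le_mul_of_nonneg_left (sum_nn_le S hY) hκ)
  simp only [mul_sum]
  refine sum_le_sum fun m _ => sum_le_sum fun y hy => ?_
  rw [mul_left_comm]
  exact mul_le_mul_of_nonneg_left (dd_le_nn (hS m y hy)) (by positivity)

theorem sum_bad (hK : IsPort K) {Y Gd : Finset L.X} {i j : ℝ} (hi : j + 1 ≤ i)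
    (S : ℕ → Finset L.X) : ∑ m ∈ range L.N, ∑ y ∈ S m, 4 ^ m * bad K Y Gd i j m y
      ≤ 2 * Real.exp j * ∑ y ∈ Y \ Gd, Gam L.r2 K (y, true) := by
  refine le_trans (sum_le_sum fun m _ => ?_) (sum_dd (by positivity)
    (S := fun m => (Y \ Gd).filter fun x => L.gd Y i K (x, true) m ≤ j)
    (fun m => filter_subset _ _) fun m y hy =>
      (th_of_gd (mem_sdiff.1 (mem_filter.1 hy).1).1 hi (mem_filter.1 hy).2).2)
  simp only [← mul_sum, bad]
  rw [sum_comm]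
  refine mul_le_mul_of_nonneg_left (sum_le_sum fun x _ => ?_) (by positivity)
  simp only [fun y => hK.cc_symm (y, true) (x, true)]
  exact sum_true_le (S m) (cc_nonneg K (x, true))

/-! ### one cell -/

theorem far_of {x z c : L.X} {a b Λ : ℝ} (hx : L.rx x c ≤ a) (hz : ¬ L.rx z c ≤ b)
    (h : Λ + 4 * a ≤ 2 * b) : Λ ≤ 4 * L.rx x z := by
  have := L.rx_le_two z x c
  rw [L.rx_symm z x] at this
  linarith [not_le.1 hz]

/-- the energy of `y` at scale `m` -/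
theorem nn_split {Y Gd : Finset L.X} {i j Λ : ℝ} (hi : j ≤ i) (hΛ : 4 ≤ Λ) {m : ℕ} (hm : m < L.N)
    {y c : L.X} (hy : L.rx y c ≤ 4 ^ m) : 4 ^ m * L.nn K (y, true) m
      ≤ 67 * (4 ^ m * far K Λ m y + 4 ^ m * deep K Y i j m y + 4 ^ m * bad K Y Gd i j m y)
        + ∑ q ∈ ((Gd.filter fun x => L.gd Y i K (x, true) m ≤ j).filter
          fun x => L.rx x c ≤ Λ * 4 ^ m).map (act L), cc K (y, true) q * L.r2 (y, true) q := by
  have e : bad K Y Gd i j m y = ∑ q ∈ ((Y \ Gd).filter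
      fun x => L.gd Y i K (x, true) m ≤ j).map (act L), cc K (y, true) q := by
    rw [sum_map]; rfl
  rw [e, ← Fintype.sum_ite_mem (map _ _), ← Fintype.sum_ite_mem (map _ _)]
  simp only [Lat.nn, Gam, far, deep, mul_sum, ← sum_add_distrib]
  refine sum_le_sum fun q _ => ?_
  have hc := cc_nonneg K (y, true) q
  have h4 : (0 : ℝ) < 4 ^ m := by positivity
  have h1 : 4 ^ m * (cc K (y, true) q * L.wh m (y, true) q) ≤ 67 * (4 ^ m * cc K (y, true) q) := by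
    nlinarith [mul_le_mul_of_nonneg_left (L.wh_le m (y, true) q) (mul_nonneg h4.le hc)]
  have h2 : 4 ^ m * (cc K (y, true) q * L.wh m (y, true) q)
      ≤ cc K (y, true) q * L.r2 (y, true) q := by
    rw [mul_left_comm]
    exact mul_le_mul_of_nonneg_left (wh_le_r2 L hm _ _) hc
  have h3 := mul_nonneg h4.le hc
  have h5 := mul_nonneg hc (r2_nonneg (y, true) q)
  split_ifs with a b c' d <;> try linarith
  exfalso
  obtain ⟨x, s⟩ := q
  simp only [mem_act, mem_filter, mem_sdiff] at *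
  have k1 : s = true ∧ x ∈ Y := by
    by_contra hn
    rw [Lat.gd, if_neg hn] at *
    contradiction
  obtain ⟨rfl, k2⟩ := k1
  have k3 : L.gd Y i K (x, true) m ≤ j := le_of_not_ge ‹_›
  have k4 : L.rx x c ≤ Λ * 4 ^ m := by
    by_contra hn
    exact a (far_of hy hn (by nlinarith))
  tauto

theorem psi_ge {i1 l : ℝ} (hl : 0 < l) {m : ℕ} (hm : m < L.N) {p : L.P}
    (h1 : Real.exp (-i1) ≤ L.th K p m) (h2 : l * Gam L.r2 K p ≤ 4 ^ m * dd K p) :
    (l / (Real.exp i1 + 1) ^ 2) ^ (1 / 8 : ℝ) ≤ L.psi K p m := by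
  refine Real.rpow_le_rpow (by positivity) ?_ (by norm_num)
  have hd := dd_pos ((Real.exp_pos _).trans_le h1)
  have h3 : 4 ^ m * dd K p ≤ Real.exp i1 * Gam L.r2 K p := by
    refine (mul_le_mul_of_nonneg_left (dd_le_nn (one_le_th h1)) (by positivity)).trans ?_
    rw [mul_left_comm]
    exact mul_le_mul_of_nonneg_left (nn_le_G hm p) (Real.exp_pos _).le
  have hG := G_nonneg (K := K) p
  rw [div_le_div_iff₀ (by positivity) (by positivity)]
  have h4 : (4 ^ m * dd K p + Gam L.r2 K p) ^ 2 ≤ ((Real.exp i1 + 1) * Gam L.r2 K p) ^ 2 :=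
    pow_le_pow_left₀ (by positivity) (by linarith) 2
  have h5 := mul_le_mul_of_nonneg_right h2
    (show 0 ≤ Gam L.r2 K p * (Real.exp i1 + 1) ^ 2 by positivity)
  nlinarith [mul_le_mul_of_nonneg_left h4 hl.le]

theorem Om_nonneg (i : ℝ) (m : ℕ) (x z : L.P) : 0 ≤ L.Om i K m x z := by
  have := nn_nonneg (K := K) z m; have := cc_nonneg K x z
  have := dd_nonneg K x; have := dd_nonneg K z
  unfold Lat.Om
  positivity

theorem one_le_Om {i : ℝ} {m : ℕ} (x : L.P) {z : L.P} (h : Real.exp (-i) ≤ L.th K z m) :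
    1 ≤ L.Om i K m x z := by
  have := dd_pos ((Real.exp_pos _).trans_le h)
  have := cc_nonneg K x z
  have := dd_nonneg K x
  rw [Lat.Om, le_div_iff₀ (by positivity), one_mul]
  linarith [dd_le_nn (one_le_th h)]

variable (K) in
/-- valid sites at scale `m` -/
def Vm (Y : Finset L.X) (i1 l : ℝ) (m : ℕ) : Finset L.X := Y.filter fun y =>
  Real.exp (-i1) ≤ L.th K (y, true) m ∧ l * Gam L.r2 K (y, true) ≤ 4 ^ m * dd K (y, true)

theorem main_term_nonneg (Y S : Finset L.X) (i Λ2 : ℝ) (c : L.X) (m : ℕ) (y : L.X) :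
    0 ≤ L.GN K (y, true) + ∑ x ∈ S, (L.ph K (x, true) (y, true) +
        ∑ z ∈ ((Y.erase y).erase x).filter (fun z => L.rx z c ≤ Λ2 * 4 ^ m),
          L.Om i K m (x, true) (z, true) * L.XX K (x, true) (y, true) (z, true)) :=
  add_nonneg (Gn_nonneg _ _ _) (sum_nonneg fun _ _ => add_nonneg (ph_nonneg _ _)
    (sum_nonneg fun _ _ => mul_nonneg (Om_nonneg _ _ _ _) (XX_nonneg _ _ _)))

theorem Main_nonneg (Y Gd : Finset L.X) (i Λ2 : ℝ) (c : L.X) (m : ℕ) :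
    0 ≤ L.Main Y Gd i Λ2 K c m :=
  sum_nonneg fun y _ => mul_nonneg (psi_nonneg L K _ m) (main_term_nonneg Y _ i Λ2 c m y)

/-- **the cell estimate** -/
theorem cell (hK : IsPort K) {Y Gd : Finset L.X} (hG : Gd ⊆ Y) {i1 i2 i l Λ1 Λ2 l1 l2 Mb : ℝ}
    (hi : i2 + 1 ≤ i) (hl : 0 < l) (hl1 : 0 < l1) (hl2 : 0 < l2) (h1 : 4 ≤ Λ1) (h2 : 4 * Λ1 ≤ Λ2)
    {m : ℕ} (hm : m < L.N) (c : L.X)
    (hM : 1 + ∑ z ∈ Y.filter (fun z => Real.exp (-i) ≤ L.th K (z, true) m ∧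
      L.rx z c ≤ Λ2 * 4 ^ m), dd K (z, true) ≤ Mb) :
    ∑ y ∈ (Vm K Y i1 l m).filter (fun y => L.rx y c ≤ 4 ^ m), 4 ^ m * L.nn K (y, true) m
      ≤ ∑ y ∈ (Vm K Y i1 l m).filter (fun y => L.rx y c ≤ 4 ^ m),
          (67 * (4 ^ m * far K Λ1 m y + 4 ^ m * deep K Y i i2 m y + 4 ^ m * bad K Y Gd i i2 m y)
            + (l1 / l + 3 * l2) * (4 ^ m * dd K (y, true)))
        + Λ1 / l1 * ∑ x ∈ (Gd.filter fun x => L.gd Y i K (x, true) m ≤ i2).filter
            (fun x => L.rx x c ≤ Λ1 * 4 ^ m),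
            (4 ^ m * far K Λ2 m x + 4 ^ m * deep K Y i (i - 1) m x)
        + 32 * (Λ1 * Mb ^ 2 / l2) / (l / (Real.exp i1 + 1) ^ 2) ^ (1 / 8 : ℝ)
          * L.Main Y Gd i Λ2 K c m := by
  set V := (Vm K Y i1 l m).filter fun y => L.rx y c ≤ 4 ^ m
  set N := (Gd.filter fun x => L.gd Y i K (x, true) m ≤ i2).filter fun x => L.rx x c ≤ Λ1 * 4 ^ m
  set Z := Y.filter fun z => Real.exp (-i) ≤ L.th K (z, true) m ∧ L.rx z c ≤ Λ2 * 4 ^ m
  have h4 : (0 : ℝ) < 4 ^ m := by positivity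
  have hV : ∀ y ∈ V, (y ∈ Y ∧ Real.exp (-i1) ≤ L.th K (y, true) m ∧
      l * Gam L.r2 K (y, true) ≤ 4 ^ m * dd K (y, true)) ∧ L.rx y c ≤ 4 ^ m := fun y hy => by
    simpa only [V, Vm, mem_filter] using hy
  have hN : ∀ x ∈ N, x ∈ Gd ∧ Real.exp (-i) ≤ L.th K (x, true) m ∧ L.rx x c ≤ Λ1 * 4 ^ m ∧
      L.rx x c ≤ Λ2 * 4 ^ m := fun x hx => by
    obtain ⟨a, b⟩ := mem_filter.1 hx
    obtain ⟨a, a'⟩ := mem_filter.1 a
    exact ⟨a, (th_of_gd (hG a) hi a').1, b, b.trans (by nlinarith)⟩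
  have hM1 : 1 ≤ Mb := le_trans (le_add_of_nonneg_right (sum_nonneg fun _ _ => dd_nonneg K _)) hM
  have key := mat hK (V := V.map (act L)) (N := N.map (act L)) (Z := Z.map (act L))
    (map_subset_map.2 fun x hx => mem_filter.2 ⟨hG (hN x hx).1, (hN x hx).2.1, (hN x hx).2.2.2⟩)
    (c, true) (R := Λ1 * 4 ^ m) (Mb := Mb) (s := l2 * 4 ^ m / Mb ^ 2) (by positivity)
    (by positivity) hl1
    (forall_mem_map.2 fun x hx => ⟨(hN x hx).2.2.1, dd_pos ((Real.exp_pos _).trans_le (hN x hx).2.1)⟩)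
    (forall_mem_map.2 fun y hy => ⟨(hV y hy).2.trans (by nlinarith),
      dd_pos ((Real.exp_pos _).trans_le (hV y hy).1.2.1)⟩)
    (by rwa [sum_map])
  simp only [← map_erase, sum_map] at key
  simp only [act_apply] at key
  have k1 := sum_le_sum fun y hy => nn_split (K := K) (Y := Y) (Gd := Gd)
    (show i2 ≤ i by linarith) h1 hm (hV y hy).2
  simp only [sum_map, act_apply] at k1
  have k2 : l1 * ∑ y ∈ V, Gam L.r2 K (y, true) ≤ ∑ y ∈ V, l1 / l * (4 ^ m * dd K (y, true)) := by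
    rw [mul_sum]
    refine sum_le_sum fun y hy => ?_
    rw [div_mul_eq_mul_div, le_div_iff₀ hl, mul_assoc, mul_comm _ l]
    exact mul_le_mul_of_nonneg_left (hV y hy).1.2.2 hl1.le
  have k3 : Λ1 * 4 ^ m / l1 * ∑ x ∈ N, ∑ z ∈ (Z.map (act L))ᶜ, cc K (x, true) z
      ≤ Λ1 / l1 * ∑ x ∈ N, (4 ^ m * far K Λ2 m x + 4 ^ m * deep K Y i (i - 1) m x) := by
    simp only [← mul_add, ← mul_sum]
    rw [← mul_assoc, div_mul_eq_mul_div Λ1]
    refine mul_le_mul_of_nonneg_left (sum_le_sum fun x hx => ?_) (by positivity)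
    rw [← Fintype.sum_ite_mem (_ : Finset L.P)ᶜ, far, deep, ← sum_add_distrib]
    refine sum_le_sum fun z _ => ?_
    have hc := cc_nonneg K (x, true) z
    split_ifs with a b _ d <;> try linarith
    exfalso
    rw [mem_compl, mem_act, mem_filter] at a
    refine d (le_gd fun h => a ⟨h.1, h.2.1, by rw [← h.1]; exact h.2.2, ?_⟩)
    by_contra hn
    exact b (far_of (hN x hx).2.2.1 hn (by nlinarith))
  have hψ : 0 < (l / (Real.exp i1 + 1) ^ 2) ^ (1 / 8 : ℝ) := by positivity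
  have k4 : ∑ y ∈ V, (L.GN K (y, true) + ∑ x ∈ N.erase y, (L.ph K (x, true) (y, true)
      + ∑ z ∈ (Z.erase y).erase x, L.XX K (x, true) (y, true) (z, true)))
      ≤ L.Main Y Gd i Λ2 K c m / (l / (Real.exp i1 + 1) ^ 2) ^ (1 / 8 : ℝ) := by
    rw [le_div_iff₀ hψ, sum_mul]
    refine le_trans (sum_le_sum fun y hy => ?_) (sum_le_sum_of_subset_of_nonneg
      (fun y hy => mem_filter.2 ⟨(hV y hy).1.1, (hV y hy).2⟩) fun y _ _ =>
        mul_nonneg (psi_nonneg L K _ m) (main_term_nonneg Y _ i Λ2 c m y))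
    rw [mul_comm]
    refine mul_le_mul (psi_ge hl hm (hV y hy).1.2.1 (hV y hy).1.2.2) (add_le_add le_rfl
      (le_trans (sum_le_sum fun x _ => add_le_add le_rfl ?_) (sum_le_sum_of_subset_of_nonneg
        (fun x hx => ?_) fun x _ _ => add_nonneg (ph_nonneg _ _) (sum_nonneg fun _ _ =>
          mul_nonneg (Om_nonneg _ _ _ _) (XX_nonneg _ _ _)))))
      (add_nonneg (Gn_nonneg _ _ _) (sum_nonneg fun _ _ => add_nonneg (ph_nonneg _ _)
        (sum_nonneg fun _ _ => XX_nonneg _ _ _))) (psi_nonneg L K _ m)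
    · refine le_trans (sum_le_sum fun z hz => le_mul_of_one_le_left (XX_nonneg _ _ _) (one_le_Om _
        (mem_filter.1 (mem_of_mem_erase (mem_of_mem_erase hz))).2.1))
        (sum_le_sum_of_subset_of_nonneg (fun z hz => ?_) fun z _ _ =>
          mul_nonneg (Om_nonneg _ _ _ _) (XX_nonneg _ _ _))
      simp only [Z, mem_erase, mem_filter] at hz ⊢
      tauto
    · obtain ⟨a, b⟩ := mem_erase.1 hx
      exact mem_filter.2 ⟨mem_erase.2 ⟨a, (hN x b).1⟩, (hN x b).2.2.2, (hN x b).2.1⟩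
  have e1 : Λ1 * 4 ^ m / (l2 * 4 ^ m / Mb ^ 2) = Λ1 * Mb ^ 2 / l2 := by field_simp
  have e2 : 3 * (l2 * 4 ^ m / Mb ^ 2) * Mb ^ 2 = 3 * l2 * 4 ^ m := by field_simp
  rw [e1, e2, sum_add_distrib, ← mul_sum _ _ (32 * _)] at key
  have k5 := mul_le_mul_of_nonneg_left k4 (show 0 ≤ 32 * (Λ1 * Mb ^ 2 / l2) by positivity)
  rw [div_mul_eq_mul_div (32 * _), mul_div_assoc (32 * _)]
  simp only [add_mul, sum_add_distrib, mul_assoc (3 * l2)] at k1 k3 k5 key ⊢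
  linarith

end Crest.Agent.N334.G.E1
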