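import Crest.Agent.N334.G.Lift

/-!
# Row 334, S0519 GAIN: jump chains of levels and the derivative of ensemble averages
-/

set_option autoImplicit false

open MeasureTheory Finset Complex
open scoped BigOperators ComplexConjugate

noncomputable section

namespace Crest.Agent.N334.G

namespace Fl

/-- push-forward along `nxt` -/
def PP {α : Type} [Fintype α] [DecidableEq α] (nxt : α → α) : (α → ℝ) →L[ℝ] (α → ℝ) :=
  ContinuousLinearMap.pi fun l =>
    ∑ l' ∈ univ.filter (fun l' => nxt l' = l), ContinuousLinearMap.proj l'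

theorem PP_apply {α : Type} [Fintype α] [DecidableEq α] (nxt : α → α) (q : α → ℝ) (l : α) :
    PP nxt q l = ∑ l' ∈ univ.filter (fun l' => nxt l' = l), q l' := by
  simp [PP]

theorem PP_pow_nonneg {α : Type} [Fintype α] [DecidableEq α] (nxt : α → α) {q : α → ℝ}
    (hq : ∀ l, 0 ≤ q l) (k : ℕ) (l : α) : 0 ≤ (PP nxt ^ k) q l := by
  induction k generalizing l with
  | zero => simpa using hq l
  | succ k ih =>
    rw [pow_succ', mul_apply_eq_comp, PP_apply]
    exact sum_nonneg fun l' _ => ih l'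

theorem sum_swap {X α : Type} [Fintype X] [DecidableEq X] [Fintype α] (y : X)
    (G : (X → α) → α → ℝ) :
    ∑ lam, ∑ j, G lam j = ∑ lam, ∑ j, G (Function.update lam y j) (lam y) := by
  have h : Function.Involutive fun z : (X → α) × α => (Function.update z.1 y z.2, z.1 y) := by
    intro z; simp
  rw [← Fintype.sum_prod_type', ← Fintype.sum_prod_type']
  exact (Equiv.sum_comp h.toPerm fun z => G z.1 z.2).symm

theorem jump {X α : Type} [Fintype X] [DecidableEq X] [Fintype α] [DecidableEq α] (y : X)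
    (nx : α → α) (q : X → α → ℝ) (Q : (X → α) → ℝ) :
    ∑ lam : X → α, (∏ x ∈ univ.erase y, q x (lam x)) *
        (∑ l' ∈ univ.filter (fun l' => nx l' = lam y), q y l') * Q lam =
      ∑ lam : X → α, (∏ x, q x (lam x)) * Q (Function.update lam y (nx (lam y))) := by
  simp only [sum_filter, mul_sum, sum_mul]
  rw [sum_swap y]
  refine sum_congr rfl fun lam _ => ?_
  rw [sum_eq_single (nx (lam y))]
  · have : ∏ x ∈ univ.erase y, q x (Function.update lam y (nx (lam y)) x) =
        ∏ x ∈ univ.erase y, q x (lam x) :=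
      prod_congr rfl fun x hx => by rw [Function.update_of_ne (ne_of_mem_erase hx)]
    rw [this, Function.update_self, if_pos rfl, prod_erase_mul _ _ (mem_univ y)]
  · intro j _ hj
    rw [Function.update_self, if_neg (Ne.symm hj), mul_zero, zero_mul]
  · simp

theorem fac_le_one {n : ℕ} (j : Lv n) : fac j ≤ 1 := by
  cases j <;> simp [fac, inv_le_one_iff₀, one_le_pow₀]

theorem fac_hlf {n : ℕ} (j : Lv n) : fac (hlf j) - fac j ≤ -1 / 2 * fac j + (1 / 2) ^ n / 2 := by
  have hn : (0 : ℝ) ≤ (1 / 2) ^ n / 2 := by positivity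
  rcases j with _ | j
  · simpa [fac, hlf] using hn
  · by_cases h : (j : ℕ) + 1 < n + 1
    · simp only [hlf, dif_pos h, fac, pow_succ]
      linarith
    · have : (j : ℕ) = n := by have := j.2; omega
      simp only [hlf, dif_neg h, sub_self]
      simp only [fac, this]
      linarith

end Fl

open Fl

theorem exists_flow {n : ℕ} (nxt : Lv n → Lv n) : ∃ fl : (Lv n → ℝ) → ℝ → Lv n → ℝ,
    ∀ q0, (∀ l, 0 ≤ q0 l) → ∑ l, q0 l = 1 → fl q0 0 = q0 ∧ IsFlow nxt (fl q0) := by
  refine ⟨fun q0 t l => Real.exp (-t) * NormedSpace.exp (t • PP nxt) q0 l, fun q0 h0 h1 => ?_⟩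
  have hd : ∀ t l, HasDerivAt (fun s => Real.exp (-s) * NormedSpace.exp (s • PP nxt) q0 l)
      ((∑ l' ∈ univ.filter (fun l' => nxt l' = l),
        Real.exp (-t) * NormedSpace.exp (t • PP nxt) q0 l') -
        Real.exp (-t) * NormedSpace.exp (t • PP nxt) q0 l) t := by
    intro t l
    have h1 := (hasDerivAt_exp_smul_const' (PP nxt) t).clm_apply (hasDerivAt_const t q0)
    have h2 := (hasDerivAt_neg t).exp.mul (hasDerivAt_pi.1 h1 l)
    refine HasDerivAt.congr_deriv h2 ?_
    simp only [map_zero, add_zero, mul_apply_eq_comp, PP_apply, ← mul_sum]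
    ring
  refine ⟨by funext l; simp, fun t ht l => mul_nonneg (Real.exp_pos _).le ?_, fun t => ?_, hd⟩
  · have h := (NormedSpace.exp_series_hasSum_exp' (𝕂 := ℝ) (t • PP nxt)).mapL
      ((ContinuousLinearMap.proj l).comp (ContinuousLinearMap.apply ℝ (Lv n → ℝ) q0))
    refine h.nonneg fun k => ?_
    have := PP_pow_nonneg nxt h0 k l
    simp only [smul_pow, ContinuousLinearMap.comp_apply, ContinuousLinearMap.apply_apply,
      smul_apply, ContinuousLinearMap.proj_apply, Pi.smul_apply, smul_eq_mul]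
    positivity
  · have hs : ∀ t, HasDerivAt
        (fun s => ∑ l, Real.exp (-s) * NormedSpace.exp (s • PP nxt) q0 l) 0 t := by
      intro t
      refine HasDerivAt.congr_deriv (HasDerivAt.fun_sum fun l _ => hd t l) ?_
      rw [sum_sub_distrib, sum_fiberwise, sub_self]
    have := is_const_of_deriv_eq_zero (fun t => (hs t).differentiableAt) (fun t => (hs t).deriv) t 0
    simpa [h1] using this
theorem Ens.hasDerivAt_Ex {L : Lat} (e : Ens L) {n : ℕ} (nxt : e.Ω → L.X → Lv n → Lv n)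
    (q : ℝ → e.Ω → L.X → Lv n → ℝ) (hq : ∀ l x, IsFlow (nxt l x) fun t => q t l x)
    (Q : e.Ω → (L.X → Lv n) → ℝ) (t : ℝ) :
    HasDerivAt (fun s => e.Ex (q s) Q) (e.Ex (q t) fun l lam =>
      ∑ y, (Q l (Function.update lam y (nxt l y (lam y))) - Q l lam)) t := by
  unfold Ens.Ex
  refine HasDerivAt.fun_sum fun l _ => HasDerivAt.const_mul _ ?_
  refine HasDerivAt.congr_deriv (HasDerivAt.fun_sum fun lam _ => HasDerivAt.mul_const
    (HasDerivAt.fun_finsetProd fun x _ => (hq l x).deriv t (lam x)) (Q l lam)) ?_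
  simp only [smul_eq_mul, sum_mul, mul_sum (s := univ)]
  refine sum_comm.trans (Eq.trans (sum_congr rfl fun y _ => ?_) sum_comm)
  simp only [mul_sub, sub_mul, sum_sub_distrib]
  rw [jump y (nxt l y) (q t l) (Q l)]
  congr 1
  exact sum_congr rfl fun lam _ => by rw [prod_erase_mul _ _ (mem_univ y)]
/-- the derivative in terms of the static drift over the moving sites -/
theorem Ens.hasDerivAt_ExS {L : Lat} (e : Ens L) {n : ℕ} (nxt : e.Ω → L.X → Lv n → Lv n)
    (q : ℝ → e.Ω → L.X → Lv n → ℝ) (hq : ∀ l x, IsFlow (nxt l x) fun t => q t l x)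
    (hY : ∀ l x, x ∉ (e.S l).Y → (e.S l).γ x = 0 ∨ ∀ j, nxt l x j = j)
    (F : e.Ω → L.Mat → ℝ) (t : ℝ) :
    HasDerivAt (fun s => e.Ex (q s) fun l lam => ((e.S l).lev lam).I0 (F l))
      (e.Ex (q t) fun l lam => ((e.S l).lev lam).dr
        ((e.S l).Y.filter fun y => nxt l y (lam y) ≠ lam y)
        (fun y => (e.S l).γ y * fac (nxt l y (lam y))) (F l)) t := by
  refine HasDerivAt.congr_deriv (e.hasDerivAt_Ex nxt q hq _ t) ?_
  congr 1
  funext l lam
  have key : ∀ y, ((e.S l).lev (Function.update lam y (nxt l y (lam y)))).I0 (F l) =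
      ((e.S l).lev lam).Ig (Function.update ((e.S l).lev lam).γ y
        ((e.S l).γ y * fac (nxt l y (lam y)))) (F l) := by
    intro y
    have : ((e.S l).lev (Function.update lam y (nxt l y (lam y)))).γ =
        Function.update ((e.S l).lev lam).γ y ((e.S l).γ y * fac (nxt l y (lam y))) := by
      funext x
      by_cases hx : x = y
      · subst hx; simp [Stat.lev]
      · simp [Stat.lev, hx]
    rw [Stat.I0, this]; rfl
  simp only [key, Stat.dr]
  symm
  refine sum_subset (subset_univ _) fun y _ hy => ?_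
  have : (e.S l).γ y * fac (nxt l y (lam y)) = ((e.S l).lev lam).γ y := by
    change _ = (e.S l).γ y * fac (lam y)
    by_cases h : y ∈ (e.S l).Y
    · have : nxt l y (lam y) = lam y := by simpa [h] using hy
      rw [this]
    · rcases hY l y h with h0 | h0
      · rw [h0, zero_mul, zero_mul]
      · rw [h0]
  rw [this, Function.update_eq_self, Stat.I0, sub_self]
theorem Ens.Ex_mono {L : Lat} (e : Ens L) {n : ℕ} {q : e.Ω → L.X → Lv n → ℝ}
    (hq : ∀ l x j, 0 ≤ q l x j) {Q Q' : e.Ω → (L.X → Lv n) → ℝ} (h : ∀ l lam, Q l lam ≤ Q' l lam) :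
    e.Ex q Q ≤ e.Ex q Q' :=
  sum_le_sum fun l _ => mul_le_mul_of_nonneg_left (sum_le_sum fun lam _ =>
    mul_le_mul_of_nonneg_left (h l lam) (prod_nonneg fun x _ => hq l x _)) (e.pr_nonneg l)
theorem Ens.Ex_add {L : Lat} (e : Ens L) {n : ℕ} (q : e.Ω → L.X → Lv n → ℝ)
    (Q Q' : e.Ω → (L.X → Lv n) → ℝ) :
    e.Ex q (fun l lam => Q l lam + Q' l lam) = e.Ex q Q + e.Ex q Q' := by
  simp only [Ens.Ex, mul_add, sum_add_distrib]
theorem Ens.Ex_mul {L : Lat} (e : Ens L) {n : ℕ} (q : e.Ω → L.X → Lv n → ℝ) (r : ℝ)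
    (Q : e.Ω → (L.X → Lv n) → ℝ) : e.Ex q (fun l lam => r * Q l lam) = r * e.Ex q Q := by
  simp only [Ens.Ex, mul_sum]
  exact sum_congr rfl fun l _ => sum_congr rfl fun lam _ => by ring
theorem Ens.Ex_sum {L : Lat} (e : Ens L) {n : ℕ} (q : e.Ω → L.X → Lv n → ℝ) {ι : Type}
    (s : Finset ι) (Q : ι → e.Ω → (L.X → Lv n) → ℝ) :
    e.Ex q (fun l lam => ∑ i ∈ s, Q i l lam) = ∑ i ∈ s, e.Ex q (Q i) := by
  simp only [Ens.Ex, mul_sum]
  rw [sum_comm (s := s)]
  exact sum_congr rfl fun l _ => sum_comm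
theorem Ens.Ex_label {L : Lat} (e : Ens L) {n : ℕ} {q : e.Ω → L.X → Lv n → ℝ}
    (hq : ∀ l x, ∑ j, q l x j = 1) (Q : e.Ω → ℝ) :
    e.Ex q (fun l _ => Q l) = ∑ l, e.pr l * Q l := by
  refine sum_congr rfl fun l _ => ?_
  have : ∑ lam : L.X → Lv n, ∏ x, q l x (lam x) = 1 := by
    rw [← Fintype.piFinset_univ, ← prod_univ_sum]
    simp [hq]
  rw [← sum_mul, this, one_mul]
/-- decay of the mean strength under halving -/
theorem Ens.Ex_fac {L : Lat} (e : Ens L) {n : ℕ} (q : ℝ → e.Ω → L.X → Lv n → ℝ)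
    (hq : ∀ l x, IsFlow hlf fun t => q t l x) (x : L.X) {t : ℝ} (ht : 0 ≤ t) :
    e.Ex (q t) (fun _ lam => fac (lam x)) ≤ Real.exp (-t / 2) + (1 / 2) ^ n := by
  set φ : ℝ → ℝ := fun s => e.Ex (q s) fun _ lam => fac (lam x) with hφ
  have hc : ∀ s (c : ℝ), e.Ex (q s) (fun _ _ => c) = c := fun s c => by
    rw [e.Ex_label fun l x => (hq l x).sum s, ← sum_mul, e.pr_sum, one_mul]
  have hd : ∀ s, HasDerivAt φ (e.Ex (q s) fun _ lam => fac (hlf (lam x)) - fac (lam x)) s := by
    intro s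
    refine HasDerivAt.congr_deriv (e.hasDerivAt_Ex (fun _ _ => hlf) q hq _ s) ?_
    congr 1
    funext l lam
    rw [sum_eq_single x]
    · rw [Function.update_self]
    · intro y _ hy
      rw [Function.update_of_ne (Ne.symm hy), sub_self]
    · simp
  have hle : ∀ s, 0 ≤ s → (e.Ex (q s) fun _ lam => fac (hlf (lam x)) - fac (lam x)) ≤
      -1 / 2 * φ s + (1 / 2) ^ n / 2 := by
    intro s hs
    refine (e.Ex_mono (fun l x j => (hq l x).nonneg s hs j) fun l lam => fac_hlf (lam x)).trans ?_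
    rw [e.Ex_add, e.Ex_mul, hc]
  have hψ : ∀ s, HasDerivAt (fun s => Real.exp (s / 2) * (φ s - (1 / 2) ^ n))
      (Real.exp (s / 2) * (1 / 2) * (φ s - (1 / 2) ^ n) + Real.exp (s / 2) *
        e.Ex (q s) fun _ lam => fac (hlf (lam x)) - fac (lam x)) s := fun s =>
    ((hasDerivAt_id s).div_const 2).exp.mul ((hd s).sub_const _)
  have han := antitoneOn_of_deriv_nonpos (convex_Ici (0 : ℝ))
    (fun s _ => (hψ s).continuousAt.continuousWithinAt)
    (fun s _ => (hψ s).differentiableAt.differentiableWithinAt) (fun s hs => by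
      rw [(hψ s).deriv]
      have h1 := hle s (interior_subset hs)
      have h2 := Real.exp_pos (s / 2)
      nlinarith)
  have h1 := han (Set.mem_Ici.2 le_rfl) (Set.mem_Ici.2 ht) ht
  have h0 : φ 0 ≤ 1 := by
    rw [← hc 0 1]
    exact e.Ex_mono (fun l x j => (hq l x).nonneg 0 le_rfl j) fun l lam => fac_le_one _
  simp only [zero_div, Real.exp_zero, one_mul] at h1
  have h2 : Real.exp (-t / 2) * Real.exp (t / 2) = 1 := by
    rw [← Real.exp_add]; simp [neg_div]
  have h3 := Real.exp_pos (-t / 2)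
  have h4 : (0 : ℝ) ≤ (1 / 2) ^ n := by positivity
  have h5 := mul_le_mul_of_nonneg_left (h1.trans (by linarith : φ 0 - (1 / 2) ^ n ≤ 1)) h3.le
  rw [← mul_assoc, h2] at h5
  change φ t ≤ _
  linarith

end Crest.Agent.N334.G
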