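import Mathlib

/-!
# Row 334, S0519 GAIN: numerical bookkeeping
-/

set_option autoImplicit false

noncomputable section

namespace Crest.Agent.N334.G

theorem exp_le_four_pow (m : ℕ) : Real.exp m ≤ 4 ^ m := by
  rw [← mul_one (m : ℝ), Real.exp_nat_mul]
  exact pow_le_pow_left₀ (Real.exp_pos _).le (by linarith [Real.exp_one_lt_d9]) _

theorem four_pow_le_exp (m : ℕ) : (4 : ℝ) ^ m ≤ Real.exp (2 * m) := by
  rw [mul_comm, Real.exp_nat_mul]
  refine pow_le_pow_left₀ (by norm_num) ?_ _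
  have h : Real.exp 2 = Real.exp 1 * Real.exp 1 := by rw [← Real.exp_add]; norm_num
  nlinarith [Real.exp_one_gt_d9]

theorem half_pow_le_exp (n : ℕ) : (1 / 2 : ℝ) ^ n ≤ Real.exp (-(n / 2)) := by
  rw [show -((n : ℝ) / 2) = n * (-(1 / 2)) by ring, Real.exp_nat_mul]
  refine pow_le_pow_left₀ (by norm_num) ?_ _
  linarith [Real.add_one_le_exp (-(1 / 2) : ℝ)]

theorem exists_tau : ∃ τ0 : ℝ, ∀ τ, τ0 ≤ τ → 1 ≤ τ → Real.exp (-τ ^ 16) ≤ 1 / τ ^ 300 := by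
  obtain ⟨τ0, h⟩ := Filter.eventually_atTop.1
    ((Real.tendsto_pow_mul_exp_neg_atTop_nhds_zero 300).eventually (gt_mem_nhds one_pos))
  refine ⟨τ0, fun τ h0 h1 => ?_⟩
  rw [le_div_iff₀ (by positivity), mul_comm]
  refine le_trans (mul_le_mul_of_nonneg_left (Real.exp_le_exp.2 ?_) (by positivity)) (h τ h0).le
  exact neg_le_neg (le_self_pow₀ h1 (by norm_num))

theorem scales {c CD ta : ℝ} (hCD : 0 < CD) (hc : c = 32 * (CD + 3)) (hta : 1 ≤ ta) :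
    c * ta / 16 ≤ (⌊c * ta / 8⌋₊ : ℝ) - ⌈(CD + 2) * ta⌉₊ := by
  have h1 := Nat.lt_floor_add_one (c * ta / 8)
  have h2 := Nat.ceil_lt_add_one (show 0 ≤ (CD + 2) * ta by positivity)
  rw [hc] at h1 ⊢
  nlinarith

theorem nums {C c CD τ ta η V Qb Qt : ℝ} {n : ℕ} (hC : 1 ≤ C) (hCD : 0 < CD)
    (hc : c = 32 * (CD + 3)) (hτ : 1000 * c ^ 12 * C ≤ τ)
    (hE : Real.exp (-τ ^ 16) ≤ 1 / τ ^ 300) (hta : τ ^ 16 ≤ ta) (htb : c * ta ≤ τ ^ 32)
    (hη1 : Real.exp (-τ ^ 32) ≤ η) (hη2 : η ≤ Real.exp (-τ ^ 32 / 2)) (hn : 20 * τ ^ 32 ≤ n)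
    (hV : 0 ≤ V) (hQb : 0 ≤ Qb) (hQt : 0 ≤ Qt)
    (H : ((⌊c * ta / 8⌋₊ : ℝ) - ⌈(CD + 2) * ta⌉₊) * Qt ≤
      (2 * Real.exp (τ ^ 16 + CD * ta) / 4 ^ ⌈(CD + 2) * ta⌉₊ + C * 4 ^ ⌊c * ta / 8⌋₊ *
        Real.exp (τ ^ 16) * (η + Real.exp (-(c * ta) / 2) + (1 / 2) ^ n)) * V +
      C * (τ ^ 2) ^ 4 * Qb + (c * ta - ta) * (1 / (96 * c ^ 12) * Qb +
        C * (⌊c * ta / 8⌋₊ + (τ ^ 2) ^ 4) * (1 / τ ^ 64 * Qb + 1 / τ ^ 288 * V) +
        C * ((τ ^ 2) ^ 4 * (1 / 2) ^ n / η ^ 4 +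
          (⌈10 * τ ^ 32⌉₊ + 1) / (4 ^ ⌈10 * τ ^ 32⌉₊ * η ^ 6) +
          ⌈10 * τ ^ 32⌉₊ * (2 * τ ^ 300) / (τ ^ 2) ^ (300 - 1)) * V)) :
    Qt ≤ Qb / (2 * c ^ 12) + V / τ ^ 200 := by
  have hc96 : 96 ≤ c := by rw [hc]; linarith
  have hc12 : 1 ≤ c ^ 12 := one_le_pow₀ (by linarith)
  have hτC : 1000 * C ≤ τ := by nlinarith
  have hτ1 : 1000 ≤ τ := by linarith
  have hτ1' : 1 ≤ τ := by linarith
  have hτ0 : 0 < τ := by linarith
  have pw : ∀ {a b : ℕ}, a ≤ b → τ ^ a ≤ τ ^ b := fun h => pow_le_pow_right₀ hτ1' h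
  have ipw : ∀ {a b : ℕ}, a ≤ b → 1 / τ ^ b ≤ 1 / τ ^ a := fun h =>
    one_div_le_one_div_of_le (by positivity) (pw h)
  have ha1 : 1 ≤ τ ^ 16 := one_le_pow₀ hτ1'
  have hT1 : 1 ≤ τ ^ 32 := one_le_pow₀ hτ1'
  have hta1 : 1 ≤ ta := ha1.trans hta
  have haT : τ ^ 16 ≤ τ ^ 32 := pw (by norm_num)
  have hη0 : 0 < η := (Real.exp_pos _).trans_le hη1
  set tb := c * ta with htb'
  have h16 : 16 * ta ≤ tb := by rw [htb']; nlinarith
  set m0 := ⌈(CD + 2) * ta⌉₊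
  set m1 := ⌊tb / 8⌋₊
  set M := ⌈10 * τ ^ 32⌉₊
  have hm0 : (CD + 2) * ta ≤ m0 := Nat.le_ceil _
  have hm1 : (m1 : ℝ) ≤ tb / 8 := Nat.floor_le (by linarith)
  have hM : 10 * τ ^ 32 ≤ M := Nat.le_ceil _
  have hM' : (M : ℝ) ≤ 11 * τ ^ 32 := by
    have := Nat.ceil_lt_add_one (show 0 ≤ 10 * τ ^ 32 by positivity); linarith
  have hsc : tb / 16 ≤ (m1 : ℝ) - m0 := scales hCD hc hta1
  have hhalf : (1 / 2 : ℝ) ^ n ≤ Real.exp (-(10 * τ ^ 32)) :=
    (half_pow_le_exp n).trans (Real.exp_le_exp.2 (by linarith))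
  have A1 : 2 * Real.exp (τ ^ 16 + CD * ta) / 4 ^ m0 ≤ 2 * (1 / τ ^ 255) := by
    rw [mul_div_assoc]
    refine mul_le_mul_of_nonneg_left (le_trans ?_ (hE.trans (ipw (by norm_num)))) two_pos.le
    rw [div_le_iff₀ (by positivity)]
    refine le_trans ?_ (mul_le_mul_of_nonneg_left (exp_le_four_pow m0) (Real.exp_pos _).le)
    rw [← Real.exp_add]
    exact Real.exp_le_exp.2 (by nlinarith)
  have hCτ : ∀ {k : ℝ} {a : ℕ}, 0 ≤ k → k ≤ 1000 → 256 ≤ a → k * C * (1 / τ ^ a) ≤ 1 / τ ^ 255 := by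
    intro k a hk hk' ha
    calc k * C * (1 / τ ^ a) ≤ τ * (1 / τ ^ 256) :=
          mul_le_mul (by nlinarith) (ipw ha) (by positivity) hτ0.le
      _ = 1 / τ ^ 255 := by field_simp
  have A2 : C * 4 ^ m1 * Real.exp (τ ^ 16) * (η + Real.exp (-tb / 2) + (1 / 2) ^ n) ≤
      1 / τ ^ 255 := by
    have b1 : η + Real.exp (-tb / 2) + (1 / 2) ^ n ≤ 3 * Real.exp (-tb / 2) := by
      have := hη2.trans (Real.exp_le_exp.2 (show -τ ^ 32 / 2 ≤ -tb / 2 by linarith))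
      have := hhalf.trans (Real.exp_le_exp.2 (show -(10 * τ ^ 32) ≤ -tb / 2 by linarith))
      linarith
    calc _ ≤ C * Real.exp (2 * m1) * Real.exp (τ ^ 16) * (3 * Real.exp (-tb / 2)) := by
          gcongr; exact four_pow_le_exp m1
      _ = 3 * C * Real.exp (2 * m1 + τ ^ 16 + -tb / 2) := by
          rw [Real.exp_add, Real.exp_add]; ring
      _ ≤ 3 * C * (1 / τ ^ 300) := by
          refine mul_le_mul_of_nonneg_left (le_trans (Real.exp_le_exp.2 ?_) hE) (by positivity)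
          linarith
      _ ≤ _ := hCτ (by norm_num) (by norm_num) (by norm_num)
  have k8 : (τ ^ 2) ^ 4 = τ ^ 8 := by ring
  have hm8 : (m1 : ℝ) + (τ ^ 2) ^ 4 ≤ 2 * τ ^ 32 := by
    have : τ ^ 8 ≤ τ ^ 32 := pw (by norm_num)
    rw [k8]; linarith
  have A3 : 16 * (C * (m1 + (τ ^ 2) ^ 4) * (1 / τ ^ 288)) ≤ 1 / τ ^ 255 := by
    calc _ ≤ 16 * (C * (2 * τ ^ 32) * (1 / τ ^ 288)) := by gcongr
      _ = 32 * C * (1 / τ ^ 256) := by field_simp; ring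
      _ ≤ _ := hCτ (by norm_num) (by norm_num) (by norm_num)
  have hηk : ∀ k : ℕ, Real.exp (-(k * τ ^ 32)) ≤ η ^ k := fun k => by
    rw [show -(k * τ ^ 32) = k * (-τ ^ 32) by ring, Real.exp_nat_mul]
    exact pow_le_pow_left₀ (Real.exp_pos _).le hη1 k
  have A4 : 16 * (C * ((τ ^ 2) ^ 4 * (1 / 2) ^ n / η ^ 4 + (M + 1) / (4 ^ M * η ^ 6) +
      M * (2 * τ ^ 300) / (τ ^ 2) ^ (300 - 1))) ≤ 1 / τ ^ 255 := by
    have b1 : (τ ^ 2) ^ 4 * (1 / 2) ^ n / η ^ 4 ≤ 1 / τ ^ 266 := by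
      have : (1 / 2) ^ n / η ^ 4 ≤ 1 / τ ^ 300 := by
        refine le_trans ?_ hE
        rw [div_le_iff₀ (by positivity)]
        refine hhalf.trans (le_trans ?_ (mul_le_mul_of_nonneg_left (hηk 4) (Real.exp_pos _).le))
        rw [← Real.exp_add]
        exact Real.exp_le_exp.2 (by push_cast; linarith)
      calc _ = τ ^ 8 * ((1 / 2) ^ n / η ^ 4) := by ring
        _ ≤ τ ^ 34 * (1 / τ ^ 300) := mul_le_mul (pw (by norm_num)) this (by positivity)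
            (by positivity)
        _ = _ := by field_simp
    have b2 : ((M : ℝ) + 1) / (4 ^ M * η ^ 6) ≤ 12 * (1 / τ ^ 266) := by
      have : 1 / (4 ^ M * η ^ 6) ≤ 1 / τ ^ 300 := by
        refine le_trans ?_ hE
        rw [div_le_iff₀ (by positivity)]
        refine le_trans ?_ (mul_le_mul_of_nonneg_left (mul_le_mul (exp_le_four_pow M) (hηk 6)
          (Real.exp_pos _).le (by positivity)) (Real.exp_pos _).le)
        rw [← Real.exp_add, ← Real.exp_add]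
        exact Real.one_le_exp (by push_cast; linarith)
      calc _ = ((M : ℝ) + 1) * (1 / (4 ^ M * η ^ 6)) := by ring
        _ ≤ (12 * τ ^ 34) * (1 / τ ^ 300) := mul_le_mul (by
            have : τ ^ 32 ≤ τ ^ 34 := pw (by norm_num)
            linarith) this (by positivity) (by positivity)
        _ = _ := by field_simp
    have b3 : (M : ℝ) * (2 * τ ^ 300) / (τ ^ 2) ^ (300 - 1) ≤ 22 * (1 / τ ^ 266) := by
      calc _ ≤ 11 * τ ^ 32 * (2 * τ ^ 300) / (τ ^ 2) ^ (300 - 1) := by gcongr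
        _ = _ := by norm_num; field_simp; ring
    calc _ ≤ 16 * (C * (35 * (1 / τ ^ 266))) := by gcongr; linarith
      _ = 560 * C * (1 / τ ^ 266) := by ring
      _ ≤ _ := hCτ (by norm_num) (by norm_num) (by norm_num)
  have hc0 : 0 < c ^ 12 := by positivity
  have hq : ∀ {k : ℝ} {a : ℕ}, 0 ≤ k → k ≤ 32 → 1 ≤ a → k * C / τ ^ a ≤ 1 / (6 * c ^ 12) := by
    intro k a hk hk' ha
    rw [div_le_div_iff₀ (by positivity) (by positivity), one_mul]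
    have : τ ≤ τ ^ a := le_self_pow₀ hτ1' (by omega)
    have : 0 ≤ c ^ 12 * C := by positivity
    nlinarith
  have B2 : C * (τ ^ 2) ^ 4 ≤ tb / 16 * (1 / (6 * c ^ 12)) := by
    have := hq (k := 1) (a := 8) (by norm_num) (by norm_num) (by norm_num)
    calc _ = τ ^ 16 * (1 * C / τ ^ 8) := by field_simp
      _ ≤ _ := mul_le_mul (by linarith) this (by positivity) (by linarith)
  have B3 : 16 * (C * (m1 + (τ ^ 2) ^ 4) * (1 / τ ^ 64)) ≤ 1 / (6 * c ^ 12) := by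
    calc _ ≤ 16 * (C * (2 * τ ^ 32) * (1 / τ ^ 64)) := by gcongr
      _ = 32 * C / τ ^ 32 := by field_simp; ring
      _ ≤ _ := hq (by norm_num) (by norm_num) (by norm_num)
  set w := 1 / τ ^ 255 with hw
  set d := 1 / (6 * c ^ 12) with hd
  set X1 := 2 * Real.exp (τ ^ 16 + CD * ta) / 4 ^ m0
  set X2 := C * 4 ^ m1 * Real.exp (τ ^ 16) * (η + Real.exp (-tb / 2) + (1 / 2) ^ n)
  set X3 := C * (m1 + (τ ^ 2) ^ 4) with hX3
  set X4 := C * ((τ ^ 2) ^ 4 * (1 / 2) ^ n / η ^ 4 + (M + 1) / (4 ^ M * η ^ 6) +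
      M * (2 * τ ^ 300) / (τ ^ 2) ^ (300 - 1)) with hX4
  have hw0 : 0 ≤ w := by positivity
  have hd0 : 0 ≤ d := by positivity
  have e96 : 1 / (96 * c ^ 12) = d / 16 := by rw [hd]; field_simp; norm_num
  have hR : 1 / (96 * c ^ 12) * Qb + X3 * (1 / τ ^ 64 * Qb + 1 / τ ^ 288 * V) + X4 * V ≤
      (2 * d * Qb + 2 * w * V) / 16 := by
    have y1 := mul_le_mul_of_nonneg_right B3 hQb
    have y2 := mul_le_mul_of_nonneg_right A3 hV
    have y3 := mul_le_mul_of_nonneg_right A4 hV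
    rw [e96]; linarith
  have hR0 : 0 ≤ 1 / (96 * c ^ 12) * Qb + X3 * (1 / τ ^ 64 * Qb + 1 / τ ^ 288 * V) + X4 * V := by
    positivity
  have y4 := mul_le_mul (show tb - ta ≤ tb by linarith) hR hR0 (by linarith)
  have y5 : (X1 + X2) * V ≤ tb / 16 * (3 * w * V) := by
    calc _ ≤ 1 * (3 * w * V) := by
          rw [one_mul]; exact mul_le_mul_of_nonneg_right (by linarith) hV
      _ ≤ _ := mul_le_mul_of_nonneg_right (by linarith) (by positivity)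
  have y6 := mul_le_mul_of_nonneg_right B2 hQb
  have y7 := mul_le_mul_of_nonneg_right hsc hQt
  have y8 : tb / 16 * Qt ≤ tb / 16 * (3 * d * Qb + 5 * w * V) := by linarith
  have y9 := le_of_mul_le_mul_left y8 (by linarith)
  have e1 : 3 * d * Qb = Qb / (2 * c ^ 12) := by rw [hd]; field_simp; ring
  have e2 : 5 * w * V ≤ V / τ ^ 200 := by
    rw [div_eq_mul_one_div V, mul_comm V]
    refine mul_le_mul_of_nonneg_right ?_ hV
    calc 5 * w ≤ τ ^ 55 * (1 / τ ^ 255) := mul_le_mul_of_nonneg_right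
          (le_trans (by linarith) (le_self_pow₀ hτ1' (by norm_num))) hw0
      _ = _ := by field_simp
  linarith

theorem iterate {Q : ℝ → ℝ} {c a u Q0 : ℝ} (hc : 2 ≤ c) (ha : 1 ≤ a) (hu : 0 ≤ u) (hQ0 : 0 ≤ Q0)
    (h0 : Q a ≤ Q0) (h : ∀ t, a ≤ t → c * t ≤ a ^ 2 → Q (c * t) ≤ Q t / c ^ 12 + u) :
    ∃ t, a ≤ t ∧ t ≤ a ^ 2 ∧ Q t ≤ c ^ 12 / a ^ 12 * Q0 + 2 * u := by
  have hc1 : 1 ≤ c := by linarith
  have hc2 : 2 ≤ c ^ 12 := hc.trans (le_self_pow₀ hc1 (by norm_num))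
  have key : ∀ j : ℕ, c ^ j ≤ a → Q (c ^ j * a) ≤ Q0 / (c ^ j) ^ 12 + 2 * u := by
    intro j
    induction j with
    | zero => intro _; simp only [pow_zero, one_mul, one_pow, div_one]; linarith
    | succ j ih =>
      intro hj
      have h1 : c ^ j ≤ a := (pow_le_pow_right₀ hc1 (Nat.le_succ j)).trans hj
      have h2 := h (c ^ j * a) (le_mul_of_one_le_left (by linarith) (one_le_pow₀ hc1))
        (by rw [← mul_assoc, ← pow_succ', sq]; exact mul_le_mul_of_nonneg_right hj (by linarith))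
      rw [← mul_assoc, ← pow_succ'] at h2
      have h3 := div_le_div_of_nonneg_right (ih h1) (by positivity : 0 ≤ c ^ 12)
      have h4 : (Q0 / (c ^ j) ^ 12 + 2 * u) / c ^ 12 = Q0 / (c ^ (j + 1)) ^ 12 + 2 * u / c ^ 12 := by
        field_simp; ring
      have h5 : 2 * u / c ^ 12 ≤ u := by
        rw [div_le_iff₀ (by positivity)]; nlinarith
      linarith
  obtain ⟨j, h1, h2⟩ := exists_nat_pow_near ha (show 1 < c by linarith)
  refine ⟨c ^ j * a, le_mul_of_one_le_left (by linarith) (one_le_pow₀ hc1),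
    by rw [sq]; exact mul_le_mul_of_nonneg_right h1 (by linarith), (key j h1).trans ?_⟩
  refine add_le_add ?_ le_rfl
  rw [div_eq_mul_one_div Q0, mul_comm]
  refine mul_le_mul_of_nonneg_right ?_ hQ0
  rw [div_le_div_iff₀ (by positivity) (by positivity), one_mul, ← mul_pow, ← pow_succ']
  exact pow_le_pow_left₀ (by linarith) h2.le _

end Crest.Agent.N334.G
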