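import Crest.Agent.N334.G.Gain3
import Crest.Agent.N334.G.Gain4

/-!
# Row 334, S0519 GAIN: the gain theorem
-/

set_option autoImplicit false

open MeasureTheory Finset Complex
open scoped BigOperators ComplexConjugate

noncomputable section

namespace Crest.Agent.N334.G

theorem gain : ∃ (τ0 Cl C : ℝ) (p : ℕ), 1 ≤ p ∧ ∀ τ : ℝ, τ0 ≤ τ →
    ∀ (L : Lat) (e : Ens L) (n : ℕ) (q : ℝ → e.Ω → L.X → Lv n → ℝ) (η lam : ℝ),
    (∀ l, (e.S l).η = η) → Real.exp (-τ ^ 32) ≤ η → η ≤ Real.exp (-τ ^ 32 / 2) →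
    τ ^ 32 ≤ L.N → 20 * τ ^ 32 ≤ n →
    (∀ l x, x ∉ (e.S l).Y → (e.S l).γ x = 0) →
    (∀ l x, (e.S l).mu x ≤ ENNReal.ofReal (Real.exp (τ ^ 16)) • (volume : Measure ℝ)) →
    (∀ l x, IsFlow hlf fun t => q t l x) → Cl ≤ lam → lam ≤ τ →
    (∀ t, 0 ≤ t → t ≤ 20 * τ ^ 32 → e.BPq (q t) (1 / τ ^ 64) (1 / τ ^ 288) ∧
      e.BPk (q t) (1 / τ ^ 64) lam p) →
    e.ExS (q 0) (fun st => st.I0 (En L.r2)) ≤ τ ^ 16 * Fintype.card L.X →
    (∀ m, m < L.N → e.ExS (q 0) (fun st => st.I0 (En (L.s4 m))) ≤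
      Real.exp (τ ^ 16) / 16 ^ m * Fintype.card L.X) →
    (∀ (c : L.X) (R2 : ℝ), 1 ≤ R2 →
      e.ExS (q 0) (fun st => st.I0 fun K => (lam + En (L.wF c R2) K) ^ p) ≤ τ ^ p) →
    ∑ l, e.pr l * (e.S l).Ig 0 (En L.r2) ≤ C / τ ^ 160 * Fintype.card L.X 
  := by
  obtain ⟨CQ, hCQ, hQ⟩ := Q_mono
  obtain ⟨CD, hCD, hD⟩ := D_bound
  obtain ⟨CK, hCK, hK⟩ := K_bound
  obtain ⟨Cc, hCc, hcl⟩ := closeE
  obtain ⟨τ1, hτ1⟩ := exists_tau
  set c := 32 * (CD + 3) with hc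
  have hc96 : 96 ≤ c := by rw [hc]; linarith
  have hc12 : 1 ≤ c ^ 12 := one_le_pow₀ (by linarith)
  obtain ⟨C, hC, hI⟩ := interval (1 / (96 * c ^ 12)) (by positivity)
  refine ⟨max τ1 (1000 * c ^ 12 * C + 40 * CQ + 12000 * CK), CK * 300, 8 * c ^ 12 + 10 + 2 * Cc, 300,
    by norm_num, fun τ hτ L e n q η lam hη hη1 hη2 hN hn hY hmu hq hl hl' hBP hQ0 hD0 hK0 => ?_⟩
  have hτ2 := (le_max_right _ _).trans hτ
  have hcC : 1000 ≤ 1000 * c ^ 12 * C := by nlinarith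
  have hτ3 : 1000 * c ^ 12 * C ≤ τ := by linarith
  have h1 : 1 ≤ τ := by linarith
  have h0 : 0 < τ := by linarith
  have hE := hτ1 τ ((le_max_left _ _).trans hτ) h1
  have pw : ∀ {a b : ℕ}, a ≤ b → τ ^ a ≤ τ ^ b := fun h => pow_le_pow_right₀ h1 h
  have hτT : τ ≤ τ ^ 32 := le_self_pow₀ h1 (by norm_num)
  have ha1 : 1 ≤ τ ^ 16 := one_le_pow₀ h1
  have hT1 : 1 ≤ τ ^ 32 := one_le_pow₀ h1
  have haT : (τ ^ 16) ^ 2 = τ ^ 32 := by ring
  have hη0 : 0 < η := (Real.exp_pos _).trans_le hη1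
  set V : ℝ := (Fintype.card L.X : ℝ) with hV
  have hV0 : 0 ≤ V := by positivity
  set u := V / τ ^ 200 with hu
  have hu0 : 0 ≤ u := by positivity
  have hQn : ∀ t, 0 ≤ t → 0 ≤ e.Qf q t := fun t ht =>
    e.Ex_nonneg (fun l x j => (hq l x).nonneg t ht j) fun l lam =>
      Stat.I0_nonneg _ fun K => En_nonneg L.r2_nonneg K
  have small : ∀ {k : ℝ}, 40 * k ≤ τ → k * (1 / τ ^ 64) * (20 * τ ^ 32) ≤ 1 / 2 := by
    intro k hk
    calc _ = 20 * k / τ ^ 32 := by field_simp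
      _ ≤ _ := by rw [div_le_iff₀ (by positivity)]; linarith
  have mono : ∀ s t, 0 ≤ s → s ≤ t → t ≤ 20 * τ ^ 32 → e.Qf q t ≤ 2 * (e.Qf q s + u) := by
    intro s t hs hst ht
    refine (hQ L e n q _ _ _ hq hY (by positivity) (by positivity) (small (by linarith))
      (fun t a b => (hBP t a b).1) s t hs hst ht).trans ?_
    refine mul_le_mul_of_nonneg_left (add_le_add le_rfl ?_) two_pos.le
    calc _ = 20 * CQ / τ ^ 56 * u := by rw [hu]; field_simp; rfl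
      _ ≤ 1 * u := by
          refine mul_le_mul_of_nonneg_right ?_ hu0
          rw [div_le_one (by positivity)]
          exact le_trans (by linarith) (le_self_pow₀ h1 (by norm_num))
      _ = u := one_mul u
  have kb : ∀ (c0 : L.X) (R2 t : ℝ), 1 ≤ R2 → 0 ≤ t → t ≤ 20 * τ ^ 32 →
      e.ExS (q t) (fun st => st.I0 fun K => (lam + En (L.wF c0 R2) K) ^ 300) ≤ 2 * τ ^ 300 :=
    fun c0 R2 t hR ht ht' => (hK L e n q _ lam _ 300 hq hY (by positivity) (by norm_num)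
      (by exact_mod_cast hl) (small (by push_cast; linarith)) (fun t a b => (hBP t a b).2) c0 R2 t
      hR ht ht').trans (mul_le_mul_of_nonneg_left (hK0 c0 R2 hR) two_pos.le)
  have step : ∀ t, τ ^ 16 ≤ t → c * t ≤ (τ ^ 16) ^ 2 → e.Qf q (c * t) ≤ e.Qf q t / c ^ 12 + 2 * u := by
    intro t ht htb
    rw [haT] at htb
    have ht1 : 1 ≤ t := ha1.trans ht
    have htc : t ≤ c * t := le_mul_of_one_le_left (by linarith) (by linarith)
    have hsc := scales hCD hc ht1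
    have hm : ⌈(CD + 2) * t⌉₊ ≤ ⌊c * t / 8⌋₊ := by
      have : (⌈(CD + 2) * t⌉₊ : ℝ) ≤ ⌊c * t / 8⌋₊ := by linarith
      exact_mod_cast this
    have hm1 : ⌊c * t / 8⌋₊ ≤ L.N := by
      have : (⌊c * t / 8⌋₊ : ℝ) ≤ L.N := (Nat.floor_le (by linarith)).trans (by linarith)
      exact_mod_cast this
    have H := hI L e n q η (1 / τ ^ 64) (1 / τ ^ 288) t (c * t) (τ ^ 2) lam (2 * τ ^ 300)
      (2 * (e.Qf q t + u)) (Real.exp (τ ^ 16)) (Real.exp (τ ^ 16 + CD * t)) _ _ ⌈10 * τ ^ 32⌉₊ 300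
      hq hY hη hη0 (by positivity) (by positivity) (by linarith) htc hm hm1 (one_le_pow₀ h1)
      (le_trans (by positivity) hl) (by norm_num) (by positivity) (by positivity) (by positivity)
      hmu (fun s a b => (hBP s (by linarith) (by linarith)).1)
      (fun s a b => mono t s (by linarith) a (by linarith))
      (fun c0 R2 s hR a b => kb c0 R2 s hR (by linarith) (by linarith))
      (fun m hm => (hD L e n q hq hY m t (by linarith)).trans
        ((mul_le_mul_of_nonneg_left (hD0 m hm) (Real.exp_pos _).le).trans_eq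
          (by rw [Real.exp_add]; ring)))
    have hQt := hQn t (by linarith)
    have := nums hC hCD hc hτ3 hE ht htb hη1 hη2 hn hV0 (by positivity) (hQn _ (by linarith)) H
    have e1 : 2 * (e.Qf q t + u) / (2 * c ^ 12) = e.Qf q t / c ^ 12 + u / c ^ 12 := by field_simp
    have e2 : u / c ^ 12 ≤ u := div_le_self hu0 hc12
    linarith
  have q0 : e.Qf q (τ ^ 16) ≤ 4 * τ ^ 16 * V := by
    have a := mono 0 (τ ^ 16) le_rfl (by positivity) (by linarith [pw (show 16 ≤ 32 by norm_num)])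
    have b : u ≤ τ ^ 16 * V := (div_le_self hV0 (one_le_pow₀ h1)).trans
      (le_mul_of_one_le_left hV0 ha1)
    have c : e.Qf q 0 ≤ τ ^ 16 * V := hQ0
    linarith
  obtain ⟨t, ht1, ht2, ht3⟩ := iterate (by linarith) ha1 (by positivity) (by positivity) q0 step
  rw [haT] at ht2
  have f1 := mono t (20 * τ ^ 32) (by linarith) (by linarith) le_rfl
  have f2 := hcl L e n q η hq hY hη (20 * τ ^ 32) (by positivity)
  have g1 : c ^ 12 / (τ ^ 16) ^ 12 * (4 * τ ^ 16 * V) ≤ 4 * c ^ 12 * (V / τ ^ 160) := by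
    calc _ = 4 * c ^ 12 * (V / τ ^ 176) := by field_simp
      _ ≤ _ := by gcongr; norm_num
  have g2 : u ≤ V / τ ^ 160 := by rw [hu]; gcongr; norm_num
  have g3 : Cc / η ^ 4 * ((Real.exp (-(20 * τ ^ 32) / 2) + (1 / 2) ^ n) * V) ≤
      2 * Cc * (V / τ ^ 160) := by
    have a1 : (1 / 2 : ℝ) ^ n ≤ Real.exp (-(20 * τ ^ 32) / 2) :=
      (half_pow_le_exp n).trans (Real.exp_le_exp.2 (by linarith))
    have a2 : Real.exp (-(4 * τ ^ 32)) ≤ η ^ 4 := by
      rw [show -(4 * τ ^ 32) = (4 : ℕ) * (-τ ^ 32) by push_cast; ring, Real.exp_nat_mul]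
      exact pow_le_pow_left₀ (Real.exp_pos _).le hη1 4
    have a3 : Real.exp (-(20 * τ ^ 32) / 2) / η ^ 4 ≤ 1 / τ ^ 160 := by
      refine le_trans ?_ (hE.trans (one_div_le_one_div_of_le (by positivity) (pw (by norm_num))))
      rw [div_le_iff₀ (by positivity)]
      refine le_trans ?_ (mul_le_mul_of_nonneg_left a2 (Real.exp_pos _).le)
      rw [← Real.exp_add]
      exact Real.exp_le_exp.2 (by linarith [pw (show 16 ≤ 32 by norm_num)])
    calc _ ≤ Cc / η ^ 4 * ((Real.exp (-(20 * τ ^ 32) / 2) + Real.exp (-(20 * τ ^ 32) / 2)) * V) := by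
          gcongr
      _ = 2 * Cc * (Real.exp (-(20 * τ ^ 32) / 2) / η ^ 4 * V) := by ring
      _ ≤ 2 * Cc * (1 / τ ^ 160 * V) := by gcongr
      _ = _ := by ring
  have e3 : (8 * c ^ 12 + 10 + 2 * Cc) / τ ^ 160 * V =
    8 * c ^ 12 * (V / τ ^ 160) + 10 * (V / τ ^ 160) + 2 * Cc * (V / τ ^ 160) := by ring
  rw [e3]
  linarith

end Crest.Agent.N334.G
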