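import Crest.Agent.N334.G.Quad
import Crest.Agent.N334.G.Trace

/-!
# Row 334, S0519 GAIN: a priori moments: fourth differences and local energies
-/

set_option autoImplicit false
set_option linter.unusedSectionVars false

open MeasureTheory Finset Complex
open scoped BigOperators ComplexConjugate

noncomputable section

namespace Crest.Agent.N334.G

namespace Qd

section
variable {P : Type} [Fintype P] [DecidableEq P] {y : P} (c : Cav y)

def wU (U : P → ℂ) (p q : P) : ℝ := ‖U p - U q‖ ^ 4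
def TT (U : P → ℂ) (K : P → P → ℂ) (y : P) : ℝ := ‖Th3 (fun _ => 1) U K y‖ ^ 2 / Gam (wU U) K y

theorem wU_nonneg (U : P → ℂ) (p q : P) : 0 ≤ wU U p q := by unfold wU; positivity
theorem wU_symm (U : P → ℂ) (p q : P) : wU U p q = wU U q p := by unfold wU; rw [norm_sub_rev]
theorem wU_self (U : P → ℂ) (p : P) : wU U p p = 0 := by simp [wU]
theorem wU_tri (U : P → ℂ) (y p q : P) : wU U p q ≤ 8 * (wU U y p + wU U y q) := by
  have h1 : ‖U p - U q‖ ≤ ‖U y - U p‖ + ‖U y - U q‖ := by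
    rw [norm_sub_rev (U y) (U p)]; exact norm_sub_le_norm_sub_add_norm_sub _ _ _
  have h2 := add_pow_le (norm_nonneg (U y - U p)) (norm_nonneg (U y - U q)) 4
  unfold wU
  calc _ ≤ (‖U y - U p‖ + ‖U y - U q‖) ^ 4 := by gcongr
    _ ≤ _ := by norm_num at h2 ⊢; linarith

theorem TT_nonneg (U : P → ℂ) (K : P → P → ℂ) (y : P) : 0 ≤ TT U K y :=
  div_nonneg (sq_nonneg _) (Gam_nonneg (wU_nonneg U) K y)

theorem C2_wU (U : P → ℂ) {γ : ℝ} (hγ : 0 ≤ γ) : C2 c (wU U) γ ≤ 64 * c.V (wU U) * c.J γ := by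
  have e : ∑ p, ‖c.vec γ p‖ ^ 2 * wU U y p = c.V (wU U) := sum_nv c hγ (wU_self U y)
  have h : ∑ p, ∑ q, ‖c.vec γ p‖ ^ 2 * ‖c.vec γ q‖ ^ 2 * wU U p q ≤
      ∑ p, ∑ q, (8 * ((‖c.vec γ p‖ ^ 2 * wU U y p) * ‖c.vec γ q‖ ^ 2) +
        8 * (‖c.vec γ p‖ ^ 2 * (‖c.vec γ q‖ ^ 2 * wU U y q))) :=
    sum_le_sum fun p _ => sum_le_sum fun q _ =>
      calc _ ≤ ‖c.vec γ p‖ ^ 2 * ‖c.vec γ q‖ ^ 2 * (8 * (wU U y p + wU U y q)) := by
            gcongr; exact wU_tri U y p q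
        _ = _ := by ring
  simp only [sum_add_distrib, ← mul_sum, ← sum_mul, e, c.sum_vec hγ] at h
  unfold C2; linarith

theorem th3_alg (k z u v s w : ℂ) : 1 * conj (k + 2 * I * z * u * v) * (0 + 2 * I * z * u * s) *
    (0 + 2 * I * z * v * s) * w = I * s ^ 2 * z ^ 2 * (4 * I * (conj k * u * v * w) +
      2 * conj z * (4 * ((u * conj u) * (v * conj v) * w))) := by
  simp only [map_add, map_mul, conj_I, map_ofNat]
  linear_combination (-8 * I * (conj z * conj u * conj v * z ^ 2 * u * v * s ^ 2 * w)) * I_sq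

theorem Th3_eq (U : P → ℂ) {γ : ℝ} (hγ : 0 ≤ γ) (a : ℝ) :
    Th3 (fun _ => 1) U (c.K a γ) y = I * γ * c.z a γ ^ 2 * c1 c (wU U) a γ γ := by
  have hy : c.vec γ y = (Real.sqrt γ : ℂ) := by simp [Cav.vec]
  have hs : (Real.sqrt γ : ℂ) ^ 2 = γ := by rw [← ofReal_pow, Real.sq_sqrt hγ]
  simp only [Th3, c1, AA, C2, ofReal_mul, ofReal_sum, mul_sum, ← sum_add_distrib]
  refine sum_congr rfl fun p _ => sum_congr rfl fun q _ => ?_
  have := th3_alg (c.K0 p q) (c.z a γ) (c.vec γ p) (c.vec γ q) (Real.sqrt γ) (wU U p q : ℝ)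
  rw [hs, K0_vec, mul_conj', mul_conj'] at this
  simp only [Cav.K, c.K0_y, hy]
  simpa [wU] using this

theorem c1_wU (U : P → ℂ) {γ γ' : ℝ} (h0 : 0 ≤ γ') (h : γ' ≤ γ) (a : ℝ) :
    γ * ‖c.z a γ‖ ^ 2 * ‖c1 c (wU U) a γ γ'‖ ≤
      ‖Th3 (fun _ => 1) U (c.K a γ) y‖ + 4 * Gam (wU U) (c.K a γ) y := by
  have hγ := h0.trans h
  have hV := V_nonneg c (wU_nonneg U)
  have e : c1 c (wU U) a γ γ' = c1 c (wU U) a γ γ -
      conj (c.z a γ) * ((16 * (γ - γ') * c.V (wU U) : ℝ) : ℂ) := by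
    unfold c1
    rw [C2_eq c (wU_symm U) (wU_self U y) hγ, C2_eq c (wU_symm U) (wU_self U y) h0]
    push_cast; ring
  have h1 : (γ - γ') * ‖c.z a γ‖ ≤ 1 := by
    refine le_trans (mul_le_mul_of_nonneg_right ?_ (norm_nonneg _)) (zJ c hγ le_rfl a)
    unfold Cav.J; linarith [c.s_pos]
  have h2 : ‖c1 c (wU U) a γ γ'‖ ≤ ‖c1 c (wU U) a γ γ‖ + 16 * c.V (wU U) := by
    rw [e]
    refine (norm_sub_le _ _).trans (add_le_add le_rfl ?_)
    have hδ := sub_nonneg.2 h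
    rw [norm_mul, Complex.norm_conj, Complex.norm_real, Real.norm_of_nonneg (by positivity)]
    nlinarith [mul_le_mul_of_nonneg_left h1 hV]
  rw [Th3_eq c U hγ, c.Gam_y a γ hγ (wU_self U y)]
  simp only [norm_mul, norm_I, norm_pow, Complex.norm_real, Real.norm_of_nonneg hγ, one_mul]
  nlinarith [mul_le_mul_of_nonneg_left h2 (show 0 ≤ γ * ‖c.z a γ‖ ^ 2 by positivity)]

theorem amgm {x G θ : ℝ} (hG : 0 ≤ G) (hθ : 0 < θ) (h : G = 0 → x = 0) :
    x ≤ θ * (x ^ 2 / G) + G / θ := by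
  rcases hG.eq_or_lt with h0 | h0
  · simp [← h0, h h0.symm]
  have : θ * (x ^ 2 / G) + G / θ - x = ((θ * x - G) ^ 2 + θ * x ^ 2 * θ + G ^ 2) / (2 * θ * G) := by
    field_simp; ring
  have h2 : 0 ≤ ((θ * x - G) ^ 2 + θ * x ^ 2 * θ + G ^ 2) / (2 * θ * G) := by positivity
  linarith

theorem nice_TT {U : P → ℂ} (hU : ∀ p, ‖U p‖ = 1) (y : P) : Nice fun K => TT U K y := by
  obtain ⟨C, -, h⟩ := trace3
  refine Nice.of_le (G := fun K => C * 1 ^ 2 * En (wU U) K) ?_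
    ((Nice.const _).mul (nice_En _)) fun K hK => ⟨TT_nonneg U K y, ?_⟩
  · refine Measurable.div (Measurable.pow_const (Measurable.norm ?_) 2) (nice_Gam _ _).meas
    have hc : Measurable fun u : ℂ => conj u := continuous_conj.measurable
    unfold Th3; fun_prop
  · refine le_trans ?_ (h P K hK U (fun _ => 1) 1 hU fun _ => by simp).2
    exact single_le_sum (f := fun y => TT U K y) (fun p _ => TT_nonneg U K p) (mem_univ y)

end

theorem siteD : ∃ C : ℝ, 0 < C ∧ ∀ (P : Type) [Fintype P] [DecidableEq P] (y : P) (c : Cav y)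
    (U : P → ℂ) (a0 b γ γ' θ : ℝ), (∀ p, ‖U p‖ = 1) → 0 ≤ γ' → γ' ≤ γ → γ ≤ b → 0 < b → 0 < θ →
    ∫ t, En (wU U) (c.K t γ') ∂law a0 b - ∫ t, En (wU U) (c.K t γ) ∂law a0 b ≤
      ∫ t, (C * (1 + 1 / θ) * Gam (wU U) (c.K t γ) y + C * θ * TT U (c.K t γ) y) ∂law a0 b := by
  obtain ⟨C, hC, h⟩ := step
  obtain ⟨Ct, -, ht⟩ := trace3
  refine ⟨16 + 800 * C, by positivity, fun P _ _ y c U a0 b γ γ' θ hU h0 h1 h2 hb hθ => ?_⟩
  have := law_prob a0 hb
  have hγ := h0.trans h1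
  have hV := V_nonneg c (wU_nonneg U)
  have hG := fun t => Gam_nonneg (wU_nonneg U) (c.K t γ) y
  have hT := fun t => TT_nonneg U (c.K t γ) y
  rcases h1.eq_or_lt with rfl | h1'
  · rw [sub_self]
    exact integral_nonneg fun t => by have := hG t; have := hT t; positivity
  have bG := bm_K c (nice_Gam (wU U) y) hγ
  have bT := bm_K c (nice_TT hU y) hγ
  have bH := (bG.const_mul (16 + 36 * C + 9 * C / θ)).add (bT.const_mul (9 * C * θ))
  have hδ : 0 ≤ γ - γ' := by linarith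
  have key := h P y c a0 b γ γ' (64 * c.V (wU U)) h0 h1' h2 (by positivity)
    (fun t => En (wU U) (c.K t γ')) (fun t => En (wU U) (c.K t γ)) _
    (bm_K c (nice_En _) h0) (bm_K c (nice_En _) hγ) bH fun a ha => by
      have e := fun a' => (expand c (wU_symm U) (wU_self U y) hγ h0 a a').symm
      refine ⟨_, _, 0, _, fun a' => (e a').le, by simp only [e, sub_self, mul_zero]; simp, ?_, ?_⟩
      · rw [abs_of_nonneg (C2_nonneg c (wU_nonneg U) γ')]; exact C2_wU c U h0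
      · have hJ := c.J_pos h0
        have e1 : C2 c (wU U) γ' * ((γ - γ') * ‖c.z a γ‖ ^ 2 / c.J γ') ≤
            16 * Gam (wU U) (c.K a γ) y :=
          calc _ ≤ 64 * c.V (wU U) * c.J γ' * (γ * ‖c.z a γ‖ ^ 2 / c.J γ') := by
                gcongr
                · exact C2_wU c U h0
                · linarith
            _ = _ := by rw [c.Gam_y a γ hγ (wU_self U y)]; field_simp; ring
        have e2 : (γ - γ') * ‖c.z a0 b‖ ^ 2 * ‖c1 c (wU U) a γ γ'‖ ≤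
            9 * (γ * ‖c.z a γ‖ ^ 2 * ‖c1 c (wU U) a γ γ'‖) :=
          calc _ ≤ γ * (9 * ‖c.z a γ‖ ^ 2) * ‖c1 c (wU U) a γ γ'‖ := by
                gcongr
                · linarith
                · exact zr_sq c hγ h2 ha
            _ = _ := by ring
        have e3 := c1_wU c U h0 h1 a
        have e4 : ‖Th3 (fun _ => 1) U (c.K a γ) y‖ ≤
            θ * TT U (c.K a γ) y + Gam (wU U) (c.K a γ) y / θ :=
          amgm (hG a) hθ fun h0 => norm_eq_zero.2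
            ((ht P _ (c.port a hγ) U (fun _ => 1) 1 hU fun _ => by simp).1 y h0)
        have e5 : (γ - γ') * ‖c.z a0 b‖ ^ 2 * ‖c1 c (wU U) a γ γ'‖ + 0 ≤
            9 * (θ * TT U (c.K a γ) y + Gam (wU U) (c.K a γ) y / θ) +
              36 * Gam (wU U) (c.K a γ) y := by linarith
        have e6 := mul_le_mul_of_nonneg_left e5 hC.le
        have e7 : 0 ≤ 8 * (γ - γ') * ‖c.z a γ‖ ^ 2 * c.V (wU U) := by positivity
        calc _ ≤ 16 * Gam (wU U) (c.K a γ) y + C * (9 * (θ * TT U (c.K a γ) y +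
              Gam (wU U) (c.K a γ) y / θ) + 36 * Gam (wU U) (c.K a γ) y) := by linarith
          _ = _ := by ring
  refine key.trans ?_
  obtain ⟨k, hk⟩ : ∃ k, k = 5 * C * ((γ - γ') * ‖c.z a0 b‖ ^ 2 * (64 * c.V (wU U))) := ⟨_, rfl⟩
  have hk2 : k ≤ 80 * C * c.Bq a0 b γ (wU U) := by
    have : 0 ≤ C * (γ' * ‖c.z a0 b‖ ^ 2 * c.V (wU U)) := by positivity
    rw [hk]; unfold Cav.Bq; nlinarith
  have e8 : k = ∫ _t, k ∂law a0 b := by simp
  rw [← hk, e8, ← integral_add (bH.integrable _) (integrable_const _)]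
  refine integral_mono_ae ((bH.add (BM.const k)).integrable _)
    (((bG.const_mul _).add (bT.const_mul _)).integrable _) ?_
  filter_upwards [law_ae a0 hb] with t ht
  have e9 := mul_le_mul_of_nonneg_left (Bq_le c hγ h2 ht (wU_nonneg U) (wU_self U y))
    (show 0 ≤ 80 * C by positivity)
  have e10 : 0 ≤ (44 * C + (16 + 791 * C) / θ) * Gam (wU U) (c.K t γ) y +
      (16 + 791 * C) * θ * TT U (c.K t γ) y := by have := hG t; have := hT t; positivity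
  calc _ ≤ (16 + 36 * C + 9 * C / θ) * Gam (wU U) (c.K t γ) y + 9 * C * θ * TT U (c.K t γ) y +
        80 * C * (9 * Gam (wU U) (c.K t γ) y) + ((44 * C + (16 + 791 * C) / θ) *
          Gam (wU U) (c.K t γ) y + (16 + 791 * C) * θ * TT U (c.K t γ) y) := by linarith
    _ = _ := by ring

theorem I0_add {L : Lat} (st : Stat L) {F G : L.Mat → ℝ} (hF : Nice F) (hG : Nice G) :
    st.I0 (fun K => F K + G K) = st.I0 F + st.I0 G :=
  st.Ia_add (st.bm_Km hF st.γ_nonneg) (st.bm_Km hG st.γ_nonneg)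

theorem dr_add {L : Lat} (st : Stat L) {Y1 : Finset L.X} {γ' : L.X → ℝ} (h : ∀ y ∈ Y1, 0 ≤ γ' y)
    {F G : L.Mat → ℝ} (hF : Nice F) (hG : Nice G) :
    st.dr Y1 γ' (fun K => F K + G K) = st.dr Y1 γ' F + st.dr Y1 γ' G := by
  simp only [Stat.dr, ← sum_add_distrib, I0_add st hF hG]
  refine sum_congr rfl fun y hy => ?_
  have hn := st.update_nonneg y (h y hy)
  have : st.Ig (Function.update st.γ y (γ' y)) (fun K => F K + G K) =
      st.Ig (Function.update st.γ y (γ' y)) F + st.Ig (Function.update st.γ y (γ' y)) G :=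
    st.Ia_add (st.bm_Km hF hn) (st.bm_Km hG hn)
  rw [this]; ring

theorem driftU : ∃ C : ℝ, 0 < C ∧ ∀ (L : Lat) (st : Stat L) (Y1 : Finset L.X), Y1 ⊆ st.Y →
    ∀ (U : L.P → ℂ) (γ' : L.X → ℝ) (θ : ℝ), (∀ p, ‖U p‖ = 1) → 0 < θ →
    (∀ y ∈ Y1, 0 ≤ γ' y ∧ γ' y ≤ st.γ y) →
    st.dr Y1 γ' (En (wU U)) ≤
      C * (1 + 1 / θ) * st.I0 (fun K => ∑ y ∈ Y1, Gam (wU U) K (y, true)) +
        θ * st.I0 (En (wU U)) := by
  obtain ⟨C, hC, h⟩ := siteD
  obtain ⟨Ct, hCt, ht⟩ := trace3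
  refine ⟨C + C * (C * Ct), by positivity, fun L st Y1 hY U γ' θ hU hθ hγ' => ?_⟩
  obtain ⟨θ', hθ'⟩ : ∃ θ', θ' = θ / (C * Ct) := ⟨_, rfl⟩
  have h0 : 0 < θ' := by rw [hθ']; positivity
  have nG : Nice fun K : L.Mat => ∑ y ∈ Y1, Gam (wU U) K (y, true) :=
    Nice.sum _ fun y _ => nice_Gam _ _
  have b1 : ∀ y ∈ Y1, BM fun a => C * (1 + 1 / θ') * Gam (wU U) (L.Km st.E st.η st.γ a) (y, true) +
      C * θ' * TT U (L.Km st.E st.η st.γ a) (y, true) := fun y _ =>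
    ((st.bm_Km (nice_Gam _ _) st.γ_nonneg).const_mul _).add
      ((st.bm_Km (nice_TT hU _) st.γ_nonneg).const_mul _)
  have b2 := (st.bm_Km nG st.γ_nonneg).const_mul ((C + C * (C * Ct)) * (1 + 1 / θ))
  have b3 := (st.bm_Km (nice_En (wU U)) st.γ_nonneg).const_mul θ
  have key := dr_le st hY (nice_En (wU U)) (fun y hy => (hγ' y hy).1) 1 b1
    fun y hy a c e2 _ => by
      obtain ⟨-, hb, -, hγb⟩ := st.hY y (hY hy)
      simp only [e2, one_mul]
      exact h _ _ c U _ _ _ _ θ' hU (hγ' y hy).1 (hγ' y hy).2 hγb hb h0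
  rw [one_mul] at key
  refine key.trans ((st.Ia_mono (BM.sum _ b1) (b2.add b3) fun a => ?_).trans (le_of_eq ?_))
  · obtain ⟨K, hK, hp⟩ : ∃ K, K = L.Km st.E st.η st.γ a ∧ IsPort K :=
      ⟨_, rfl, L.port_Km _ st.η_pos st.γ_nonneg a⟩
    rw [← hK, sum_add_distrib, ← mul_sum, ← mul_sum]
    have e1 : ∑ y ∈ Y1, TT U K (y, true) ≤ Ct * 1 ^ 2 * En (wU U) K :=
      (sum_true_le Y1 (TT_nonneg U K)).trans (ht _ K hp U (fun _ => 1) 1 hU fun _ => by simp).2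
    have e2 : 0 ≤ ∑ y ∈ Y1, Gam (wU U) K (y, true) :=
      sum_nonneg fun y _ => Gam_nonneg (wU_nonneg U) K _
    refine add_le_add (mul_le_mul_of_nonneg_right ?_ e2) ?_
    · have : (C + C * (C * Ct)) * (1 + 1 / θ) - C * (1 + 1 / θ') = C / θ + C * (C * Ct) := by
        rw [hθ']; field_simp; ring
      have h2 : 0 ≤ C / θ + C * (C * Ct) := by positivity
      linarith
    · calc _ ≤ C * θ' * (Ct * 1 ^ 2 * En (wU U) K) := by gcongr
        _ = _ := by rw [hθ']; field_simp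
  · rw [st.Ia_add b2 b3, st.Ia_mul, st.Ia_mul]; rfl

/-! ### powers -/

theorem pw {x C : ℝ} {k : ℕ} (hx : 0 < x) (hC : 0 ≤ C) (h : C * k ≤ x) :
    (x + C) ^ k ≤ 3 * x ^ k := by
  have e : x + C = x * (C / x + 1) := by field_simp; ring
  have h1 : (C / x + 1) ^ k ≤ 3 :=
    calc _ ≤ Real.exp (C / x) ^ k := by gcongr; exact Real.add_one_le_exp _
      _ = Real.exp (k * (C / x)) := (Real.exp_nat_mul _ _).symm
      _ ≤ Real.exp 1 := by
          gcongr; rw [← mul_div_assoc, div_le_one hx]; linarith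
      _ ≤ 3 := by linarith [Real.exp_one_lt_d9]
  rw [e, mul_pow, mul_comm 3]; gcongr

theorem tay {u q : ℝ} {k : ℕ} (hu : 0 < u) (h : |q| * (k + 1) ≤ u) :
    (k + 1) * u ^ k * q ≤ (u + q) ^ (k + 1) - u ^ (k + 1) ∧
      (u + q) ^ (k + 1) - u ^ (k + 1) - (k + 1) * u ^ k * q ≤ (k + 1) ^ 2 * u ^ k / u * q ^ 2 := by
  obtain ⟨x, rfl⟩ : ∃ x, q = u * x := ⟨q / u, by field_simp⟩
  have hk : (0 : ℝ) ≤ k := Nat.cast_nonneg k
  have h1 : |x| * (k + 1) ≤ 1 := by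
    rw [abs_mul, abs_of_pos hu, mul_assoc] at h
    exact (mul_le_iff_le_one_right hu).1 h
  have h2 : -1 ≤ x := by nlinarith [abs_nonneg x, neg_abs_le x]
  have h3 : 1 + (k + 1) * x ≤ (1 + x) ^ (k + 1) := by
    have := one_add_mul_le_pow (a := x) (by linarith) (k + 1)
    push_cast at this; exact this
  have h4 : (1 + x) ^ (k + 1) ≤ 1 + (k + 1) * x + ((k + 1) * x) ^ 2 := by
    have h5 : |(k + 1) * x| ≤ 1 := by
      rw [abs_mul, abs_of_nonneg (by positivity : (0 : ℝ) ≤ k + 1), mul_comm]; exact h1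
    have h6 := (abs_le.1 (Real.abs_exp_sub_one_sub_id_le h5)).2
    calc _ ≤ Real.exp x ^ (k + 1) := by
          gcongr
          · linarith
          · linarith [Real.add_one_le_exp x]
      _ = Real.exp ((k + 1) * x) := by rw [← Real.exp_nat_mul]; push_cast; rfl
      _ ≤ _ := by linarith
  have e : (u + u * x) ^ (k + 1) = u ^ k * u * (1 + x) ^ (k + 1) := by
    rw [← pow_succ, ← mul_pow]; ring
  have e2 : (k + 1) ^ 2 * u ^ k / u * (u * x) ^ 2 = u ^ k * u * ((k + 1) * x) ^ 2 := by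
    field_simp
  have hp : 0 ≤ u ^ k * u := by positivity
  rw [e, e2, pow_succ u]
  constructor
  · nlinarith [mul_le_mul_of_nonneg_left h3 hp]
  · nlinarith [mul_le_mul_of_nonneg_left h4 hp]

section
variable {P : Type} [Fintype P] [DecidableEq P] {y : P} (c : Cav y) {ι : Type} [Fintype ι]
  {F : ι → P → ℝ} (hF : ∀ x, ∑ j, F j x ^ 2 = 1)
include hF

theorem sphere : c.V (wt F) ^ 2 ≤ 4 * mm c F := by
  have e : ∑ j, F j y * ∑ p, ‖c.rho p‖ ^ 2 * (F j p - F j y) = -(c.V (wt F) / 2) := by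
    simp only [mul_sum]
    rw [sum_comm, Cav.V, sum_div, ← sum_neg_distrib]
    refine sum_congr rfl fun p _ => ?_
    have e1 : ∀ j, F j y * (‖c.rho p‖ ^ 2 * (F j p - F j y)) = ‖c.rho p‖ ^ 2 / 2 *
        (F j p ^ 2 - F j y ^ 2 - (F j y - F j p) ^ 2) := fun j => by ring
    simp only [e1, ← mul_sum, sum_sub_distrib, hF, wt]
    ring
  have h := sum_mul_sq_le_sq_mul_sq univ (fun j => F j y)
    fun j => ∑ p, ‖c.rho p‖ ^ 2 * (F j p - F j y)
  rw [e, hF] at h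
  unfold mm; nlinarith

theorem pw_ref {lam : ℝ} {k : ℕ} (hl : 0 < lam) (h : 320 * (k : ℝ) ≤ lam) {γ γ' : ℝ} (hγ : 0 ≤ γ)
    (hγ' : 0 ≤ γ') (a a' : ℝ) :
    (lam + En (wt F) (c.K a' γ')) ^ k ≤ 3 * (lam + En (wt F) (c.K a γ)) ^ k := by
  have h1 := (abs_le.1 (osc c F (wt_le hF) hγ' hγ a a')).2
  have h2 := En_nonneg (wt_nonneg F) (c.K a γ)
  have h3 := En_nonneg (wt_nonneg F) (c.K a' γ')
  refine le_trans ?_ (pw (C := 320) (by linarith) (by norm_num) (by linarith))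
  exact pow_le_pow_left₀ (by linarith) (by linarith) _

omit hF in
theorem q_sq {γ γ' : ℝ} (h0 : 0 ≤ γ') (h1 : γ' ≤ γ) (a a' : ℝ) :
    (En (wt F) (c.K a' γ') - En (wt F) (c.K a γ)) ^ 2 ≤
      192 * c.V (wt F) ^ 2 * ((γ - γ') * ‖c.z a γ‖ ^ 2 / c.J γ') +
        8000 * c.V (wt F) ^ 2 * ‖c.z a' γ' - c.z a γ‖ ^ 2 := by
  have hγ := h0.trans h1
  have hV := V_nonneg c (wt_nonneg F)
  have hJ := c.J_pos h0
  have hδ := sub_nonneg.2 h1
  rw [expand c (wt_symm F) (wt_self F y) hγ h0]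
  obtain ⟨D, hD⟩ : ∃ D, D = c.z a' γ' - c.z a γ := ⟨_, rfl⟩
  have z1 := zJ c h0 h1 a
  have z2 := zJ c h0 le_rfl a'
  have z3 : (γ - γ') * ‖c.z a γ‖ ≤ 1 := by
    refine le_trans (mul_le_mul_of_nonneg_right ?_ (norm_nonneg _)) (zJ c hγ le_rfl a)
    unfold Cav.J; linarith [c.s_pos]
  have d1 : c.J γ' * ‖D‖ ≤ 2 := by
    have := mul_le_mul_of_nonneg_left (norm_sub_le (c.z a' γ') (c.z a γ)) hJ.le
    rw [hD]; linarith
  rw [← hD]
  have t1 : (8 * (γ - γ') * ‖c.z a γ‖ ^ 2 * c.V (wt F)) ^ 2 ≤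
      64 * c.V (wt F) ^ 2 * ((γ - γ') * ‖c.z a γ‖ ^ 2 / c.J γ') :=
    calc _ = 64 * c.V (wt F) ^ 2 * ((γ - γ') * ‖c.z a γ‖ ^ 2 / c.J γ') *
          (((γ - γ') * ‖c.z a γ‖) * (c.J γ' * ‖c.z a γ‖)) := by field_simp; ring
      _ ≤ 64 * c.V (wt F) ^ 2 * ((γ - γ') * ‖c.z a γ‖ ^ 2 / c.J γ') * (1 * 1) := by gcongr
      _ = _ := by ring
  have t2 : (c1 c (wt F) a γ γ' * D).re ^ 2 ≤ (48 * c.V (wt F) * ‖D‖) ^ 2 := by
    rw [← sq_abs]
    gcongr
    refine (abs_re_le_norm _).trans ?_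
    rw [norm_mul]; gcongr; exact c1_wt c F h0 h1 a
  have t3 : (C2 c (wt F) γ' * ‖D‖ ^ 2) ^ 2 ≤ (16 * c.V (wt F) * ‖D‖) ^ 2 := by
    have := C2_nonneg c (wt_nonneg F) γ'
    refine pow_le_pow_left₀ (by positivity) ?_ 2
    calc _ ≤ 8 * c.J γ' * c.V (wt F) * ‖D‖ ^ 2 := by gcongr; exact C2_wt_le c F h0
      _ = 8 * c.V (wt F) * ‖D‖ * (c.J γ' * ‖D‖) := by ring
      _ ≤ 8 * c.V (wt F) * ‖D‖ * 2 := by gcongr
      _ = _ := by ring
  have t4 : ∀ x u v : ℝ, (-x + u + v) ^ 2 ≤ 3 * x ^ 2 + 3 * u ^ 2 + 3 * v ^ 2 := fun x u v => by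
    nlinarith [sq_nonneg (x + u), sq_nonneg (x + v), sq_nonneg (u - v)]
  refine (t4 _ _ _).trans ?_
  nlinarith [sq_nonneg (c.V (wt F) * ‖D‖)]

end

theorem siteK : ∃ C : ℝ, 0 < C ∧ ∀ (P : Type) [Fintype P] [DecidableEq P] (y : P) (c : Cav y)
    (ι : Type) [Fintype ι] (F : ι → P → ℝ) (a0 b γ γ' lam : ℝ) (k : ℕ),
    (∀ x, ∑ j, F j x ^ 2 = 1) → 0 ≤ γ' → γ' ≤ γ → γ ≤ b → 0 < b → C * (k + 1) ≤ lam →
    ∫ t, (lam + En (wt F) (c.K t γ')) ^ (k + 1) ∂law a0 b -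
      ∫ t, (lam + En (wt F) (c.K t γ)) ^ (k + 1) ∂law a0 b ≤
      C * (k + 1) * ((lam + En (wt F) (c.K a0 b)) ^ k * c.Bq a0 b γ (wt F)) := by
  obtain ⟨C, hC, h⟩ := step
  refine ⟨320 + 8192 * C, by positivity,
    fun P _ _ y c ι _ F a0 b γ γ' lam k hF h0 h1 h2 hb hl => ?_⟩
  have := law_prob a0 hb
  have hγ := h0.trans h1
  have hV := V_nonneg c (wt_nonneg F)
  have hB := Bq_nonneg c a0 b hγ (wt_nonneg F)
  have hk : (0 : ℝ) ≤ k := Nat.cast_nonneg k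
  have hl1 : 320 * ((k : ℝ) + 1) ≤ lam := by nlinarith
  have hl2 : 8192 * C * ((k : ℝ) + 1) ≤ lam := by nlinarith
  have hl0 : 0 < lam := by linarith
  have hE := fun a γ => En_nonneg (wt_nonneg F) (c.K a γ)
  obtain ⟨W, hW⟩ : ∃ W, W = (lam + En (wt F) (c.K a0 b)) ^ k := ⟨_, rfl⟩
  have hW0 : 0 ≤ W := by have := hE a0 b; rw [hW]; positivity
  rw [← hW]
  rcases h1.eq_or_lt with rfl | h1'
  · rw [sub_self]; positivity
  have hδ : 0 < γ - γ' := by linarith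
  have hJ := c.J_pos h0
  have nF : Nice fun K : P → P → ℂ => (lam + En (wt F) K) ^ (k + 1) :=
    ((Nice.const lam).add (nice_En _)).pow _
  obtain ⟨D, hD⟩ : ∃ D, D = 144 * (k + 1) * W * c.V (wt F) := ⟨_, rfl⟩
  have key := h P y c a0 b γ γ' D h0 h1' h2 (by rw [hD]; positivity) _ _
    (fun _ => C * ((γ - γ') * ‖c.z a0 b‖ ^ 2 * D)) (bm_K c nF h0) (bm_K c nF hγ) (BM.const _)
    fun a _ => by
      obtain ⟨u, hu⟩ : ∃ u, u = lam + En (wt F) (c.K a γ) := ⟨_, rfl⟩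
      have hlu : lam ≤ u := by rw [hu]; linarith [hE a γ]
      have hu0 : 0 < u := by linarith
      obtain ⟨σ, hσ⟩ : ∃ σ : ℝ, σ = (k + 1) * u ^ k := ⟨_, rfl⟩
      have hσ0 : 0 ≤ σ := by rw [hσ]; positivity
      have hσ1 : σ ≤ (k + 1) * (3 * W) := by
        rw [hσ, hW, hu]; gcongr
        exact pw_ref c hF hl0 (by linarith) hb.le hγ a0 a
      obtain ⟨q, hq⟩ : ∃ q : ℝ → ℝ, ∀ a', q a' = En (wt F) (c.K a' γ') - En (wt F) (c.K a γ) :=
        ⟨_, fun _ => rfl⟩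
      have e : ∀ a', σ * -(8 * (γ - γ') * ‖c.z a γ‖ ^ 2 * c.V (wt F)) +
          ((σ * c1 c (wt F) a γ γ') * (c.z a' γ' - c.z a γ)).re +
          σ * C2 c (wt F) γ' * ‖c.z a' γ' - c.z a γ‖ ^ 2 = σ * q a' := by
        intro a'
        rw [hq, expand c (wt_symm F) (wt_self F y) hγ h0 a a', mul_assoc (σ : ℂ), re_ofReal_mul]
        ring
      have e1 : ∀ a', lam + En (wt F) (c.K a' γ') = u + q a' := fun a' => by rw [hq, hu]; ring
      have ht : ∀ a', σ * q a' ≤ (u + q a') ^ (k + 1) - u ^ (k + 1) ∧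
          (u + q a') ^ (k + 1) - u ^ (k + 1) - σ * q a' ≤ (k + 1) * σ / u * q a' ^ 2 := by
        intro a'
        have h3 : |q a'| ≤ 320 := by rw [hq]; exact osc c F (wt_le hF) h0 hγ a a'
        have := tay (k := k) (q := q a') hu0 (by nlinarith)
        rw [hσ]
        exact ⟨this.1, this.2.trans (le_of_eq (by ring))⟩
      obtain ⟨T, hT⟩ : ∃ T, T = (γ - γ') * ‖c.z a γ‖ ^ 2 / c.J γ' := ⟨_, rfl⟩
      have hT0 : 0 ≤ T := by rw [hT]; positivity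
      obtain ⟨r, hr⟩ : ∃ r, r = (k + 1) * σ / u * c.V (wt F) ^ 2 := ⟨_, rfl⟩
      refine ⟨_, _, 8192 * r * T, _, fun a' => by rw [e, e1, ← hu]; exact (ht a').1, ?_, ?_, ?_⟩
      · simp only [e, e1, ← hu]
        refine le_trans (integral_mono_of_nonneg (.of_forall fun a' =>
          mul_nonneg (Law.cau_nonneg hδ.le _) (sub_nonneg.2 (ht a').1))
          (Law.cau_quad_int c.s_pos h0 h1' a (192 * r * T) (8000 * r) 0)
          (.of_forall fun a' => mul_le_mul_of_nonneg_left ((ht a').2.trans ?_)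
            (Law.cau_nonneg hδ.le _))) (le_of_eq ?_)
        · have h4 := mul_le_mul_of_nonneg_left (q_sq c (F := F) h0 h1 a a')
            (show 0 ≤ (k + 1) * σ / u by positivity)
          rw [← hq, ← hT] at h4
          refine h4.trans (le_of_eq ?_)
          simp only [hr, zero_mul, zero_re, Cav.z]; ring
        · rw [cau_quad c.s_pos h0 h1']
          change _ + _ * ((γ - γ') * ‖c.z a γ‖ ^ 2 / c.J γ') = _
          rw [← hT]; ring
      · rw [abs_of_nonneg (mul_nonneg hσ0 (C2_nonneg c (wt_nonneg F) γ')), hD]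
        calc _ ≤ (k + 1) * (3 * W) * (8 * c.J γ' * c.V (wt F)) := by
              gcongr
              · exact C2_nonneg c (wt_nonneg F) γ'
              · exact C2_wt_le c F h0
          _ = 24 * ((k + 1) * W * c.V (wt F) * c.J γ') := by ring
          _ ≤ 144 * ((k + 1) * W * c.V (wt F) * c.J γ') := by gcongr; norm_num
          _ = _ := by ring
      · have e2 := congrArg (σ * ·) (ideal_wt c F (γ := γ) h0 a)
        have e3 : ‖(σ : ℂ) * c1 c (wt F) a γ γ'‖ ≤ D := by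
          rw [norm_mul, Complex.norm_real, Real.norm_of_nonneg hσ0, hD]
          calc _ ≤ (k + 1) * (3 * W) * (48 * c.V (wt F)) := by gcongr; exact c1_wt c F h0 h1 a
            _ = _ := by ring
        have e4 := mul_le_mul_of_nonneg_left e3
          (show 0 ≤ C * ((γ - γ') * ‖c.z a0 b‖ ^ 2) by positivity)
        have e5 : 8 * (γ - γ') * ‖c.z a γ‖ ^ 2 / c.J γ' = 8 * T := by rw [hT]; ring
        beta_reduce at e2
        rw [e5, ← hT] at e2
        have e6 : C * (8192 * r * T) ≤ σ * (8 * T * mm c F) :=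
          calc _ = 8192 * C * (k + 1) / u * (σ * T * c.V (wt F) ^ 2) := by rw [hr]; ring
            _ ≤ 1 * (σ * T * (4 * mm c F)) := by
                gcongr
                · rw [div_le_one hu0]; linarith
                · exact sphere c hF
            _ ≤ _ := by
                have := mm_nonneg c F
                have : 0 ≤ σ * T * mm c F := by positivity
                nlinarith
        rw [← hT]; nlinarith
  simp only [integral_const, probReal_univ, smul_eq_mul, one_mul] at key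
  refine key.trans ?_
  have e7 : 0 ≤ C * (k + 1) * W * (γ' * ‖c.z a0 b‖ ^ 2 * c.V (wt F)) := by positivity
  have e8 : 0 ≤ (320 + 7976 * C) * (k + 1) * (W * c.Bq a0 b γ (wt F)) := by positivity
  rw [hD]; unfold Cav.Bq at *; nlinarith

end Qd

theorem driftD : ∃ C : ℝ, 0 < C ∧ ∀ (L : Lat) (st : Stat L) (Y1 : Finset L.X), Y1 ⊆ st.Y →
    ∀ (m : ℕ) (γ' : L.X → ℝ) (θ : ℝ), 0 < θ → (∀ y ∈ Y1, 0 ≤ γ' y ∧ γ' y ≤ st.γ y) →
    st.dr Y1 γ' (En (L.s4 m)) ≤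
      C * (1 + 1 / θ) * st.I0 (fun K => ∑ y ∈ Y1, Gam (L.s4 m) K (y, true)) +
        θ * st.I0 (En (L.s4 m)) := by
  obtain ⟨C, hC, h⟩ := Qd.driftU
  refine ⟨C, hC, fun L st Y1 hY m γ' θ hθ hγ' => ?_⟩
  obtain ⟨U, hU⟩ : ∃ U : Fin 2 → L.P → ℂ, ∀ i p, U i p = L.U (m + 1) i p.1 := ⟨_, fun _ _ => rfl⟩
  have hn : ∀ i p, ‖U i p‖ = 1 := fun i p => by rw [hU, L.norm_U]
  have e : ∀ K p, Gam (L.s4 m) K p = Gam (Qd.wU (U 0)) K p + Gam (Qd.wU (U 1)) K p := by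
    intro K p
    simp only [Gam, ← sum_add_distrib, Lat.s4, Fin.sum_univ_two, Lat.del, Qd.wU, hU]
    exact sum_congr rfl fun q _ => by ring
  have e1 : En (L.s4 m) = fun K => En (Qd.wU (U 0)) K + En (Qd.wU (U 1)) K := by
    funext K; simp only [En, e, sum_add_distrib]
  have nG : ∀ i, Nice fun K : L.Mat => ∑ y ∈ Y1, Gam (Qd.wU (U i)) K (y, true) :=
    fun i => Nice.sum _ fun y _ => nice_Gam _ _
  simp only [e, sum_add_distrib]
  rw [e1, Qd.dr_add st (fun y hy => (hγ' y hy).1) (nice_En _) (nice_En _),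
    Qd.I0_add st (nice_En _) (nice_En _), Qd.I0_add st (nG 0) (nG 1)]
  linarith [h L st Y1 hY (U 0) γ' θ (hn 0) hθ hγ', h L st Y1 hY (U 1) γ' θ (hn 1) hθ hγ']
theorem driftK : ∃ C : ℝ, 0 < C ∧ ∀ (L : Lat) (st : Stat L) (Y1 : Finset L.X), Y1 ⊆ st.Y →
    ∀ (ι : Type) [Fintype ι] (F : ι → L.P → ℝ) (γ' : L.X → ℝ) (p : ℕ) (lam : ℝ),
    (∀ x, ∑ j, F j x ^ 2 = 1) → (∀ y ∈ Y1, 0 ≤ γ' y ∧ γ' y ≤ st.γ y) → 1 ≤ p → C * p ≤ lam →
    st.dr Y1 γ' (fun K => (lam + En (wt F) K) ^ p) ≤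
      C * p * st.IB Y1 (fun K => (lam + En (wt F) K) ^ (p - 1)) (wt F) := by
  obtain ⟨C, hC, h⟩ := Qd.siteK
  refine ⟨C, hC, fun L st Y1 hY ι _ F γ' p lam hF hγ' hp hl => ?_⟩
  obtain ⟨k, rfl⟩ : ∃ k, p = k + 1 := ⟨p - 1, by omega⟩
  have nF : ∀ n : ℕ, Nice fun K : L.Mat => (lam + En (wt F) K) ^ n :=
    fun n => ((Nice.const lam).add (nice_En _)).pow _
  rw [Qd.mul_IB, ← one_mul (st.dr _ _ _)]
  refine Qd.dr_le st hY (nF _) (fun y hy => (hγ' y hy).1) 1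
    (fun y hy => (Qd.bm_bias st hY (nF _) _ y hy).const_mul _) fun y hy a c _ e3 => ?_
  obtain ⟨-, hb, -, hγb⟩ := st.hY y (hY hy)
  have := law_prob (st.a0 y) hb
  push_cast at hl ⊢
  simp only [e3, one_mul, c.Bq_eq hb (Qd.wt_self F _), integral_const, probReal_univ,
    smul_eq_mul]
  exact h _ _ c ι F _ _ _ _ lam k hF (hγ' y hy).1 (hγ' y hy).2 hγb hb hl
/-- trivial tempered bias -/
theorem trivK : ∃ C : ℝ, 0 < C ∧ ∀ (L : Lat) (st : Stat L) (Y1 : Finset L.X), Y1 ⊆ st.Y →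
    ∀ (ι : Type) [Fintype ι] (F : ι → L.P → ℝ) (p : ℕ) (lam : ℝ),
    (∀ x, ∑ j, F j x ^ 2 = 1) → 1 ≤ p → C * p ≤ lam →
    st.IB Y1 (fun K => (lam + En (wt F) K) ^ (p - 1)) (wt F) ≤
      C * st.I0 (fun K => (lam + En (wt F) K) ^ p) := by
  refine ⟨320, by norm_num, fun L st Y1 hY ι _ F p lam hF hp hl => ?_⟩
  obtain ⟨k, rfl⟩ : ∃ k, p = k + 1 := ⟨p - 1, by omega⟩
  have nF : ∀ n : ℕ, Nice fun K : L.Mat => (lam + En (wt F) K) ^ n :=
    fun n => ((Nice.const lam).add (nice_En _)).pow _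
  have hk : (0 : ℝ) ≤ k := Nat.cast_nonneg k
  push_cast at hl
  have hl0 : 0 < lam := by linarith
  have b1 : ∀ y ∈ Y1, BM fun a => 3 * (lam + En (wt F) (L.Km st.E st.η st.γ a)) ^ k *
      (9 * Gam (wt F) (L.Km st.E st.η st.γ a) (y, true)) := fun y _ =>
    ((st.bm_Km (nF k) st.γ_nonneg).const_mul 3).mul
      ((st.bm_Km (nice_Gam _ _) st.γ_nonneg).const_mul 9)
  refine (Qd.sum_lift_ae st hY (Qd.bm_bias st hY (nF _) _) b1 fun y hy a t ht => ?_).trans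
    ((st.Ia_mono (BM.sum _ b1) ((st.bm_Km (nF (k + 1)) st.γ_nonneg).const_mul 320)
      fun a => ?_).trans (le_of_eq (st.Ia_mul _ _)))
  · obtain ⟨-, hb, -, hγb⟩ := st.hY y (hY hy)
    obtain ⟨c, -, e2, e3, -⟩ := st.cav a (hY hy)
    have hγ := st.γ_nonneg y
    have := En_nonneg (Qd.wt_nonneg F) (c.K t (st.γ y))
    rw [e2, e3, c.Bq_eq hb (Qd.wt_self F _), Nat.add_sub_cancel]
    exact mul_le_mul (Qd.pw_ref c hF hl0 (by linarith) hγ hb.le _ _)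
      (Qd.Bq_le c hγ hγb ht (Qd.wt_nonneg F) (Qd.wt_self F _))
      (Qd.Bq_nonneg c _ _ hγ (Qd.wt_nonneg F)) (by positivity)
  · obtain ⟨K, hK⟩ : ∃ K, K = L.Km st.E st.η st.γ a := ⟨_, rfl⟩
    have h1 := En_nonneg (Qd.wt_nonneg F) K
    have h2 : ∑ y ∈ Y1, Gam (wt F) K (y, true) ≤ En (wt F) K :=
      Qd.sum_true_le Y1 (Gam_nonneg (Qd.wt_nonneg F) K)
    have h3 : 0 ≤ (lam + En (wt F) K) ^ k := by positivity
    rw [← hK, ← mul_sum, ← mul_sum, pow_succ]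
    nlinarith [mul_le_mul_of_nonneg_left h2 h3, mul_nonneg h3 h1, mul_nonneg h3 hl0.le]

end Crest.Agent.N334.G
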