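import Crest.Agent.N334.G.S01

/-!
# Row 334, S0519 GAIN: static hierarchy, ensemble level
-/

set_option autoImplicit false

open MeasureTheory Finset Complex
open scoped BigOperators ComplexConjugate

noncomputable section

namespace Crest.Agent.N334.G

theorem smain : ∀ i Λ2 : ℝ, 1 ≤ i → 1 ≤ Λ2 → ∃ C : ℝ, 0 < C ∧ ∀ (L : Lat) (st : Stat L) (κ0 : ℝ),
    1 ≤ κ0 →
    st.Ia (fun a => ∑ m ∈ range L.N, ∑ c,
      if L.kap Λ2 c m (L.Km st.E st.η st.γ a) ≤ κ0 then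
        L.Main st.Y (st.Gd a) i Λ2 (L.Km st.E st.η st.γ a) c m / 4 ^ m else 0) ≤
      C * κ0 ^ 2 * (st.I0 (fun K => ∑ y ∈ st.Y, L.GN K (y, true)) +
        st.IB st.Y (fun _ => 1) L.r2) := fun i Λ2 _ hΛ => S0.smain' i Λ2 hΛ

end Crest.Agent.N334.G
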