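import Crest.Agent.N334.G.Det
import Crest.Agent.N334.G.Mom
import Crest.Agent.N334.G.A
import Crest.Agent.N334.G.B
import Crest.Agent.N334.G.E1
import Crest.Agent.N334.G.S

/-!
# Row 334, S0519 GAIN: the combined static drift inequality
-/

set_option autoImplicit false

open MeasureTheory Finset Complex
open scoped BigOperators ComplexConjugate

noncomputable section

namespace Crest.Agent.N334.G

namespace Stat
variable {L : Lat} (st : Stat L)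

theorem Ig_add {F G : L.Mat → ℝ} (hF : Nice F) (hG : Nice G) {γ : L.X → ℝ} (hγ : ∀ x, 0 ≤ γ x) :
    st.Ig γ (fun K => F K + G K) = st.Ig γ F + st.Ig γ G :=
  st.Ia_add (st.bm_Km hF hγ) (st.bm_Km hG hγ)
theorem Ig_sub {F G : L.Mat → ℝ} (hF : Nice F) (hG : Nice G) {γ : L.X → ℝ} (hγ : ∀ x, 0 ≤ γ x) :
    st.Ig γ (fun K => F K - G K) = st.Ig γ F - st.Ig γ G :=
  st.Ia_sub (st.bm_Km hF hγ) (st.bm_Km hG hγ)
theorem Ig_mul (r : ℝ) (F : L.Mat → ℝ) (γ : L.X → ℝ) :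
    st.Ig γ (fun K => r * F K) = r * st.Ig γ F := st.Ia_mul r _
theorem Ig_sum {ι : Type} (s : Finset ι) {F : ι → L.Mat → ℝ} (h : ∀ i ∈ s, Nice (F i))
    {γ : L.X → ℝ} (hγ : ∀ x, 0 ≤ γ x) :
    st.Ig γ (fun K => ∑ i ∈ s, F i K) = ∑ i ∈ s, st.Ig γ (F i) :=
  st.Ia_sum s fun i hi => st.bm_Km (h i hi) hγ
theorem I0_mono {F G : L.Mat → ℝ} (hF : Nice F) (hG : Nice G) (h : ∀ K, IsPort K → F K ≤ G K) :
    st.I0 F ≤ st.I0 G :=
  st.Ia_mono (st.bm_Km hF st.γ_nonneg) (st.bm_Km hG st.γ_nonneg) fun a =>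
    h _ (L.port_Km st.E st.η_pos st.γ_nonneg a)
theorem I0_nonneg {F : L.Mat → ℝ} (h : ∀ K, 0 ≤ F K) : 0 ≤ st.I0 F := st.Ia_nonneg fun _ => h _
theorem I0_le_const {F : L.Mat → ℝ} (hF : Nice F) {r : ℝ}
    (h : ∀ a, F (L.Km st.E st.η st.γ a) ≤ r) : st.I0 F ≤ r := by
  have := st.Ia_mono (st.bm_Km hF st.γ_nonneg) (BM.const r) h
  rwa [st.Ia_const] at this

theorem upd_nonneg {γ' : L.X → ℝ} {y : L.X} (h : 0 ≤ γ' y) (x : L.X) :
    0 ≤ Function.update st.γ y (γ' y) x := by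
  by_cases hx : x = y
  · subst hx; simpa using h
  · simpa [Function.update_of_ne hx] using st.γ_nonneg x

theorem half_nonneg (y : L.X) : 0 ≤ st.half y := div_nonneg (st.γ_nonneg y) two_pos.le

theorem dr_sub {F G : L.Mat → ℝ} (hF : Nice F) (hG : Nice G) (Y1 : Finset L.X) {γ' : L.X → ℝ}
    (h : ∀ y, 0 ≤ γ' y) :
    st.dr Y1 γ' (fun K => F K - G K) = st.dr Y1 γ' F - st.dr Y1 γ' G := by
  unfold dr I0
  rw [← sum_sub_distrib]
  refine sum_congr rfl fun y _ => ?_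
  rw [st.Ig_sub hF hG (st.upd_nonneg (h y)), st.Ig_sub hF hG st.γ_nonneg]; ring

theorem dr_sum {ι : Type} (s : Finset ι) {F : ι → L.Mat → ℝ} (hF : ∀ i ∈ s, Nice (F i))
    (Y1 : Finset L.X) {γ' : L.X → ℝ} (h : ∀ y, 0 ≤ γ' y) :
    st.dr Y1 γ' (fun K => ∑ i ∈ s, F i K) = ∑ i ∈ s, st.dr Y1 γ' (F i) := by
  unfold dr I0
  rw [sum_comm]
  refine sum_congr rfl fun y _ => ?_
  rw [st.Ig_sum s hF (st.upd_nonneg (h y)), st.Ig_sum s hF st.γ_nonneg, sum_sub_distrib]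

theorem dr_congr (Y1 : Finset L.X) {γ' γ'' : L.X → ℝ} (h : ∀ y ∈ Y1, γ' y = γ'' y)
    (F : L.Mat → ℝ) : st.dr Y1 γ' F = st.dr Y1 γ'' F :=
  sum_congr rfl fun y hy => by rw [h y hy]
end Stat

/-- the logarithmic potential -/
def Lat.Lam (L : Lat) (m0 m1 : ℕ) (K : L.Mat) : ℝ :=
  ∑ m ∈ Ico m0 m1, (En L.r2 K - En (L.rho2 m) K)

theorem Lat.nice_Lam (L : Lat) (m0 m1 : ℕ) : Nice (L.Lam m0 m1) :=
  Nice.sum _ fun _ _ => (nice_En _).sub (nice_En _)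

theorem Lat.r2_nonneg (L : Lat) (p q : L.P) : 0 ≤ L.r2 p q := L.rho2_nonneg _ _ _

theorem sum_act_le {L : Lat} (Y : Finset L.X) {f : L.P → ℝ} (hf : ∀ p, 0 ≤ f p) :
    ∑ y ∈ Y, f (y, true) ≤ ∑ p, f p := by
  rw [Fintype.sum_prod_type]
  refine (sum_le_sum fun y _ => ?_).trans
    (sum_le_sum_of_subset_of_nonneg (subset_univ Y) fun x _ _ => sum_nonneg fun _ _ => hf _)
  rw [Fintype.sum_bool]; linarith [hf (y, false)]

theorem sum_Gam_le {L : Lat} (Y : Finset L.X) {w : L.P → L.P → ℝ} (hw : ∀ p q, 0 ≤ w p q)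
    (K : L.Mat) : ∑ y ∈ Y, Gam w K (y, true) ≤ En w K :=
  sum_act_le Y fun p => Gam_nonneg hw K p

theorem Hub_split {L : Lat} {Y1 Y : Finset L.X} (h : Y1 ⊆ Y) (i j j' : ℝ) (K : L.Mat) :
    L.Hub Y Y i j j' K ≤ L.Hub Y1 Y i j j' K + ∑ y ∈ Y \ Y1, Gam L.r2 K (y, true) := by
  unfold Lat.Hub
  rw [← sum_sdiff h, add_comm]
  refine add_le_add le_rfl (sum_le_sum fun y _ => ?_)
  rw [← L.sum_nn]
  refine sum_le_sum fun m _ => ?_
  have h0 : 0 ≤ L.nn K (y, true) m := Gam_nonneg (L.wh_nonneg m) K _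
  split_ifs
  · rw [← L.th_mul K (y, true) m, mul_assoc]
    refine mul_le_mul_of_nonneg_left (mul_le_mul_of_nonneg_left ?_ (L.th_nonneg _ _ _))
      (by positivity)
    exact sum_le_sum fun p _ => by split_ifs; exacts [le_rfl, cc_nonneg _ _ _]
  · positivity

theorem GN_split {L : Lat} {Y1 Y : Finset L.X} (h : Y1 ⊆ Y) (K : L.Mat) :
    ∑ y ∈ Y, L.GN K (y, true) ≤
      ∑ y ∈ Y1, L.GN K (y, true) + ∑ y ∈ Y \ Y1, Gam L.r2 K (y, true) := by
  rw [← sum_sdiff h, add_comm]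
  refine add_le_add le_rfl (sum_le_sum fun y _ => ?_)
  have := Gn_le_Gam (L.Phi L.N) K (y, true)
  rwa [L.wt_Phi] at this

/-- drift of the logarithmic potential -/
theorem dr_Lam : ∃ C : ℝ, 0 < C ∧ ∀ (L : Lat) (st : Stat L) (Y1 : Finset L.X), Y1 ⊆ st.Y →
    ∀ (m0 m1 : ℕ) (i1 : ℝ), m1 ≤ L.N → 0 ≤ i1 →
    st.dr Y1 st.half (L.Lam m0 m1) ≤ C * st.I0 (fun K => ∑ y ∈ st.Y, L.Sh i1 K (y, true)) +
      C * Real.exp (-i1 / 8) * st.I0 (En L.r2) + C * m1 * st.IB st.Y (fun _ => 1) L.r2 := by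
  obtain ⟨CA, hCA, hA⟩ := driftA
  obtain ⟨CH, hCH, hH⟩ := driftQ_half
  refine ⟨2 * CA + 2 * CH, by positivity, fun L st Y1 hY m0 m1 i1 hm hi => ?_⟩
  have hIB0 : 0 ≤ st.IB st.Y (fun _ => 1) L.r2 :=
    st.IB_nonneg Subset.rfl (fun _ => zero_le_one) L.r2_nonneg
  have hb : ∀ m, m ≤ L.N → st.IB Y1 (fun _ => 1) (L.rho2 m) ≤ st.IB st.Y (fun _ => 1) L.r2 :=
    fun m hm => st.IB_mono hY Subset.rfl (Nice.const 1) (Nice.const 1) (fun _ => zero_le_one)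
      (fun _ => le_rfl) (L.rho2_nonneg m) (L.rho2_le_r2 hm)
  have h1 : ∀ m ∈ Ico m0 m1, st.dr Y1 st.half (fun K => En L.r2 K - En (L.rho2 m) K) ≤
      2 * st.I0 (fun K => ∑ y ∈ Y1, (Gn (L.Phi m) K (y, true) - L.GN K (y, true))) +
        2 * CH * st.IB st.Y (fun _ => 1) L.r2 := by
    intro m hmm
    have hmN : m ≤ L.N := (mem_Ico.1 hmm).2.le.trans hm
    have a1 := abs_le.1 (hH L st Y1 hY _ (L.Phi m))
    have a2 := abs_le.1 (hH L st Y1 hY _ (L.Phi L.N))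
    rw [L.wt_Phi] at a1 a2
    have e : st.I0 (fun K => ∑ y ∈ Y1, (Gn (L.Phi m) K (y, true) - L.GN K (y, true))) =
        st.I0 (fun K => ∑ y ∈ Y1, Gn (L.Phi m) K (y, true)) -
          st.I0 (fun K => ∑ y ∈ Y1, Gn (L.Phi L.N) K (y, true)) := by
      simp only [sum_sub_distrib]
      exact st.Ig_sub (Nice.sum _ fun _ _ => nice_Gn _ _) (Nice.sum _ fun _ _ => nice_Gn _ _)
        st.γ_nonneg
    rw [st.dr_sub (nice_En _) (nice_En _) _ st.half_nonneg, e]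
    have b1 := mul_le_mul_of_nonneg_left (hb m hmN) hCH.le
    have b2 := mul_le_mul_of_nonneg_left (hb L.N le_rfl) hCH.le
    have : st.dr Y1 st.half (En L.r2) = st.dr Y1 st.half (En (L.rho2 L.N)) := rfl
    linarith [a1.1, a2.2]
  have nG : ∀ m, Nice fun K => ∑ y ∈ Y1, (Gn (L.Phi m) K (y, true) - L.GN K (y, true)) :=
    fun m => Nice.sum _ fun _ _ => (nice_Gn _ _).sub (L.nice_GN _)
  have nS : Nice fun K => ∑ y ∈ st.Y, L.Sh i1 K (y, true) := Nice.sum _ fun _ _ => L.nice_Sh _ _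
  have h2 : ∑ m ∈ Ico m0 m1,
      st.I0 (fun K => ∑ y ∈ Y1, (Gn (L.Phi m) K (y, true) - L.GN K (y, true))) ≤
      CA * st.I0 (fun K => ∑ y ∈ st.Y, L.Sh i1 K (y, true)) +
        CA * Real.exp (-i1 / 8) * st.I0 (En L.r2) := by
    have e1 := st.Ig_sum (Ico m0 m1) (fun m _ => nG m) st.γ_nonneg
    have e2 := st.Ig_add ((Nice.const CA).mul nS)
      ((Nice.const (CA * Real.exp (-i1 / 8))).mul (nice_En L.r2)) st.γ_nonneg
    rw [st.Ig_mul, st.Ig_mul] at e2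
    unfold Stat.I0
    rw [← e1, ← e2]
    refine st.I0_mono (Nice.sum _ fun m _ => nG m) (((Nice.const CA).mul nS).add
      ((Nice.const _).mul (nice_En L.r2))) fun K hK => ?_
    rw [sum_comm]
    have hS : ∀ y, 0 ≤ L.Sh i1 K (y, true) := fun y => sum_nonneg fun m _ => by
      have h0 : 0 ≤ L.nn K (y, true) m := Gam_nonneg (L.wh_nonneg m) K _
      split_ifs <;> positivity
    calc _ ≤ ∑ y ∈ Y1, (CA * L.Sh i1 K (y, true) +
          CA * Real.exp (-i1 / 8) * Gam L.r2 K (y, true)) :=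
          sum_le_sum fun y _ => hA L K hK _ m0 m1 i1 hm hi
      _ ≤ _ := by
          rw [sum_add_distrib, ← mul_sum, ← mul_sum]
          exact add_le_add (mul_le_mul_of_nonneg_left
            (sum_le_sum_of_subset_of_nonneg hY fun y _ _ => hS y) hCA.le)
            (mul_le_mul_of_nonneg_left (sum_Gam_le _ L.r2_nonneg K) (by positivity))
  have e0 : st.dr Y1 st.half (L.Lam m0 m1) =
      ∑ m ∈ Ico m0 m1, st.dr Y1 st.half (fun K => En L.r2 K - En (L.rho2 m) K) :=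
    st.dr_sum _ (fun _ _ => (nice_En _).sub (nice_En _)) Y1 st.half_nonneg
  have h3 := sum_le_sum h1
  rw [sum_add_distrib, ← mul_sum, sum_const, Nat.card_Ico, nsmul_eq_mul] at h3
  have h4 : ((m1 - m0 : ℕ) : ℝ) ≤ m1 := by exact_mod_cast Nat.sub_le _ _
  have hS0 : 0 ≤ st.I0 (fun K => ∑ y ∈ st.Y, L.Sh i1 K (y, true)) :=
    st.I0_nonneg fun K => sum_nonneg fun y _ => sum_nonneg fun m _ => by
      have h0 : 0 ≤ L.nn K (y, true) m := Gam_nonneg (L.wh_nonneg m) K _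
      split_ifs <;> positivity
  have hE0 : 0 ≤ Real.exp (-i1 / 8) * st.I0 (En L.r2) :=
    mul_nonneg (Real.exp_pos _).le (st.I0_nonneg fun K => En_nonneg L.r2_nonneg K)
  have h5 := mul_le_mul_of_nonneg_right h4 (mul_nonneg hCH.le hIB0)
  have h6 : (0 : ℝ) ≤ CA * (m1 * st.IB st.Y (fun _ => 1) L.r2) := by positivity
  rw [e0]
  nlinarith [mul_nonneg hCH.le hS0, mul_nonneg hCH.le hE0]

/-- the hub terms are paid by the depth potential -/
theorem hub_le : ∃ C : ℝ, 0 < C ∧ ∀ (L : Lat) (st : Stat L) (Y1 : Finset L.X), Y1 ⊆ st.Y →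
    ∀ i j j' : ℝ, 1 ≤ i → j < j' →
    (j' - j) / 2 * st.I0 (L.Hub Y1 st.Y i j j') ≤ st.dr Y1 st.half (L.Pot st.Y i) +
      C * st.I0 (En L.r2) + C * i ^ 2 * st.I0 (fun K => ∑ y ∈ Y1, L.GN K (y, true)) +
      C * i ^ 2 * st.IB st.Y (fun _ => 1) L.r2 := by
  obtain ⟨CB, hCB, hB⟩ := driftB
  obtain ⟨CF, hCF, hF⟩ := falls
  refine ⟨CB + CF, by positivity, fun L st Y1 hY i j j' hi hj => ?_⟩
  have hi0 : 0 ≤ i := by linarith
  have h1 := hB L st Y1 hY i hi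
  have h2 : st.I0 (fun K => (j' - j) / 2 * L.Hub Y1 st.Y i j j' K - CF * En L.r2 K) ≤
      st.I0 (fun K => ∑ y ∈ Y1, L.Red st.Y i K (y, true)) :=
    st.I0_mono (((Nice.const _).mul (L.nice_Hub _ _ hi0 _ _)).sub
      ((Nice.const _).mul (nice_En _))) (Nice.sum _ fun _ _ => L.nice_Red _ hi0 _)
      fun K hK => hF L K hK Y1 st.Y i j j' hY hi hj
  have e := st.Ig_sub ((Nice.const ((j' - j) / 2)).mul (L.nice_Hub Y1 st.Y hi0 j j'))
    ((Nice.const CF).mul (nice_En L.r2)) st.γ_nonneg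
  rw [st.Ig_mul, st.Ig_mul] at e
  have h3 : st.IB Y1 (fun _ => 1) L.r2 ≤ st.IB st.Y (fun _ => 1) L.r2 :=
    st.IB_mono hY Subset.rfl (Nice.const 1) (Nice.const 1) (fun _ => zero_le_one)
      (fun _ => le_rfl) L.r2_nonneg fun _ _ => le_rfl
  have hIB0 : 0 ≤ st.IB st.Y (fun _ => 1) L.r2 :=
    st.IB_nonneg Subset.rfl (fun _ => zero_le_one) L.r2_nonneg
  have hG0 : 0 ≤ st.I0 (fun K => ∑ y ∈ Y1, L.GN K (y, true)) :=
    st.I0_nonneg fun K => sum_nonneg fun _ _ => Gn_nonneg _ _ _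
  have h4 := mul_le_mul_of_nonneg_left h3 (by positivity : 0 ≤ CB * i ^ 2)
  have h5 : 0 ≤ CF * i ^ 2 * st.IB st.Y (fun _ => 1) L.r2 := by positivity
  have h6 : 0 ≤ CF * i ^ 2 * st.I0 (fun K => ∑ y ∈ Y1, L.GN K (y, true)) := by positivity
  unfold Stat.I0 at *
  rw [e] at h2
  nlinarith

/-- ensemble form of the rigidity estimate -/
theorem rigidE : ∀ i1 δ : ℝ, 1 ≤ i1 → 0 < δ → ∃ C1 Λ2 : ℝ, 0 < C1 ∧ 1 ≤ Λ2 ∧ ∀ i2 : ℝ, i1 < i2 →
    ∃ C2 : ℝ, 0 < C2 ∧ ∀ i : ℝ, i2 + 1 ≤ i → ∃ C3 : ℝ, 0 < C3 ∧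
    ∀ (L : Lat) (st : Stat L) (Y1 : Finset L.X) (M : ℕ) (κ0 γf : ℝ), Y1 ⊆ st.Y → 1 ≤ κ0 → 0 ≤ γf →
    (∀ y ∈ st.Y \ Y1, st.γ y ≤ γf) →
    st.I0 (fun K => ∑ y ∈ st.Y, L.Sh i1 K (y, true)) ≤ δ * st.I0 (En L.r2) +
      C1 * st.I0 (L.Hub Y1 st.Y i i1 i2) + C2 * st.I0 (L.Hub Y1 st.Y i i2 (i - 1)) +
      C3 * κ0 ^ 4 * (st.I0 (fun K => ∑ y ∈ Y1, L.GN K (y, true)) + st.IB st.Y (fun _ => 1) L.r2 +
        γf / st.η ^ 4 * Fintype.card L.X) +
      C3 * ((M + 1) / (4 ^ M * st.η ^ 6) * Fintype.card L.X) +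
      C3 * ∑ m ∈ range (min M L.N), ∑ c,
        st.I0 (fun K => if κ0 < L.kap Λ2 c m K then L.kap Λ2 c m K else 0) := by
  intro i1 δ hi1 hδ
  obtain ⟨C1, Λ2, hC1, hΛ, h1⟩ := rigid i1 δ hi1 hδ
  refine ⟨C1, Λ2, hC1, hΛ, fun i2 hi2 => ?_⟩
  obtain ⟨C2, hC2, h2⟩ := h1 i2 hi2
  refine ⟨C2, hC2, fun i hi => ?_⟩
  obtain ⟨C3, hC3, h3⟩ := h2 i hi
  have hi' : 1 ≤ i := by linarith
  have hi0 : 0 ≤ i := by linarith
  obtain ⟨CS, hCS, hS⟩ := smain i Λ2 hi' hΛ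
  obtain ⟨Cb, hCb, hb⟩ := badShare
  obtain ⟨Cd, hCd, hd⟩ := det_r2
  obtain ⟨Ct, hCt, ht⟩ := det_tail
  refine ⟨(1 + Cd) * (C1 + C2 + C3 * CS) + C3 * Cb + Ct + C3, by positivity,
    fun L st Y1 M κ0 γf hY hκ hγf hfl => ?_⟩
  set Km := fun a => L.Km st.E st.η st.γ a with hKm
  have bm : ∀ {F : L.Mat → ℝ}, Nice F → BM fun a => F (Km a) := fun hF =>
    st.bm_Km hF st.γ_nonneg
  have nk : ∀ c m, Nice (L.kap Λ2 c m) := fun c m => nice_En _
  have ntr : ∀ c m, Nice fun K => if κ0 < L.kap Λ2 c m K then L.kap Λ2 c m K else 0 :=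
    fun c m => Nice.ite (measurableSet_lt measurable_const (nk c m).meas) (nk c m) (Nice.const 0)
  -- bounded measurability of the two terms that depend on the good set
  have bbad : BM fun a => ∑ y ∈ st.Y \ st.Gd a, Gam L.r2 (Km a) (y, true) := by
    classical
    have : (fun a => ∑ y ∈ st.Y \ st.Gd a, Gam L.r2 (Km a) (y, true)) =
        fun a => ∑ y ∈ st.Y, if y ∈ st.Gd a then 0 else Gam L.r2 (Km a) (y, true) := by
      funext a
      rw [sdiff_eq_filter, sum_filter]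
      exact sum_congr rfl fun y _ => by split_ifs <;> simp_all
    rw [this]
    exact BM.sum _ fun y _ => BM.ite (st.measurableSet_Gd y) (BM.const 0) (bm (nice_Gam _ _))
  have bmain : ∀ c m, BM fun a => L.Main st.Y (st.Gd a) i Λ2 (Km a) c m := by
    classical
    intro c m
    unfold Lat.Main
    refine BM.sum _ fun y _ => (bm (L.nice_psi _ _)).mul ((bm (L.nice_GN _)).add ?_)
    have : ∀ (g : (L.X → ℝ) → L.X → ℝ), (fun a => ∑ x ∈ ((st.Gd a).erase y).filter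
        (fun x => L.rx x c ≤ Λ2 * 4 ^ m ∧ Real.exp (-i) ≤ L.th (Km a) (x, true) m), g a x) =
        fun a => ∑ x ∈ (univ.erase y).filter (fun x => L.rx x c ≤ Λ2 * 4 ^ m),
          if x ∈ st.Gd a then (if Real.exp (-i) ≤ L.th (Km a) (x, true) m then g a x else 0)
            else 0 := by
      intro g
      funext a
      rw [← sum_filter, ← sum_filter]
      refine sum_congr ?_ fun _ _ => rfl
      ext x; simp only [mem_filter, mem_erase, mem_univ]; tauto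
    rw [this]
    refine BM.sum _ fun x _ => BM.ite (st.measurableSet_Gd x) (BM.ite
      (measurableSet_le measurable_const (bm (L.nice_th _ _)).meas) ?_ (BM.const 0)) (BM.const 0)
    exact (bm (L.nice_ph _ _)).add (BM.sum _ fun z _ =>
      (bm (L.nice_Om _ _ _ _)).mul (bm (L.nice_XX _ _ _)))
  have bM : BM fun a => ∑ m ∈ range L.N, ∑ c, if L.kap Λ2 c m (Km a) ≤ κ0 then
      L.Main st.Y (st.Gd a) i Λ2 (Km a) c m / 4 ^ m else 0 := by
    refine BM.sum _ fun m _ => BM.sum _ fun c _ => BM.ite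
      (measurableSet_le (bm (nk c m)).meas measurable_const) ?_ (BM.const 0)
    simpa only [div_eq_mul_inv] using (bmain c m).mul (BM.const _)
  have hγ1 : ∀ x, 0 ≤ st.γ x ∧ st.γ x ≤ 1 := fun x => ⟨st.γ_nonneg x, st.γ_le x⟩
  set fl := Cd * (γf / st.η ^ 4 * Fintype.card L.X) with hfl'
  have hflo : ∀ a, ∑ y ∈ st.Y \ Y1, Gam L.r2 (Km a) (y, true) ≤ fl := by
    intro a
    have : ∀ y ∈ st.Y \ Y1, Gam L.r2 (Km a) (y, true) ≤ Cd * γf / st.η ^ 4 := fun y hy =>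
      (hd L st.E st.η st.η st.γ a st.η_pos st.η_le st.η_pos st.η_le
        (fun x => ⟨st.γ_nonneg x, st.γ_le x, by linarith [st.γ_nonneg x]⟩) (y, true)).trans
        (div_le_div_of_nonneg_right (mul_le_mul_of_nonneg_left (hfl y hy) hCd.le)
          (by have := st.η_pos; positivity))
    refine (sum_le_card_nsmul _ _ _ this).trans ?_
    have hc : (((st.Y \ Y1).card : ℕ) : ℝ) ≤ Fintype.card L.X := by
      exact_mod_cast card_le_univ _
    have h0 : 0 ≤ Cd * γf / st.η ^ 4 := by have := st.η_pos; positivity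
    rw [nsmul_eq_mul, hfl']
    calc _ ≤ (Fintype.card L.X : ℝ) * (Cd * γf / st.η ^ 4) := mul_le_mul_of_nonneg_right hc h0
      _ = _ := by ring
  set tl := Ct * (M + 1) / (4 ^ M * st.η ^ 6) * Fintype.card L.X with htl
  have nH1 := L.nice_Hub Y1 st.Y hi0 i1 i2
  have nH2 := L.nice_Hub Y1 st.Y hi0 i2 (i - 1)
  have btr : BM fun a => ∑ m ∈ range (min M L.N), ∑ c,
      if κ0 < L.kap Λ2 c m (Km a) then L.kap Λ2 c m (Km a) else 0 :=
    BM.sum _ fun m _ => BM.sum _ fun c _ => bm (ntr c m)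
  have b1 := (bm (nice_En L.r2)).const_mul δ
  have b2 := (bm nH1).const_mul C1
  have b3 := (bm nH2).const_mul C2
  have b4 := bbad.const_mul C3
  have b5 := BM.const (α := L.X → ℝ) (tl + (C1 + C2) * fl)
  have b6 := btr.const_mul C3
  have b7 := bM.const_mul (C3 * κ0 ^ 2)
  have key := st.Ia_mono (bm (Nice.sum st.Y fun y _ => L.nice_Sh i1 (y, true)))
    ((((((b1.add b2).add b3).add b4).add b5).add b6).add b7) fun a => by
      have hK := L.port_Km st.E st.η_pos st.γ_nonneg a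
      have r := h3 L (Km a) hK st.Y (st.Gd a) M κ0 (fun y hy => by
        classical
        unfold Stat.Gd at hy
        exact (mem_filter.1 hy).1) hκ
      have r1 := mul_le_mul_of_nonneg_left
        ((Hub_split hY i i1 i2 (Km a)).trans (add_le_add le_rfl (hflo a))) hC1.le
      have r2 := mul_le_mul_of_nonneg_left
        ((Hub_split hY i i2 (i - 1) (Km a)).trans (add_le_add le_rfl (hflo a))) hC2.le
      have r3 := ht L st.E st.η st.γ a st.η_pos st.η_le hγ1 M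
      show _ ≤ _
      linarith
  rw [st.Ia_add (((((b1.add b2).add b3).add b4).add b5).add b6) b7,
    st.Ia_add ((((b1.add b2).add b3).add b4).add b5) b6,
    st.Ia_add (((b1.add b2).add b3).add b4) b5, st.Ia_add ((b1.add b2).add b3) b4,
    st.Ia_add (b1.add b2) b3, st.Ia_add b1 b2, st.Ia_mul, st.Ia_mul, st.Ia_mul, st.Ia_mul,
    st.Ia_mul, st.Ia_mul, st.Ia_const,
    st.Ia_sum _ (fun m _ => BM.sum _ fun c _ => bm (ntr c m)),
    sum_congr rfl (fun m _ => st.Ia_sum _ fun c _ => bm (ntr c m))] at key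
  have s1 := hS L st κ0 hκ
  have s2 := hb L st L.r2 L.r2_nonneg fun p => L.rx_self p.1
  have s3 : st.I0 (fun K => ∑ y ∈ st.Y, L.GN K (y, true)) ≤
      st.I0 (fun K => ∑ y ∈ Y1, L.GN K (y, true)) + fl := by
    have bb := bm (Nice.sum Y1 fun y _ => L.nice_GN (y, true))
    have := st.Ia_mono (bm (Nice.sum st.Y fun y _ => L.nice_GN (y, true))) (bb.add (BM.const fl))
      fun a => (GN_split hY (Km a)).trans (add_le_add le_rfl (hflo a))
    rwa [st.Ia_add bb (BM.const fl), st.Ia_const] at this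
  have hIB0 : 0 ≤ st.IB st.Y (fun _ => 1) L.r2 :=
    st.IB_nonneg Subset.rfl (fun _ => zero_le_one) L.r2_nonneg
  have hG0 : 0 ≤ st.I0 (fun K => ∑ y ∈ Y1, L.GN K (y, true)) :=
    st.I0_nonneg fun K => sum_nonneg fun _ _ => Gn_nonneg _ _ _
  have hT0 : 0 ≤ ∑ m ∈ range (min M L.N), ∑ c,
      st.I0 (fun K => if κ0 < L.kap Λ2 c m K then L.kap Λ2 c m K else 0) :=
    sum_nonneg fun m _ => sum_nonneg fun c _ => st.I0_nonneg fun K => by
      split_ifs with h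
      · linarith
      · exact le_rfl
  have hη := st.η_pos
  set g := st.I0 (fun K => ∑ y ∈ Y1, L.GN K (y, true))
  set ib := st.IB st.Y (fun _ => 1) L.r2
  set f0 := γf / st.η ^ 4 * Fintype.card L.X
  set t0 := ((M : ℝ) + 1) / (4 ^ M * st.η ^ 6) * Fintype.card L.X
  set tr := ∑ m ∈ range (min M L.N), ∑ c,
      st.I0 (fun K => if κ0 < L.kap Λ2 c m K then L.kap Λ2 c m K else 0)
  have hf0 : 0 ≤ f0 := by positivity
  have ht0 : 0 ≤ t0 := by positivity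
  have e1 : tl = Ct * t0 := by simp only [htl, t0]; ring
  have k4 : 1 ≤ κ0 ^ 4 := one_le_pow₀ hκ
  have s4 := mul_le_mul_of_nonneg_left (s1.trans (mul_le_mul_of_nonneg_left
    (add_le_add s3 le_rfl) (by positivity))) (by positivity : 0 ≤ C3 * κ0 ^ 2)
  have s5 := mul_le_mul_of_nonneg_left s2 hC3.le
  set C := (1 + Cd) * (C1 + C2 + C3 * CS) + C3 * Cb + Ct + C3 with hC
  have c1 : C3 * κ0 ^ 2 * (CS * κ0 ^ 2 * (g + fl + ib)) + C3 * (Cb * ib) + (C1 + C2) * fl ≤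
      C * κ0 ^ 4 * (g + ib + f0) := by
    have p1 : C3 * (Cb * ib) ≤ C3 * Cb * κ0 ^ 4 * (g + ib + f0) := by
      calc C3 * (Cb * ib) = C3 * Cb * 1 * ib := by ring
        _ ≤ _ := by gcongr; linarith
    have p2 : (C1 + C2) * fl ≤ (1 + Cd) * (C1 + C2) * κ0 ^ 4 * (g + ib + f0) := by
      calc (C1 + C2) * fl = Cd * (C1 + C2) * 1 * f0 := by rw [hfl']; ring
        _ ≤ _ := by gcongr <;> linarith
    have p3 : g + fl + ib ≤ (1 + Cd) * (g + ib + f0) := by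
      rw [hfl']; nlinarith [mul_nonneg hCd.le hG0, mul_nonneg hCd.le hIB0]
    have p4 := mul_le_mul_of_nonneg_left p3 (by positivity : 0 ≤ C3 * CS * κ0 ^ 4)
    have p5 : 0 ≤ (Ct + C3) * κ0 ^ 4 * (g + ib + f0) := by positivity
    rw [hC]; nlinarith
  have c2 : Ct * t0 ≤ C * t0 := by
    refine mul_le_mul_of_nonneg_right ?_ ht0
    have : 0 ≤ (1 + Cd) * (C1 + C2 + C3 * CS) + C3 * Cb := by positivity
    rw [hC]; linarith
  have c3 : C3 * tr ≤ C * tr := by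
    refine mul_le_mul_of_nonneg_right ?_ hT0
    have : 0 ≤ (1 + Cd) * (C1 + C2 + C3 * CS) + C3 * Cb := by positivity
    rw [hC]; linarith
  have key' : st.I0 (fun K => ∑ y ∈ st.Y, L.Sh i1 K (y, true)) ≤ δ * st.I0 (En L.r2) +
      C1 * st.I0 (L.Hub Y1 st.Y i i1 i2) + C2 * st.I0 (L.Hub Y1 st.Y i i2 (i - 1)) +
      C3 * st.Ia (fun a => ∑ y ∈ st.Y \ st.Gd a, Gam L.r2 (Km a) (y, true)) +
      (tl + (C1 + C2) * fl) + C3 * tr + C3 * κ0 ^ 2 * st.Ia (fun a => ∑ m ∈ range L.N, ∑ c,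
        if L.kap Λ2 c m (Km a) ≤ κ0 then L.Main st.Y (st.Gd a) i Λ2 (Km a) c m / 4 ^ m else 0) :=
    key
  linarith

/-- the combined static inequality -/
theorem core : ∀ δ : ℝ, 0 < δ → ∃ i Λ2 c' C : ℝ, 1 ≤ i ∧ 1 ≤ Λ2 ∧ 0 < c' ∧ 0 < C ∧
    ∀ (L : Lat) (st : Stat L) (Y1 : Finset L.X) (m0 m1 M : ℕ) (κ0 γf : ℝ), Y1 ⊆ st.Y → m1 ≤ L.N →
    1 ≤ κ0 → 0 ≤ γf → (∀ y ∈ st.Y \ Y1, st.γ y ≤ γf) →
    st.dr Y1 st.half (L.Lam m0 m1) - c' * st.dr Y1 st.half (L.Pot st.Y i) +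
        C * κ0 ^ 4 * st.dr Y1 st.half (En L.r2) ≤
      δ * st.I0 (En L.r2) + C ^ 2 * (m1 + κ0 ^ 4) * st.IB st.Y (fun _ => 1) L.r2 +
      C * (κ0 ^ 4 * γf / st.η ^ 4 + (M + 1) / (4 ^ M * st.η ^ 6)) * Fintype.card L.X +
      C * ∑ m ∈ range (min M L.N), ∑ c,
        st.I0 (fun K => if κ0 < L.kap Λ2 c m K then L.kap Λ2 c m K else 0) := by
  intro δ hδ
  obtain ⟨CA, hCA, hA⟩ := dr_Lam
  obtain ⟨CB, hCB, hB⟩ := hub_le
  obtain ⟨CH, hCH, hH⟩ := driftQ_half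
  set δ1 := δ / (4 * CA) with hδ1
  have hδ1p : 0 < δ1 := by positivity
  set i1 := 1 + 8 / δ1 with hi1
  have hi1' : 1 ≤ i1 := by have : 0 < 8 / δ1 := by positivity
                           linarith
  have hexp : Real.exp (-i1 / 8) ≤ δ1 := by
    have h1 : 1 / δ1 ≤ Real.exp (i1 / 8) := by
      have := Real.add_one_le_exp (i1 / 8)
      have e : i1 / 8 = 1 / 8 + 1 / δ1 := by rw [hi1]; ring
      linarith
    rw [neg_div, Real.exp_neg, inv_le_comm₀ (Real.exp_pos _) hδ1p, ← one_div]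
    exact h1
  obtain ⟨C1, Λ2, hC1, hΛ, h1⟩ := rigidE i1 δ1 hi1' hδ1p
  set a1 := 2 * C1 * CB / δ1 with ha1
  have ha1p : 0 < a1 := by positivity
  obtain ⟨C2, hC2, h2⟩ := h1 (i1 + a1) (by linarith)
  set a2 := 2 * C2 * CB / δ1 with ha2
  have ha2p : 0 < a2 := by positivity
  obtain ⟨C3, hC3, h3⟩ := h2 (i1 + a1 + 1 + a2) (by linarith)
  set i := i1 + a1 + 1 + a2 with hi
  have hi' : 1 ≤ i := by linarith
  set C := CA * C3 + 2 * CA * δ1 * i ^ 2 + CA + CH + 1 with hC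
  have hCp : 0 < C := by positivity
  refine ⟨i, Λ2, 2 * CA * δ1 / CB, 2 * C, hi', hΛ, by positivity, by positivity,
    fun L st Y1 m0 m1 M κ0 γf hY hm hκ hγf hfl => ?_⟩
  have rA := hA L st Y1 hY m0 m1 i1 hm (by linarith)
  have rE := h3 L st Y1 M κ0 γf hY hκ hγf hfl
  have rB1 := hB L st Y1 hY i i1 (i1 + a1) hi' (by linarith)
  have rB2 := hB L st Y1 hY i (i1 + a1) (i - 1) hi' (by linarith)
  have rH := (abs_le.1 (hH L st Y1 hY _ (L.Phi L.N))).2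
  rw [L.wt_Phi] at rH
  have h3' : st.IB Y1 (fun _ => 1) L.r2 ≤ st.IB st.Y (fun _ => 1) L.r2 :=
    st.IB_mono hY Subset.rfl (Nice.const 1) (Nice.const 1) (fun _ => zero_le_one)
      (fun _ => le_rfl) L.r2_nonneg fun _ _ => le_rfl
  have hIB0 : 0 ≤ st.IB st.Y (fun _ => 1) L.r2 :=
    st.IB_nonneg Subset.rfl (fun _ => zero_le_one) L.r2_nonneg
  have hG0 : 0 ≤ st.I0 (fun K => ∑ y ∈ Y1, L.GN K (y, true)) :=
    st.I0_nonneg fun K => sum_nonneg fun _ _ => Gn_nonneg _ _ _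
  have hE0 : 0 ≤ st.I0 (En L.r2) := st.I0_nonneg fun K => En_nonneg L.r2_nonneg K
  have hT0 : 0 ≤ ∑ m ∈ range (min M L.N), ∑ c,
      st.I0 (fun K => if κ0 < L.kap Λ2 c m K then L.kap Λ2 c m K else 0) :=
    sum_nonneg fun m _ => sum_nonneg fun c _ => st.I0_nonneg fun K => by
      split_ifs with h
      · linarith
      · exact le_rfl
  have hη := st.η_pos
  have rH' : st.dr Y1 st.half (En L.r2) + 2 * st.I0 (fun K => ∑ y ∈ Y1, L.GN K (y, true)) ≤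
      CH * st.IB st.Y (fun _ => 1) L.r2 := rH.trans (mul_le_mul_of_nonneg_left h3' hCH.le)
  set g := st.I0 (fun K => ∑ y ∈ Y1, L.GN K (y, true))
  set ib := st.IB st.Y (fun _ => 1) L.r2
  set en := st.I0 (En L.r2)
  set f0 := γf / st.η ^ 4 * Fintype.card L.X with hf0'
  set t0 := ((M : ℝ) + 1) / (4 ^ M * st.η ^ 6) * Fintype.card L.X with ht0'
  set tr := ∑ m ∈ range (min M L.N), ∑ c,
      st.I0 (fun K => if κ0 < L.kap Λ2 c m K then L.kap Λ2 c m K else 0)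
  set dP := st.dr Y1 st.half (L.Pot st.Y i)
  set dE := st.dr Y1 st.half (En L.r2)
  set u := dP + CB * en + CB * i ^ 2 * g + CB * i ^ 2 * ib with hu
  have hf0 : 0 ≤ f0 := by positivity
  have ht0 : 0 ≤ t0 := by positivity
  have k4 : 1 ≤ κ0 ^ 4 := one_le_pow₀ hκ
  have q1 : C1 * st.I0 (L.Hub Y1 st.Y i i1 (i1 + a1)) ≤ δ1 / CB * u := by
    have := mul_le_mul_of_nonneg_left rB1 (by positivity : 0 ≤ δ1 / CB)
    refine le_of_eq_of_le ?_ this
    rw [ha1]; field_simp; ring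
  have q2 : C2 * st.I0 (L.Hub Y1 st.Y i (i1 + a1) (i - 1)) ≤ δ1 / CB * u := by
    have := mul_le_mul_of_nonneg_left rB2 (by positivity : 0 ≤ δ1 / CB)
    refine le_of_eq_of_le ?_ this
    have e : i - 1 - (i1 + a1) = a2 := by rw [hi]; ring
    rw [e, ha2]; field_simp
  have q3 : δ1 / CB * u = δ1 / CB * dP + δ1 * en + δ1 * i ^ 2 * (g + ib) := by
    rw [hu]; field_simp; ring
  have q4 := mul_le_mul_of_nonneg_left rE hCA.le
  have q5 : CA * Real.exp (-i1 / 8) * en ≤ CA * δ1 * en := by gcongr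
  have q6 : 4 * (CA * δ1) = δ := by rw [hδ1]; field_simp
  have q7 := mul_le_mul_of_nonneg_left (add_le_add q1 q2) hCA.le
  set D := CA * C3 + 2 * CA * δ1 * i ^ 2 with hD
  have hD0 : 0 ≤ D := by positivity
  have hDC : D ≤ C := by rw [hC]; linarith
  have hC1' : 1 ≤ C := by rw [hC]; linarith
  have w1 : st.dr Y1 st.half (L.Lam m0 m1) - 2 * CA * δ1 / CB * dP ≤ δ * en +
      D * κ0 ^ 4 * (g + ib) + CA * m1 * ib + CA * C3 * (κ0 ^ 4 * f0 + t0 + tr) := by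
    have : 2 * CA * δ1 * i ^ 2 * (g + ib) ≤ 2 * CA * δ1 * i ^ 2 * κ0 ^ 4 * (g + ib) := by
      calc _ = 2 * CA * δ1 * i ^ 2 * 1 * (g + ib) := by ring
        _ ≤ _ := by gcongr
    rw [q3] at q7
    have e : 2 * CA * δ1 / CB * dP = CA * (δ1 / CB * dP + δ1 / CB * dP) := by ring
    rw [e, hD, ← q6]
    linarith
  have w2 : D * κ0 ^ 4 * (g + ib) + 2 * C * κ0 ^ 4 * dE ≤ (2 * C) ^ 2 * κ0 ^ 4 * ib := by
    have x1 : D * κ0 ^ 4 * (g + ib) ≤ C * κ0 ^ 4 * (g + ib) := by gcongr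
    have x2 := mul_le_mul_of_nonneg_left rH' (by positivity : 0 ≤ 2 * C * κ0 ^ 4)
    have x3 : CH ≤ C := by rw [hC]; linarith
    have x4 : 2 * C * κ0 ^ 4 * (CH * ib) ≤ 2 * C * κ0 ^ 4 * (C * ib) := by gcongr
    have x5 : C * κ0 ^ 4 * ib ≤ C * C * κ0 ^ 4 * ib := by
      calc _ = C * 1 * κ0 ^ 4 * ib := by ring
        _ ≤ _ := by gcongr
    have x6 : 0 ≤ C * κ0 ^ 4 * g := by positivity
    have x7 : 0 ≤ C * C * κ0 ^ 4 * ib := by positivity
    linarith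
  have w3 : CA * m1 * ib ≤ (2 * C) ^ 2 * m1 * ib := by
    have : CA ≤ (2 * C) ^ 2 := by
      have : CA ≤ C := by rw [hC]; linarith
      nlinarith
    gcongr
  have w4 : CA * C3 * (κ0 ^ 4 * f0 + t0 + tr) ≤ 2 * C * (κ0 ^ 4 * f0 + t0 + tr) := by
    have : CA * C3 ≤ 2 * C := by
      have : 0 ≤ 2 * CA * δ1 * i ^ 2 := by positivity
      linarith
    gcongr
  have e2 : 2 * C * (κ0 ^ 4 * γf / st.η ^ 4 + (M + 1) / (4 ^ M * st.η ^ 6)) * Fintype.card L.X =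
      2 * C * (κ0 ^ 4 * f0 + t0) := by rw [hf0', ht0']; ring
  rw [e2]
  linarith

end Crest.Agent.N334.G
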