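import Crest.Agent.N334.G.Gain1
import Crest.Agent.N334.G.Flow

/-!
# Row 334, S0519 GAIN: transport along the halving flow, final closing
-/

set_option autoImplicit false

open MeasureTheory Finset Complex
open scoped BigOperators ComplexConjugate

noncomputable section

namespace Crest.Agent.N334.G

theorem gron {f f' : ℝ → ℝ} {a b K e : ℝ} (hab : a ≤ b) (hK : 0 ≤ K) (he : 0 ≤ e)
    (hd : ∀ t, HasDerivAt f (f' t) t) (h : ∀ t, a ≤ t → t ≤ b → f' t ≤ K * f t + e) :
    f b ≤ Real.exp (K * (b - a)) * (f a + e * (b - a)) := by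
  set g : ℝ → ℝ := fun t => Real.exp (-(K * (t - a))) * f t - e * (t - a) with hg
  have hgd : ∀ t, HasDerivAt g (Real.exp (-(K * (t - a))) * (f' t - K * f t) - e) t := by
    intro t
    have h1 : HasDerivAt (fun t => -(K * (t - a))) (-K) t := by
      have := (((hasDerivAt_id' t).sub_const a).const_mul K).fun_neg
      rwa [mul_one] at this
    have h2 := (h1.exp.fun_mul (hd t)).fun_sub (((hasDerivAt_id' t).sub_const a).const_mul e)
    exact h2.congr_deriv (by ring)
  have hanti : AntitoneOn g (Set.Icc a b) := by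
    refine antitoneOn_of_deriv_nonpos (convex_Icc a b)
      (fun t _ => (hgd t).continuousAt.continuousWithinAt)
      (fun t _ => (hgd t).differentiableAt.differentiableWithinAt) fun t ht => ?_
    rw [interior_Icc] at ht
    rw [(hgd t).deriv]
    have h1 := h t ht.1.le ht.2.le
    have h2 : Real.exp (-(K * (t - a))) ≤ 1 :=
      Real.exp_le_one_iff.2 (by nlinarith [ht.1])
    have h3 := Real.exp_pos (-(K * (t - a)))
    nlinarith
  have := hanti (Set.left_mem_Icc.2 hab) (Set.right_mem_Icc.2 hab) hab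
  simp only [hg, sub_self, mul_zero, neg_zero, Real.exp_zero, one_mul, sub_zero] at this
  have h4 : Real.exp (K * (b - a)) * Real.exp (-(K * (b - a))) = 1 := by
    rw [← Real.exp_add]; simp
  have h5 := mul_le_mul_of_nonneg_left (sub_le_iff_le_add.1 this) (Real.exp_pos (K * (b - a))).le
  rwa [← mul_assoc, h4, one_mul] at h5

theorem exp_half_le : Real.exp (1 / 2) ≤ 2 := by
  have h := Real.exp_one_lt_d9
  have h2 : Real.exp (1 / 2) * Real.exp (1 / 2) = Real.exp 1 := by rw [← Real.exp_add]; norm_num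
  nlinarith [Real.exp_pos (1 / 2 : ℝ)]

/-- the moving sites -/
def Ens.mov {L : Lat} (e : Ens L) {n : ℕ} (l : e.Ω) (lam : L.X → Lv n) : Finset L.X :=
  (e.S l).Y.filter fun y => hlf (lam y) ≠ lam y

theorem fac_hlf_mov {n : ℕ} {j : Lv n} (h : hlf j ≠ j) : fac (hlf j) = fac j / 2 := by
  cases j with
  | none => exact absurd rfl h
  | some j =>
    unfold hlf at h ⊢
    dsimp only at h ⊢
    split_ifs at h ⊢ with h'
    · simp [fac, pow_succ]; ring
    · exact absurd rfl h

theorem fac_floor {n : ℕ} {j : Lv n} (h : hlf j = j) : fac j ≤ (1 / 2) ^ n := by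
  cases j with
  | none => simp [fac]
  | some j =>
    unfold hlf at h
    dsimp only at h
    split_ifs at h with h'
    · simp [Fin.ext_iff] at h
    · have : (j : ℕ) = n := by have := j.2; omega
      simp [fac, this]

namespace Ens
variable {L : Lat} (e : Ens L) {n : ℕ}

theorem mov_sub (l : e.Ω) (lam : L.X → Lv n) : e.mov l lam ⊆ ((e.S l).lev lam).Y :=
  filter_subset _ _

theorem floor_le (l : e.Ω) (lam : L.X → Lv n) :
    ∀ y ∈ ((e.S l).lev lam).Y \ e.mov l lam, ((e.S l).lev lam).γ y ≤ (1 / 2) ^ n := by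
  intro y hy
  obtain ⟨h1, h2⟩ := mem_sdiff.1 hy
  have h3 : hlf (lam y) = lam y := by
    by_contra h; exact h2 (mem_filter.2 ⟨h1, h⟩)
  exact (mul_le_of_le_one_left (by cases lam y <;> simp [fac]) ((e.S l).γ_le y)).trans
    (fac_floor h3)

theorem deriv_hlf (q : ℝ → e.Ω → L.X → Lv n → ℝ) (hq : ∀ l x, IsFlow hlf fun t => q t l x)
    (hY : ∀ l x, x ∉ (e.S l).Y → (e.S l).γ x = 0) (F : e.Ω → L.Mat → ℝ) (t : ℝ) :
    HasDerivAt (fun s => e.Ex (q s) fun l lam => ((e.S l).lev lam).I0 (F l))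
      (e.Ex (q t) fun l lam =>
        ((e.S l).lev lam).dr (e.mov l lam) ((e.S l).lev lam).half (F l)) t := by
  have := e.hasDerivAt_ExS (fun _ _ => hlf) q hq (fun l x hx => Or.inl (hY l x hx)) F t
  convert this using 4 with l lam
  refine Stat.dr_congr _ _ (fun y hy => ?_) _
  rw [fac_hlf_mov (mem_filter.1 hy).2]
  show (e.S l).γ y * fac (lam y) / 2 = _
  ring

theorem Ex_nonneg {q : e.Ω → L.X → Lv n → ℝ} (hq : ∀ l x j, 0 ≤ q l x j)
    {Q : e.Ω → (L.X → Lv n) → ℝ} (h : ∀ l lam, 0 ≤ Q l lam) : 0 ≤ e.Ex q Q :=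
  sum_nonneg fun l _ => mul_nonneg (e.pr_nonneg l) (sum_nonneg fun lam _ =>
    mul_nonneg (prod_nonneg fun x _ => hq l x _) (h l lam))

theorem Ex_const {q : e.Ω → L.X → Lv n → ℝ} (hq : ∀ l x, ∑ j, q l x j = 1) (r : ℝ) :
    e.Ex q (fun _ _ => r) = r := by
  rw [e.Ex_label hq fun _ => r, ← sum_mul, e.pr_sum, one_mul]

/-- mean energy -/
def Qf (q : ℝ → e.Ω → L.X → Lv n → ℝ) (t : ℝ) : ℝ := e.ExS (q t) fun st => st.I0 (En L.r2)
end Ens

theorem half_ok {L : Lat} (st : Stat L) (Y1 : Finset L.X) :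
    ∀ y ∈ Y1, 0 ≤ st.half y ∧ st.half y ≤ st.γ y := fun y _ =>
  ⟨st.half_nonneg y, half_le_self (st.γ_nonneg y)⟩

theorem Q_mono : ∃ C : ℝ, 0 < C ∧ ∀ (L : Lat) (e : Ens L) (n : ℕ)
    (q : ℝ → e.Ω → L.X → Lv n → ℝ) (ε err T0 : ℝ), (∀ l x, IsFlow hlf fun t => q t l x) →
    (∀ l x, x ∉ (e.S l).Y → (e.S l).γ x = 0) → 0 ≤ ε → 0 ≤ err → C * ε * T0 ≤ 1 / 2 →
    (∀ t, 0 ≤ t → t ≤ T0 → e.BPq (q t) ε err) → ∀ s t, 0 ≤ s → s ≤ t → t ≤ T0 →
    e.Qf q t ≤ 2 * (e.Qf q s + C * err * Fintype.card L.X * T0) := by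
  obtain ⟨C, hC, h⟩ := driftQ
  refine ⟨C, hC, fun L e n q ε err T0 hq hY hε herr hT hBP s t hs hst ht => ?_⟩
  have hd := e.deriv_hlf q hq hY fun _ => En L.r2
  have g := gron (K := C * ε) (e := C * err * Fintype.card L.X) hst (by positivity)
    (by positivity) hd fun u hu hu' => by
      have h0 : ∀ l x j, 0 ≤ q u l x j := fun l x j => (hq l x).nonneg u (hs.trans hu) j
      have b := mul_le_mul_of_nonneg_left (hBP u (hs.trans hu) (hu'.trans ht)) hC.le
      refine le_trans ?_ (b.trans_eq (by unfold Ens.ExS; ring))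
      unfold Ens.ExS
      rw [← e.Ex_mul]
      refine e.Ex_mono h0 fun l lam => ?_
      have a := h L _ _ (e.mov_sub l lam) _ (L.Phi L.N) _ (half_ok _ _)
      rw [L.wt_Phi] at a
      exact a.trans (mul_le_mul_of_nonneg_left (Stat.IB_mono _ (e.mov_sub l lam) Subset.rfl
        (Nice.const 1) (Nice.const 1) (fun _ => zero_le_one) (fun _ => le_rfl) L.r2_nonneg
        fun _ _ => le_rfl) hC.le)
  have hQ : 0 ≤ e.Qf q s := e.Ex_nonneg (fun l x j => (hq l x).nonneg s hs j) fun l lam =>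
    Stat.I0_nonneg _ fun K => En_nonneg L.r2_nonneg K
  refine g.trans (mul_le_mul ((Real.exp_le_exp.2 ?_).trans exp_half_le)
    (add_le_add le_rfl ?_) (add_nonneg hQ (mul_nonneg (by positivity) (by linarith))) two_pos.le)
  · exact (mul_le_mul_of_nonneg_left (by linarith) (by positivity)).trans hT
  · exact mul_le_mul_of_nonneg_left (by linarith) (by positivity)

theorem D_bound : ∃ C : ℝ, 0 < C ∧ ∀ (L : Lat) (e : Ens L) (n : ℕ)
    (q : ℝ → e.Ω → L.X → Lv n → ℝ), (∀ l x, IsFlow hlf fun t => q t l x) →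
    (∀ l x, x ∉ (e.S l).Y → (e.S l).γ x = 0) → ∀ (m : ℕ) (t : ℝ), 0 ≤ t →
    e.ExS (q t) (fun st => st.I0 (En (L.s4 m))) ≤
      Real.exp (C * t) * e.ExS (q 0) (fun st => st.I0 (En (L.s4 m))) := by
  obtain ⟨C, hC, h⟩ := driftD
  refine ⟨2 * C + 1, by positivity, fun L e n q hq hY m t ht => ?_⟩
  have hd := e.deriv_hlf q hq hY fun _ => En (L.s4 m)
  have g := gron (K := 2 * C + 1) (e := 0) ht (by positivity) le_rfl hd fun u hu _ => by
    have h0 : ∀ l x j, 0 ≤ q u l x j := fun l x j => (hq l x).nonneg u hu j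
    rw [add_zero, ← e.Ex_mul]
    refine e.Ex_mono h0 fun l lam => ?_
    have a := h L _ _ (e.mov_sub l lam) m _ 1 one_pos (half_ok _ _)
    have b := Stat.I0_mono ((e.S l).lev lam) (Nice.sum (e.mov l lam) fun y _ =>
      nice_Gam (L.s4 m) (y, true)) (nice_En (L.s4 m)) fun K _ => sum_Gam_le _ (L.s4_nonneg m) K
    have c := mul_le_mul_of_nonneg_left b (by positivity : 0 ≤ C * (1 + 1 / 1))
    linarith
  simpa [Ens.ExS] using g

theorem K_bound : ∃ C : ℝ, 0 < C ∧ ∀ (L : Lat) (e : Ens L) (n : ℕ)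
    (q : ℝ → e.Ω → L.X → Lv n → ℝ) (ε lam T0 : ℝ) (p : ℕ), (∀ l x, IsFlow hlf fun t => q t l x) →
    (∀ l x, x ∉ (e.S l).Y → (e.S l).γ x = 0) → 0 ≤ ε → 1 ≤ p → C * p ≤ lam →
    C * p * ε * T0 ≤ 1 / 2 → (∀ t, 0 ≤ t → t ≤ T0 → e.BPk (q t) ε lam p) →
    ∀ (c : L.X) (R2 t : ℝ), 1 ≤ R2 → 0 ≤ t → t ≤ T0 →
    e.ExS (q t) (fun st => st.I0 fun K => (lam + En (L.wF c R2) K) ^ p) ≤
      2 * e.ExS (q 0) (fun st => st.I0 fun K => (lam + En (L.wF c R2) K) ^ p) := by
  obtain ⟨C, hC, h⟩ := driftK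
  refine ⟨C, hC, fun L e n q ε lam T0 p hq hY hε hp hl hT hBP c R2 t hR ht htT => ?_⟩
  have hR0 : 0 < R2 := by linarith
  have hl0 : 0 ≤ lam := le_trans (by positivity) hl
  obtain ⟨F, hF, hw⟩ := exists_stereo L c hR0
  have hpos : ∀ (k : ℕ) (K : L.Mat), 0 ≤ (lam + En (L.wF c R2) K) ^ k := fun k K =>
    pow_nonneg (add_nonneg hl0 (En_nonneg (wF_nonneg L c hR0) K)) k
  have hd := e.deriv_hlf q hq hY fun _ K => (lam + En (L.wF c R2) K) ^ p
  have g := gron (K := C * p * ε) (e := 0) ht (by positivity) le_rfl hd fun u hu hu' => by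
    have h0 : ∀ l x j, 0 ≤ q u l x j := fun l x j => (hq l x).nonneg u hu j
    have b := mul_le_mul_of_nonneg_left (hBP u hu (hu'.trans htT) c R2 hR)
      (by positivity : 0 ≤ C * p)
    refine le_trans ?_ (b.trans_eq (by unfold Ens.ExS; ring))
    unfold Ens.ExS
    rw [← e.Ex_mul]
    refine e.Ex_mono h0 fun l lam' => ?_
    have a := h L _ _ (e.mov_sub l lam') _ F _ p lam hF (half_ok _ _) hp hl
    rw [hw] at a
    have nW := ((Nice.const lam).add (nice_En (L.wF c R2))).pow (p - 1)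
    exact a.trans (mul_le_mul_of_nonneg_left (Stat.IB_mono _ (e.mov_sub l lam') Subset.rfl
      nW nW (hpos _) (fun _ => le_rfl) (wF_nonneg L c hR0) fun _ _ => le_rfl) (by positivity))
  have hQ : 0 ≤ e.ExS (q 0) (fun st => st.I0 fun K => (lam + En (L.wF c R2) K) ^ p) :=
    e.Ex_nonneg (fun l x j => (hq l x).nonneg 0 le_rfl j) fun l lam => Stat.I0_nonneg _ (hpos p)
  simp only [zero_mul, add_zero, sub_zero] at g
  refine g.trans (mul_le_mul_of_nonneg_right ((Real.exp_le_exp.2 ?_).trans exp_half_le) hQ)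
  exact (mul_le_mul_of_nonneg_left htT (by positivity)).trans hT

/-- the static ensemble with the sites of `s` closed -/
def Stat.zero {L : Lat} (st : Stat L) (s : Finset L.X) : Stat L :=
  { st with
    γ := fun x => if x ∈ s then 0 else st.γ x
    γ_nonneg := fun x => by split_ifs; exacts [le_rfl, st.γ_nonneg x]
    γ_le := fun x => by split_ifs; exacts [zero_le_one, st.γ_le x]
    hY := fun x hx => ⟨(st.hY x hx).1, (st.hY x hx).2.1, (st.hY x hx).2.2.1, by
      split_ifs; exacts [(st.hY x hx).2.1.le, (st.hY x hx).2.2.2]⟩ }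

theorem closeS : ∃ C : ℝ, 0 < C ∧ ∀ (L : Lat) (st : Stat L), (∀ x, x ∉ st.Y → st.γ x = 0) →
    st.Ig 0 (En L.r2) ≤ st.I0 (En L.r2) + C / st.η ^ 4 * ∑ x, st.γ x := by
  obtain ⟨C, hC, h⟩ := driftQ
  obtain ⟨Cd, hCd, hd⟩ := det_r2
  refine ⟨C * Cd, by positivity, fun L st hY => ?_⟩
  have hη := st.η_pos
  have key : ∀ s : Finset L.X, s ⊆ st.Y →
      (st.zero s).I0 (En L.r2) ≤ st.I0 (En L.r2) + C * Cd / st.η ^ 4 * ∑ x ∈ s, st.γ x := by
    intro s
    induction s using Finset.induction_on with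
    | empty =>
      intro _
      simp only [sum_empty, mul_zero, add_zero]
      exact le_of_eq (by unfold Stat.I0 Stat.zero; simp only [notMem_empty, if_false])
    | insert y s hy ih =>
      intro hs
      have hyY : y ∈ st.Y := hs (mem_insert_self _ _)
      have i1 := ih ((subset_insert _ _).trans hs)
      have a := h L (st.zero s) {y} (singleton_subset_iff.2 hyY) _ (L.Phi L.N) (fun _ => 0)
        fun x _ => ⟨le_rfl, (st.zero s).γ_nonneg x⟩
      rw [L.wt_Phi] at a
      have e1 : (st.zero s).dr {y} (fun _ => 0) (En (L.rho2 L.N)) =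
          (st.zero (insert y s)).I0 (En L.r2) - (st.zero s).I0 (En L.r2) := by
        unfold Stat.dr
        rw [sum_singleton]
        have : Function.update (st.zero s).γ y 0 = (st.zero (insert y s)).γ := by
          funext x
          by_cases hx : x = y
          · subst hx; simp [Stat.zero]
          · simp [Stat.zero, hx]
        rw [this]; rfl
      have hb := (st.hY y hyY).2.1
      have e2 : (st.zero s).IB {y} (fun _ => 1) (L.rho2 L.N) ≤ Cd / st.η ^ 4 * st.γ y := by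
        unfold Stat.IB
        simp only [sum_singleton, one_mul]
        have := (st.zero s).Ia_mono (((st.zero s).bm_Kr (nice_Gam (L.rho2 L.N) (y, true))
          hyY).const_mul ((st.zero s).γ y / (st.zero s).b y)) (BM.const (Cd / st.η ^ 4 * st.γ y))
          fun a => by
            have d := hd L st.E st.η st.η (Function.update (st.zero s).γ y (st.b y))
              (Function.update a y (st.a0 y)) hη st.η_le hη st.η_le (fun x => by
                by_cases hx : x = y
                · subst hx; simp only [Function.update_self]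
                  exact ⟨hb.le, (st.hY x hyY).2.2.1, by linarith⟩
                · simp only [Function.update_of_ne hx]
                  exact ⟨(st.zero s).γ_nonneg x, (st.zero s).γ_le x,
                    by linarith [(st.zero s).γ_nonneg x]⟩) (y, true)
            have e3 : L.str st.η (Function.update (st.zero s).γ y (st.b y)) (y, true) = st.b y := by
              simp [Lat.str]
            have e4 : (st.zero s).γ y = st.γ y := by simp [Stat.zero, hy]
            rw [e3] at d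
            rw [e4]
            refine (mul_le_mul_of_nonneg_left d
              (div_nonneg (st.γ_nonneg y) hb.le)).trans_eq ?_
            show st.γ y / st.b y * _ = _
            field_simp
        rwa [Stat.Ia_const] at this
      rw [sum_insert hy]
      have := mul_le_mul_of_nonneg_left e2 hC.le
      have e5 : C * Cd / st.η ^ 4 * (st.γ y + ∑ x ∈ s, st.γ x) =
        C * (Cd / st.η ^ 4 * st.γ y) + C * Cd / st.η ^ 4 * ∑ x ∈ s, st.γ x := by ring
      linarith
  have e0 : (st.zero st.Y).γ = 0 := by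
    funext x; by_cases hx : x ∈ st.Y <;> simp [Stat.zero, hx, hY]
  have := key st.Y Subset.rfl
  unfold Stat.I0 at this
  rw [e0] at this
  exact this.trans (add_le_add le_rfl (mul_le_mul_of_nonneg_left
    (sum_le_sum_of_subset_of_nonneg (subset_univ _) fun x _ _ => st.γ_nonneg x) (by positivity)))

theorem Ens.Ex_gam {L : Lat} (e : Ens L) {n : ℕ} (q : ℝ → e.Ω → L.X → Lv n → ℝ)
    (hq : ∀ l x, IsFlow hlf fun t => q t l x) {t : ℝ} (ht : 0 ≤ t) :
    e.Ex (q t) (fun l lam => ∑ x, ((e.S l).lev lam).γ x) ≤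
      (Real.exp (-t / 2) + (1 / 2) ^ n) * Fintype.card L.X := by
  rw [e.Ex_sum (q t) univ fun x l lam => ((e.S l).lev lam).γ x, mul_comm, ← nsmul_eq_mul]
  refine sum_le_card_nsmul _ _ _ fun x _ => le_trans ?_ (e.Ex_fac q hq x ht)
  exact e.Ex_mono (fun l x j => (hq l x).nonneg t ht j) fun l lam =>
    mul_le_of_le_one_left (by cases lam x <;> simp [fac]) ((e.S l).γ_le x)

theorem closeE : ∃ C : ℝ, 0 < C ∧ ∀ (L : Lat) (e : Ens L) (n : ℕ)
    (q : ℝ → e.Ω → L.X → Lv n → ℝ) (η : ℝ), (∀ l x, IsFlow hlf fun t => q t l x) →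
    (∀ l x, x ∉ (e.S l).Y → (e.S l).γ x = 0) → (∀ l, (e.S l).η = η) → ∀ t, 0 ≤ t →
    ∑ l, e.pr l * (e.S l).Ig 0 (En L.r2) ≤
      e.Qf q t + C / η ^ 4 * ((Real.exp (-t / 2) + (1 / 2) ^ n) * Fintype.card L.X) := by
  obtain ⟨C, hC, h⟩ := closeS
  refine ⟨C, hC, fun L e n q η hq hY hη t ht => ?_⟩
  rw [← e.Ex_label (q := q t) fun l x => (hq l x).sum t]
  refine le_trans ?_ (add_le_add le_rfl (mul_le_mul_of_nonneg_left (e.Ex_gam q hq ht)
    (by positivity)))
  unfold Ens.Qf Ens.ExS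
  rw [← e.Ex_mul, ← e.Ex_add]
  refine e.Ex_mono (fun l x j => (hq l x).nonneg t ht j) fun l lam => ?_
  have := h L ((e.S l).lev lam) fun x hx => by
    show (e.S l).γ x * _ = 0
    rw [hY l x hx, zero_mul]
  rw [← hη l]
  exact this

theorem massE : ∃ C : ℝ, 0 < C ∧ ∀ (L : Lat) (e : Ens L) (n : ℕ)
    (q : ℝ → e.Ω → L.X → Lv n → ℝ) (η D : ℝ), (∀ l x, IsFlow hlf fun t => q t l x) →
    (∀ l, (e.S l).η = η) → 0 ≤ D →
    (∀ l x, (e.S l).mu x ≤ ENNReal.ofReal D • (volume : Measure ℝ)) → ∀ (m : ℕ) (t : ℝ), 0 ≤ t →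
    e.ExS (q t) (fun st => st.I0 (En (L.rho2 m))) ≤
      C * 4 ^ m * D * ((η + Real.exp (-t / 2) + (1 / 2) ^ n) * Fintype.card L.X) := by
  obtain ⟨C, hC, h⟩ := mass
  refine ⟨8 * C, by positivity, fun L e n q η D hq hη hD hmu m t ht => ?_⟩
  have h1 := e.Ex_gam q hq ht
  have h2 := e.Ex_const (q := q t) (fun l x => (hq l x).sum t) (η * Fintype.card L.X)
  have h3 : e.ExS (q t) (fun st => st.I0 (En (L.rho2 m))) ≤ e.Ex (q t) fun l lam =>
      8 * C * 4 ^ m * D * (η * Fintype.card L.X + ∑ x, ((e.S l).lev lam).γ x) := by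
    refine e.Ex_mono (fun l x j => (hq l x).nonneg t ht j) fun l lam => ?_
    have a := h L ((e.S l).lev lam) D hD (hmu l)
    have nd : Nice fun K : L.Mat => ∑ p, dd K p := Nice.sum _ fun p _ => nice_dd p
    have b := Stat.I0_mono ((e.S l).lev lam) (nice_En (L.rho2 m))
      ((Nice.const (8 * 4 ^ m)).mul nd) fun K _ => by
        unfold En Gam dd
        rw [mul_sum]
        refine sum_le_sum fun p _ => ?_
        rw [mul_sum]
        exact sum_le_sum fun r _ => by
          rw [mul_comm]; exact mul_le_mul_of_nonneg_right (L.rho2_le_pow m p r) (cc_nonneg _ _ _)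
    have c := Stat.Ig_mul ((e.S l).lev lam) (8 * 4 ^ m) (fun K : L.Mat => ∑ p, dd K p)
      ((e.S l).lev lam).γ
    have d : ((e.S l).lev lam).η = η := hη l
    rw [sum_add_distrib, sum_const, card_univ, nsmul_eq_mul, d] at a
    have f := mul_le_mul_of_nonneg_left a (by positivity : (0 : ℝ) ≤ 8 * 4 ^ m)
    unfold Stat.I0 at b f ⊢
    rw [c] at b
    linarith
  rw [e.Ex_mul, e.Ex_add, h2] at h3
  refine h3.trans (mul_le_mul_of_nonneg_left (by linarith) (by positivity))

end Crest.Agent.N334.G
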