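import Crest.Agent.N334.G.Gain2

/-!
# Row 334, S0519 GAIN: one time interval
-/

set_option autoImplicit false

open MeasureTheory Finset Complex
open scoped BigOperators ComplexConjugate

noncomputable section

namespace Crest.Agent.N334.G

theorem Pot_bounds (L : Lat) (Y : Finset L.X) {i : ℝ} (hi : 0 ≤ i) (K : L.Mat) :
    -5 * En L.r2 K ≤ L.Pot Y i K ∧ L.Pot Y i K ≤ i * En L.r2 K := by
  unfold Lat.Pot En
  rw [mul_sum, mul_sum]
  constructor <;> refine sum_le_sum fun p _ => ?_ <;> rw [← L.sum_nn, mul_sum] <;>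
    refine sum_le_sum fun m _ => ?_
  · have h0 : 0 ≤ 4 ^ m * L.nn K p m := mul_nonneg (by positivity) (Gam_nonneg (L.wh_nonneg m) K _)
    nlinarith [(L.gd_bdd Y hi K p m).1]
  · have h0 : 0 ≤ 4 ^ m * L.nn K p m := mul_nonneg (by positivity) (Gam_nonneg (L.wh_nonneg m) K _)
    nlinarith [(L.gd_bdd Y hi K p m).2]

theorem En_sub_eq (L : Lat) {m : ℕ} (hm : m ≤ L.N) (K : L.Mat) :
    En L.r2 K - En (L.rho2 m) K = ∑ k ∈ Ico m L.N, 4 ^ k * En (L.s4 k) K := by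
  unfold En Gam
  simp only [mul_sum]
  rw [← sum_sub_distrib, sum_comm]
  refine sum_congr rfl fun p _ => ?_
  rw [← sum_sub_distrib, sum_comm]
  refine sum_congr rfl fun r _ => ?_
  rw [← mul_sub, L.r2_sub_rho2 hm, mul_sum]
  exact sum_congr rfl fun k _ => by ring

theorem geo_quarter (m N : ℕ) : ∑ k ∈ Ico m N, (1 / 4 : ℝ) ^ k ≤ 4 / 3 * (1 / 4) ^ m :=
  (geom_sum_Ico_le_of_lt_one (by norm_num) (by norm_num)).trans_eq (by ring)

theorem sum_four_le (m0 m1 : ℕ) : ∑ k ∈ Ico m0 m1, (4 : ℝ) ^ k ≤ 4 ^ m1 := by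
  refine (sum_le_sum_of_subset_of_nonneg (t := range m1)
    (fun k hk => mem_range.2 (mem_Ico.1 hk).2) fun _ _ _ => by positivity).trans ?_
  rw [geom_sum_eq (by norm_num)]
  have : (0 : ℝ) < 4 ^ m1 := by positivity
  linarith

theorem trunc_le {κ κ0 lam : ℝ} {p : ℕ} (hp : 1 ≤ p) (h0 : 0 < κ0) (hl : 0 ≤ lam) (hκ : 0 ≤ κ) :
    (if κ0 < κ then κ else 0) ≤ 1 / κ0 ^ (p - 1) * (lam + κ) ^ p := by
  split_ifs with h
  · obtain ⟨k, rfl⟩ : ∃ k, p = k + 1 := ⟨p - 1, by omega⟩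
    rw [Nat.add_sub_cancel, one_div, ← div_eq_inv_mul, le_div_iff₀ (by positivity), pow_succ,
      mul_comm]
    exact mul_le_mul (pow_le_pow_left₀ h0.le (by linarith) _) (by linarith) hκ (by positivity)
  · positivity

namespace Ens
variable {L : Lat} (e : Ens L) {n : ℕ}

theorem ExS_I0_mono {q : e.Ω → L.X → Lv n → ℝ} (hq : ∀ l x j, 0 ≤ q l x j)
    {F G : e.Ω → L.Mat → ℝ} (hF : ∀ l, Nice (F l)) (hG : ∀ l, Nice (G l))
    (h : ∀ l K, IsPort K → F l K ≤ G l K) :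
    (e.Ex q fun l lam => ((e.S l).lev lam).I0 (F l)) ≤
      e.Ex q fun l lam => ((e.S l).lev lam).I0 (G l) :=
  e.Ex_mono hq fun l _ => Stat.I0_mono _ (hF l) (hG l) (h l)

theorem ExS_I0_mul (q : e.Ω → L.X → Lv n → ℝ) (r : ℝ) (F : L.Mat → ℝ) :
    (e.Ex q fun l lam => ((e.S l).lev lam).I0 fun K => r * F K) =
      r * e.ExS q fun st => st.I0 F := by
  unfold ExS
  rw [← e.Ex_mul]
  exact congrArg _ (funext fun l => funext fun lam => Stat.Ig_mul _ _ _ _)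

theorem ExS_I0_sum (q : e.Ω → L.X → Lv n → ℝ) {ι : Type} (s : Finset ι) {F : ι → L.Mat → ℝ}
    (hF : ∀ i ∈ s, Nice (F i)) :
    (e.Ex q fun l lam => ((e.S l).lev lam).I0 fun K => ∑ i ∈ s, F i K) =
      ∑ i ∈ s, e.ExS q fun st => st.I0 (F i) := by
  unfold ExS
  rw [← e.Ex_sum]
  exact congrArg _ (funext fun l => funext fun lam => Stat.Ig_sum _ s hF (Stat.γ_nonneg _))

theorem ExS_I0_sub (q : e.Ω → L.X → Lv n → ℝ) {F G : L.Mat → ℝ} (hF : Nice F) (hG : Nice G) :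
    (e.ExS q fun st => st.I0 fun K => F K - G K) =
      (e.ExS q fun st => st.I0 F) - e.ExS q fun st => st.I0 G := by
  unfold ExS
  rw [eq_sub_iff_add_eq, ← e.Ex_add]
  refine congrArg _ (funext fun l => funext fun lam => ?_)
  unfold Stat.I0
  beta_reduce
  rw [Stat.Ig_sub _ hF hG (Stat.γ_nonneg _), sub_add_cancel]
end Ens

theorem interval : ∀ δ : ℝ, 0 < δ → ∃ C : ℝ, 1 ≤ C ∧ ∀ (L : Lat) (e : Ens L) (n : ℕ)
    (q : ℝ → e.Ω → L.X → Lv n → ℝ) (η ε err ta tb κ0 lam Kb Qb D Db : ℝ) (m0 m1 M p : ℕ),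
    (∀ l x, IsFlow hlf fun t => q t l x) → (∀ l x, x ∉ (e.S l).Y → (e.S l).γ x = 0) →
    (∀ l, (e.S l).η = η) → 0 < η → 0 ≤ ε → 0 ≤ err → 0 ≤ ta → ta ≤ tb → m0 ≤ m1 → m1 ≤ L.N →
    1 ≤ κ0 → 0 ≤ lam → 1 ≤ p → 0 ≤ D → 0 ≤ Db → 0 ≤ Kb →
    (∀ l x, (e.S l).mu x ≤ ENNReal.ofReal D • (volume : Measure ℝ)) →
    (∀ t, ta ≤ t → t ≤ tb → e.BPq (q t) ε err) → (∀ t, ta ≤ t → t ≤ tb → e.Qf q t ≤ Qb) →
    (∀ (c : L.X) (R2 t : ℝ), 1 ≤ R2 → ta ≤ t → t ≤ tb →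
      e.ExS (q t) (fun st => st.I0 fun K => (lam + En (L.wF c R2) K) ^ p) ≤ Kb) →
    (∀ m, m < L.N → e.ExS (q ta) (fun st => st.I0 (En (L.s4 m))) ≤
      Db / 16 ^ m * Fintype.card L.X) →
    ((m1 : ℝ) - m0) * e.Qf q tb ≤
      (2 * Db / 4 ^ m0 + C * 4 ^ m1 * D * (η + Real.exp (-tb / 2) + (1 / 2) ^ n)) *
        Fintype.card L.X + C * κ0 ^ 4 * Qb +
      (tb - ta) * (δ * Qb + C * (m1 + κ0 ^ 4) * (ε * Qb + err * Fintype.card L.X) +
        C * (κ0 ^ 4 * (1 / 2) ^ n / η ^ 4 + (M + 1) / (4 ^ M * η ^ 6) + M * Kb / κ0 ^ (p - 1)) *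
          Fintype.card L.X) := by
  intro δ hδ
  obtain ⟨i, Λ2, c', C, hi, hΛ, hc', hC, h⟩ := core δ hδ
  obtain ⟨Cm, hCm, hmass⟩ := massE
  have hi0 : 0 ≤ i := by linarith
  set C' := 1 + C + C ^ 2 + Cm + c' * (i + 5) with hC'
  have hci : 0 ≤ c' * (i + 5) := by positivity
  have hCC : C ≤ C' ∧ C ^ 2 ≤ C' ∧ Cm ≤ C' ∧ C + c' * (i + 5) ≤ C' ∧ 1 ≤ C' := by
    have : 0 ≤ C ^ 2 := by positivity
    refine ⟨?_, ?_, ?_, ?_, ?_⟩ <;> rw [hC'] <;> linarith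
  refine ⟨C', hCC.2.2.2.2, fun L e n q η ε err ta tb κ0 lam Kb Qb D Db m0 m1 M p hq hY hη hη0 hε
    herr hta hab hm01 hm1 hκ hl hp hD hDb hKb hmu hBP hQ hK hD0 => ?_⟩
  set V : ℝ := (Fintype.card L.X : ℝ) with hV
  have hV0 : 0 ≤ V := by positivity
  have hq0 : ∀ t, ta ≤ t → ∀ l x j, 0 ≤ q t l x j := fun t ht l x j =>
    (hq l x).nonneg t (hta.trans ht) j
  have hQ0 : ∀ t, ta ≤ t → 0 ≤ e.Qf q t := fun t ht => e.Ex_nonneg (hq0 t ht) fun l lam =>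
    Stat.I0_nonneg _ fun K => En_nonneg L.r2_nonneg K
  have hQb : 0 ≤ Qb := (hQ0 ta le_rfl).trans (hQ ta le_rfl hab)
  have k4 : 1 ≤ κ0 ^ 4 := one_le_pow₀ hκ
  have d1 := e.deriv_hlf q hq hY fun _ => L.Lam m0 m1
  have d2 := e.deriv_hlf q hq hY fun l => L.Pot (e.S l).Y i
  have d3 := e.deriv_hlf q hq hY fun _ => En L.r2
  have hd := fun t => ((d1 t).fun_sub ((d2 t).const_mul c')).fun_add ((d3 t).const_mul (C * κ0 ^ 4))
  set B := δ * Qb + C' * (m1 + κ0 ^ 4) * (ε * Qb + err * V) +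
    C' * (κ0 ^ 4 * (1 / 2) ^ n / η ^ 4 + (M + 1) / (4 ^ M * η ^ 6) + M * Kb / κ0 ^ (p - 1)) * V
    with hB
  have hC'0 : 0 ≤ C' := by linarith [hCC.2.2.2.2]
  have hB0 : 0 ≤ B := by positivity
  have g := gron (K := 0) (e := B) hab le_rfl hB0 hd fun u hu hu' => by
    have h0 := hq0 u hu
    have hs : ∀ l x, ∑ j, q u l x j = 1 := fun l x => (hq l x).sum u
    rw [zero_mul, zero_add, sub_eq_add_neg, ← neg_mul, ← e.Ex_mul, ← e.Ex_mul, ← e.Ex_add,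
      ← e.Ex_add]
    have a := e.Ex_mono h0 fun l lam' => h L ((e.S l).lev lam') (e.mov l lam') m0 m1 M κ0
      ((1 / 2) ^ n) (e.mov_sub l lam') hm1 hκ (by positivity) (e.floor_le l lam')
    refine le_trans (le_of_eq (congrArg _ (funext fun l => funext fun lam' => ?_))) (a.trans ?_)
    · show _ = _ - c' * ((e.S l).lev lam').dr _ _ (L.Pot (e.S l).Y i) + _
      ring
    have eη : ∀ l (lam' : L.X → Lv n), ((e.S l).lev lam').η = η := fun l _ => hη l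
    simp only [eη]
    rw [e.Ex_add, e.Ex_add, e.Ex_add, e.Ex_mul, e.Ex_mul, e.Ex_mul _ C, e.Ex_const hs,
      e.Ex_sum (q u) (range (min M L.N))]
    have t1 : ∀ m ∈ range (min M L.N), (e.Ex (q u) fun l lam' => ∑ c, ((e.S l).lev lam').I0
        fun K => if κ0 < L.kap Λ2 c m K then L.kap Λ2 c m K else 0) ≤ Kb / κ0 ^ (p - 1) * V := by
      intro m _
      rw [e.Ex_sum (q u) univ, hV, mul_comm, ← nsmul_eq_mul]
      refine sum_le_card_nsmul _ _ _ fun c _ => ?_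
      have hR : 1 ≤ Λ2 * 4 ^ m := one_le_mul_of_one_le_of_one_le hΛ (one_le_pow₀ (by norm_num))
      have nk : Nice (L.kap Λ2 c m) := nice_En _
      refine (e.ExS_I0_mono h0 (G := fun _ K => 1 / κ0 ^ (p - 1) *
        (lam + En (L.wF c (Λ2 * 4 ^ m)) K) ^ p) (fun _ => Nice.ite
          (measurableSet_lt measurable_const nk.meas) nk (Nice.const 0))
        (fun _ => (Nice.const _).mul (((Nice.const lam).add (nice_En _)).pow p))
        fun _ K _ => trunc_le hp (by linarith) hl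
          (En_nonneg (wF_nonneg L c (by linarith)) K)).trans ?_
      rw [e.ExS_I0_mul, div_eq_mul_one_div Kb, mul_comm Kb]
      exact mul_le_mul_of_nonneg_left (hK c _ u hR hu hu') (by positivity)
    have t2 := sum_le_card_nsmul _ _ _ t1
    rw [card_range, nsmul_eq_mul] at t2
    have t3 : ((min M L.N : ℕ) : ℝ) * (Kb / κ0 ^ (p - 1) * V) ≤ M * (Kb / κ0 ^ (p - 1) * V) :=
      mul_le_mul_of_nonneg_right (by exact_mod_cast min_le_left _ _) (by positivity)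
    have t4 := mul_le_mul (hCC.1) (t2.trans t3) (sum_nonneg fun m _ => e.Ex_nonneg h0
      fun l lam' => sum_nonneg fun c _ => Stat.I0_nonneg _ fun K => by
        split_ifs with h
        · linarith
        · exact le_rfl) hC'0
    have t5 := mul_le_mul_of_nonneg_left (hQ u hu hu') hδ.le
    have t6 : e.ExS (q u) (fun st => st.IB st.Y (fun _ => 1) L.r2) ≤ ε * Qb + err * V :=
      (hBP u hu hu').trans (add_le_add (mul_le_mul_of_nonneg_left (hQ u hu hu') hε) le_rfl)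
    have t7 : C ^ 2 * (m1 + κ0 ^ 4) * e.ExS (q u) (fun st => st.IB st.Y (fun _ => 1) L.r2) ≤
        C' * (m1 + κ0 ^ 4) * (ε * Qb + err * V) :=
      (mul_le_mul_of_nonneg_left t6 (by positivity)).trans (by gcongr; exact hCC.2.1)
    have t8 : C * (κ0 ^ 4 * (1 / 2) ^ n / η ^ 4 + (M + 1) / (4 ^ M * η ^ 6)) * V ≤
        C' * (κ0 ^ 4 * (1 / 2) ^ n / η ^ 4 + (M + 1) / (4 ^ M * η ^ 6)) * V := by
      gcongr; exact hCC.1
    have t9 : B = δ * Qb + C' * (m1 + κ0 ^ 4) * (ε * Qb + err * V) +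
      C' * (κ0 ^ 4 * (1 / 2) ^ n / η ^ 4 + (M + 1) / (4 ^ M * η ^ 6)) * V +
      C' * (M * (Kb / κ0 ^ (p - 1) * V)) := by rw [hB]; ring
    rw [t9]
    exact add_le_add (add_le_add (add_le_add t5 t7) t8) t4
  simp only [zero_mul, Real.exp_zero, one_mul] at g
  -- the values at the end points
  have nP : ∀ l, Nice (L.Pot (e.S l).Y i) := fun l => L.nice_Pot _ hi0
  have p1 := e.ExS_I0_mono (hq0 tb hab) nP (fun _ => (Nice.const i).mul (nice_En L.r2))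
    fun l K _ => (Pot_bounds L _ hi0 K).2
  have p2 := e.ExS_I0_mono (hq0 ta le_rfl) (fun _ => (Nice.const (-5)).mul (nice_En L.r2)) nP
    fun l K _ => (Pot_bounds L _ hi0 K).1
  rw [e.ExS_I0_mul] at p1 p2
  have nL : ∀ m ∈ Ico m0 m1, Nice fun K => En L.r2 K - En (L.rho2 m) K := fun _ _ =>
    (nice_En _).sub (nice_En _)
  have l1 : ((m1 : ℝ) - m0) * e.Qf q tb - Cm * 4 ^ m1 * D *
      ((η + Real.exp (-tb / 2) + (1 / 2) ^ n) * V) ≤
      e.Ex (q tb) fun l lam => ((e.S l).lev lam).I0 (L.Lam m0 m1) := by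
    unfold Lat.Lam
    rw [e.ExS_I0_sum _ _ nL, sum_congr rfl fun m _ => e.ExS_I0_sub _ (nice_En _) (nice_En _),
      sum_sub_distrib, sum_const, Nat.card_Ico, nsmul_eq_mul, Nat.cast_sub hm01]
    refine sub_le_sub_left ((sum_le_sum fun m _ =>
      hmass L e n q η D hq hη hD hmu m tb (hta.trans hab)).trans ?_) _
    rw [← sum_mul, ← sum_mul, ← mul_sum]
    gcongr
    exact sum_four_le _ _
  have l2 : (e.Ex (q ta) fun l lam => ((e.S l).lev lam).I0 (L.Lam m0 m1)) ≤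
      2 * Db / 4 ^ m0 * V := by
    unfold Lat.Lam
    rw [e.ExS_I0_sum _ _ nL]
    have : ∀ m ∈ Ico m0 m1, (e.ExS (q ta) fun st => st.I0 fun K => En L.r2 K - En (L.rho2 m) K) ≤
        4 / 3 * Db * V * (1 / 4) ^ m := by
      intro m hm
      have hmN : m ≤ L.N := (mem_Ico.1 hm).2.le.trans hm1
      simp only [En_sub_eq L hmN]
      unfold Ens.ExS
      rw [e.ExS_I0_sum _ _ fun k _ => (Nice.const _).mul (nice_En _)]
      calc _ ≤ ∑ k ∈ Ico m L.N, Db * V * (1 / 4) ^ k := sum_le_sum fun k hk => by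
            unfold Ens.ExS
            rw [e.ExS_I0_mul]
            refine (mul_le_mul_of_nonneg_left (hD0 k (mem_Ico.1 hk).2) (by positivity)).trans_eq ?_
            rw [show (16 : ℝ) = 4 * 4 by norm_num, mul_pow, one_div, inv_pow]
            field_simp
        _ ≤ _ := by
            rw [← mul_sum]
            exact (mul_le_mul_of_nonneg_left (geo_quarter _ _) (by positivity)).trans_eq (by ring)
    refine (sum_le_sum this).trans ?_
    rw [← mul_sum]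
    refine (mul_le_mul_of_nonneg_left (geo_quarter _ _) (by positivity)).trans ?_
    have e1 : 2 * Db / 4 ^ m0 * V = 2 * (Db * V * (1 / 4) ^ m0) := by
      rw [one_div, inv_pow]; ring
    have e2 : 0 ≤ Db * V * (1 / 4) ^ m0 := by positivity
    rw [e1]; linarith
  have qa := hQ ta le_rfl hab
  have qb := hQ tb hab le_rfl
  have z1 : 0 ≤ C * κ0 ^ 4 * e.Qf q tb := mul_nonneg (by positivity) (hQ0 tb hab)
  have z2 : C * κ0 ^ 4 * e.Qf q ta ≤ C * κ0 ^ 4 * Qb := by gcongr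
  have z3 := mul_le_mul_of_nonneg_left (p1.trans (mul_le_mul_of_nonneg_left qb hi0)) hc'.le
  have z4 := mul_le_mul_of_nonneg_left p2 hc'.le
  have z5 : c' * (5 * e.Qf q ta) ≤ c' * (5 * Qb) := by gcongr
  have z6 : c' * (i + 5) * Qb ≤ c' * (i + 5) * κ0 ^ 4 * Qb := by
    calc _ = c' * (i + 5) * 1 * Qb := by ring
      _ ≤ _ := by gcongr
  have z7 : (C + c' * (i + 5)) * κ0 ^ 4 * Qb ≤ C' * κ0 ^ 4 * Qb := by gcongr; exact hCC.2.2.2.1
  have z8 : Cm * 4 ^ m1 * D * ((η + Real.exp (-tb / 2) + (1 / 2) ^ n) * V) ≤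
      C' * 4 ^ m1 * D * ((η + Real.exp (-tb / 2) + (1 / 2) ^ n) * V) := by
    gcongr; exact hCC.2.2.1
  unfold Ens.Qf Ens.ExS at *
  linarith

end Crest.Agent.N334.G
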