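import Crest.Agent.N334.G.Basic

/-!
# Row 334, S0519 GAIN: dyadic geometry
-/

set_option autoImplicit false

open MeasureTheory Finset Complex
open scoped BigOperators ComplexConjugate

noncomputable section

namespace Crest.Agent.N334.G

namespace Geo0

theorem geo_inj {r : ℝ} (h0 : 0 ≤ r) (h1 : r < 1) (s : Finset ℕ) {f : ℕ → ℕ}
    (hf : Set.InjOn f s) : ∑ k ∈ s, r ^ f k ≤ (1 - r)⁻¹ := by
  rw [← sum_image (f := fun j => r ^ j) hf, ← tsum_geometric_of_lt_one h0 h1]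
  exact (summable_geometric_of_lt_one h0 h1).sum_le_tsum _ fun _ _ => by positivity

theorem geo_up {r : ℝ} (h0 : 0 ≤ r) (h1 : r < 1) (s : Finset ℕ) (m : ℕ) :
    ∑ k ∈ s, (if m ≤ k then r ^ (k - m) else 0) ≤ (1 - r)⁻¹ := by
  rw [← sum_filter]
  exact geo_inj h0 h1 _ fun a ha b hb e => by
    have := (mem_filter.1 ha).2
    have := (mem_filter.1 hb).2
    omega

theorem geo_dn {r : ℝ} (h0 : 0 ≤ r) (h1 : r < 1) (s : Finset ℕ) (m : ℕ) :
    ∑ k ∈ s, (if k ≤ m then r ^ (m - k) else 0) ≤ (1 - r)⁻¹ := by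
  rw [← sum_filter]
  exact geo_inj h0 h1 _ fun a ha b hb e => by
    have := (mem_filter.1 ha).2
    have := (mem_filter.1 hb).2
    omega

theorem del_sq {u w : ℂ} (hu : ‖u‖ = 1) (hw : ‖w‖ = 1) :
    ‖u ^ 2 - w ^ 2‖ ^ 2 = ‖u - w‖ ^ 2 * (4 - ‖u - w‖ ^ 2) := by
  have := parallelogram_law_with_norm ℝ u w
  rw [sq_sub_sq, norm_mul, mul_pow, mul_comm]
  rw [hu, hw] at this
  congr 1
  linarith

theorem al0_nonneg (m m' : ℕ) : 0 ≤ Lat.al0 m m' := by unfold Lat.al0; split_ifs <;> positivity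

theorem al0_succ (m m' : ℕ) :
    Lat.al0 m m' ≤ 16 * Lat.al0 (m + 1) m' ∧ Lat.al0 (m + 1) m' ≤ 2 * Lat.al0 m m' := by
  unfold Lat.al0
  by_cases h : m' ≤ m
  · rw [if_pos h, if_pos (h.trans m.le_succ), Nat.succ_sub h, pow_succ]
    have : (0 : ℝ) ≤ (1 / 16) ^ (m - m') := by positivity
    constructor <;> linarith
  · obtain ⟨j, rfl⟩ : ∃ j, m' = m + 1 + j := ⟨m' - (m + 1), by omega⟩
    have e : (if m + 1 + j ≤ m + 1 then ((1 : ℝ) / 16) ^ (m + 1 - (m + 1 + j))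
        else (1 / 2) ^ (m + 1 + j - (m + 1))) = (1 / 2) ^ j := by
      split_ifs with h'
      · obtain rfl : j = 0 := by omega
        simp
      · rw [Nat.add_sub_cancel_left]
    rw [if_neg h, e, show m + 1 + j - m = j + 1 by omega, pow_succ]
    have : (0 : ℝ) ≤ (1 / 2) ^ j := by positivity
    constructor <;> linarith

theorem sum_al0 (s : Finset ℕ) (m : ℕ) : ∑ m' ∈ s, Lat.al0 m m' ≤ 31 / 15 := by
  have h1 := geo_dn (r := 1 / 16) (by norm_num) (by norm_num) s m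
  have h2 := geo_up (r := 1 / 2) (by norm_num) (by norm_num) s (m + 1)
  have : ∑ m' ∈ s, Lat.al0 m m' = ∑ k ∈ s, (if k ≤ m then ((1 : ℝ) / 16) ^ (m - k) else 0)
      + 1 / 2 * ∑ k ∈ s, (if m + 1 ≤ k then ((1 : ℝ) / 2) ^ (k - (m + 1)) else 0) := by
    rw [mul_sum, ← sum_add_distrib]
    refine sum_congr rfl fun k _ => ?_
    unfold Lat.al0
    by_cases h : k ≤ m
    · rw [if_pos h, if_pos h, if_neg (by omega)]; ring
    · rw [if_neg h, if_neg h, if_pos (by omega), show k - m = k - (m + 1) + 1 by omega]; ring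
  norm_num at h1 h2 this ⊢
  linarith

theorem norm_al0 (s : Finset ℕ) (m' : ℕ) : ∑ k ∈ s, 4 ^ k * Lat.al0 k m' ≤ 2 * 4 ^ m' := by
  have h1 := geo_up (r := 1 / 4) (by norm_num) (by norm_num) s m'
  have h2 := geo_dn (r := 1 / 8) (by norm_num) (by norm_num) s (m' - 1)
  have : ∑ k ∈ s, 4 ^ k * Lat.al0 k m' ≤ 4 ^ m' * (∑ k ∈ s,
      (if m' ≤ k then ((1 : ℝ) / 4) ^ (k - m') else 0)
      + 1 / 8 * ∑ k ∈ s, (if k ≤ m' - 1 then ((1 : ℝ) / 8) ^ (m' - 1 - k) else 0)) := by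
    rw [mul_sum, ← sum_add_distrib, mul_sum]
    refine sum_le_sum fun k _ => ?_
    unfold Lat.al0
    by_cases h : m' ≤ k
    · obtain ⟨j, rfl⟩ := Nat.exists_eq_add_of_le h
      rw [if_pos h, if_pos h, Nat.add_sub_cancel_left, pow_add, mul_assoc, ← mul_pow]
      refine mul_le_mul_of_nonneg_left ?_ (by positivity)
      norm_num
      split_ifs <;> positivity
    · obtain ⟨j, rfl⟩ : ∃ j, m' = k + (j + 1) := ⟨m' - k - 1, by omega⟩
      rw [if_neg h, if_neg h, if_pos (by omega), Nat.add_sub_cancel_left, zero_add,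
        show k + (j + 1) - 1 - k = j by omega, pow_add 4 k, mul_assoc, ← pow_succ', ← mul_pow]
      norm_num
  refine this.trans ?_
  rw [mul_comm 2]
  refine mul_le_mul_of_nonneg_left ?_ (by positivity)
  norm_num at h1 h2 ⊢
  linarith

theorem exp_five : (68 : ℝ) ≤ Real.exp 5 := by
  have := pow_le_pow_left₀ (by norm_num) Real.exp_one_gt_d9.le 5
  rw [← Real.exp_nat_mul] at this
  norm_num at this ⊢
  linarith

theorem exp_three : (16 : ℝ) ≤ Real.exp 3 := by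
  have := pow_le_pow_left₀ (by norm_num) Real.exp_one_gt_d9.le 3
  rw [← Real.exp_nat_mul] at this
  norm_num at this ⊢
  linarith

theorem log_le_of {a b : ℝ} (ha : 0 < a) (hb : 0 < b) (h : a ≤ 16 * b) :
    Real.log a ≤ Real.log b + 3 := by
  rw [Real.log_le_iff_le_exp ha, Real.exp_add, Real.exp_log hb]
  nlinarith [exp_three]

end Geo0

open Geo0

namespace Lat
variable (L : Lat)

theorem del_nonneg (m : ℕ) (i : Fin 2) (x y : L.X) : 0 ≤ L.del m i x y := sq_nonneg _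
theorem del_symm (m : ℕ) (i : Fin 2) (x y : L.X) : L.del m i x y = L.del m i y x := by
  rw [del, del, norm_sub_rev]
theorem del_succ {m : ℕ} (hm : m < L.N) (i : Fin 2) (x y : L.X) :
    L.del m i x y = L.del (m + 1) i x y * (4 - L.del (m + 1) i x y) := by
  rw [del, L.U_succ m i x hm, L.U_succ m i y hm, del_sq (L.norm_U _ _ _) (L.norm_U _ _ _), del]
theorem rho2_zero (p q : L.P) : L.rho2 0 p q = 0 := by simp [rho2, del, L.U_zero]

theorem wt_Phi (m : ℕ) : wt (L.Phi m) = L.rho2 m := by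
  funext p q
  have : ((2 : ℝ) ^ m) ^ 2 = 4 ^ m := by rw [← pow_mul, mul_comm, pow_mul]; norm_num
  simp only [wt, Phi, rho2, del, Fintype.sum_prod_type, Fintype.sum_bool, mul_sum, ← this,
    Complex.sq_norm, normSq_apply, sub_re, sub_im, if_true, Bool.false_eq_true, if_false]
  exact sum_congr rfl fun i _ => by ring
theorem rx_eq (p q : L.P) : L.r2 p q = L.rx p.1 q.1 := rfl
theorem rx_symm (x y : L.X) : L.rx x y = L.rx y x := by simp only [rx, L.del_symm _ _ x y]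
theorem rx_self (x : L.X) : L.rx x x = 0 := by simp [rx, del]
theorem rx_nonneg (x y : L.X) : 0 ≤ L.rx x y :=
  mul_nonneg (by positivity) (sum_nonneg fun _ _ => L.del_nonneg _ _ _ _)
theorem rx_tri (x y z : L.X) :
    Real.sqrt (L.rx x z) ≤ Real.sqrt (L.rx x y) + Real.sqrt (L.rx y z) := by
  have e : ∀ a b : L.X, Real.sqrt (L.rx a b) = Real.sqrt (4 ^ L.N) *
      dist (WithLp.toLp 2 fun i => L.U L.N i a : EuclideanSpace ℂ (Fin 2))
        (WithLp.toLp 2 fun i => L.U L.N i b) := fun a b => by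
    rw [rx, Real.sqrt_mul (by positivity), EuclideanSpace.dist_eq]
    simp only [del, dist_eq_norm]
  rw [e, e, e, ← mul_add]
  exact mul_le_mul_of_nonneg_left (dist_triangle _ _ _) (Real.sqrt_nonneg _)
theorem rx_le_two (x y z : L.X) : L.rx x z ≤ 2 * L.rx x y + 2 * L.rx y z := by
  have h := L.rx_tri x y z
  have h1 := Real.sq_sqrt (L.rx_nonneg x z)
  have h2 := Real.sq_sqrt (L.rx_nonneg x y)
  have h3 := Real.sq_sqrt (L.rx_nonneg y z)
  nlinarith [Real.sqrt_nonneg (L.rx x z), sq_nonneg (√(L.rx x y) - √(L.rx y z)),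
    pow_le_pow_left₀ (Real.sqrt_nonneg _) h 2]
theorem del_le (m : ℕ) (i : Fin 2) (x y : L.X) : L.del m i x y ≤ 4 := by
  have := norm_sub_le (L.U m i x) (L.U m i y)
  rw [L.norm_U, L.norm_U] at this
  exact (pow_le_pow_left₀ (norm_nonneg _) this 2).trans (by norm_num)
theorem rho2_nonneg (m : ℕ) (p q : L.P) : 0 ≤ L.rho2 m p q :=
  mul_nonneg (by positivity) (sum_nonneg fun _ _ => L.del_nonneg _ _ _ _)
theorem rho2_le_pow (m : ℕ) (p q : L.P) : L.rho2 m p q ≤ 8 * 4 ^ m := by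
  rw [rho2, Fin.sum_univ_two, mul_comm]
  exact mul_le_mul_of_nonneg_right (by linarith [L.del_le m 0 p.1 q.1, L.del_le m 1 p.1 q.1])
    (by positivity)
theorem s4_nonneg (m : ℕ) (p q : L.P) : 0 ≤ L.s4 m p q := sum_nonneg fun _ _ => sq_nonneg _
theorem rho2_succ {m : ℕ} (hm : m < L.N) (p q : L.P) :
    L.rho2 (m + 1) p q = L.rho2 m p q + 4 ^ m * L.s4 m p q := by
  simp only [rho2, s4, Fin.sum_univ_two, L.del_succ hm]
  ring
theorem r2_sub_rho2 {m : ℕ} (hm : m ≤ L.N) (p q : L.P) :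
    L.r2 p q - L.rho2 m p q = ∑ k ∈ Ico m L.N, 4 ^ k * L.s4 k p q := by
  have : ∀ n, m ≤ n → n ≤ L.N →
      L.rho2 n p q - L.rho2 m p q = ∑ k ∈ Ico m n, 4 ^ k * L.s4 k p q := by
    intro n h
    induction n, h using Nat.le_induction with
    | base => simp
    | succ n h ih =>
      intro hn
      rw [sum_Ico_succ_top h, ← ih (by omega), L.rho2_succ hn]
      ring
  exact this _ hm le_rfl
theorem rho2_le_r2 {m : ℕ} (hm : m ≤ L.N) (p q : L.P) : L.rho2 m p q ≤ L.r2 p q :=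
  sub_nonneg.1 (L.r2_sub_rho2 hm p q ▸
    sum_nonneg fun k _ => mul_nonneg (by positivity) (L.s4_nonneg k p q))
theorem r2_eq_sum (p q : L.P) : L.r2 p q = ∑ k ∈ range L.N, 4 ^ k * L.s4 k p q := by
  rw [range_eq_Ico, ← L.r2_sub_rho2 (Nat.zero_le _), rho2_zero, sub_zero]
theorem s4_le {m : ℕ} (hm : m < L.N) (p q : L.P) :
    L.s4 m p q ≤ 32 ∧ L.s4 m p q ≤ (L.r2 p q / 4 ^ (m + 1)) ^ 2 := by
  have h0 := L.del_nonneg (m + 1) 0 p.1 q.1
  have h1 := L.del_nonneg (m + 1) 1 p.1 q.1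
  have h2 := L.rho2_le_r2 (show m + 1 ≤ L.N from hm) p q
  rw [rho2, ← le_div_iff₀' (by positivity), Fin.sum_univ_two] at h2
  rw [s4, Fin.sum_univ_two]
  exact ⟨by nlinarith [L.del_le (m + 1) 0 p.1 q.1, L.del_le (m + 1) 1 p.1 q.1],
    le_trans (by nlinarith [mul_nonneg h0 h1]) (pow_le_pow_left₀ (add_nonneg h0 h1) h2 2)⟩
theorem r2_gap (p q : L.P) : L.r2 p q = 0 ∨ 16 ≤ L.r2 p q := by
  have : ∀ m ≤ L.N, L.rho2 m p q = 0 ∨ 16 ≤ L.rho2 m p q := by
    intro m
    induction m with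
    | zero => exact fun _ => Or.inl (L.rho2_zero p q)
    | succ m ih =>
      intro hm
      rcases ih (by omega) with h | h
      · have h4 : (0 : ℝ) < 4 ^ m := by positivity
        have h5 : (1 : ℝ) ≤ 4 ^ m := one_le_pow₀ (by norm_num)
        rw [rho2, mul_eq_zero, sum_eq_zero_iff_of_nonneg fun _ _ => L.del_nonneg _ _ _ _] at h
        have h' := fun i => (h.resolve_left h4.ne') i (mem_univ i)
        simp only [L.del_succ hm, mul_eq_zero, sub_eq_zero] at h'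
        rw [rho2, Fin.sum_univ_two, pow_succ]
        rcases h' 0 with a | a <;> rcases h' 1 with b | b
        · left; rw [a, b]; ring
        all_goals right; rw [← ge_iff_le]; nlinarith
      · right
        rw [L.rho2_succ hm]
        exact le_add_of_le_of_nonneg h (mul_nonneg (by positivity) (L.s4_nonneg _ _ _))
  exact this _ le_rfl
theorem sc_lt (x : ℝ) : L.sc x < L.N := by
  have := L.hN
  exact (min_le_left _ _).trans_lt (by omega)
theorem sc_spec {x : ℝ} (h1 : 1 ≤ x) (h2 : x ≤ 32 * 4 ^ L.N) :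
    4 ^ L.sc x ≤ x ∧ x ≤ 128 * 4 ^ L.sc x := by
  have h0 : ⌊x⌋₊ ≠ 0 := (Nat.floor_pos.2 h1).ne'
  constructor
  · refine (pow_le_pow_right₀ (by norm_num) (min_le_right _ _)).trans
      (le_trans ?_ (Nat.floor_le (zero_le_one.trans h1)))
    exact_mod_cast Nat.pow_log_le_self 4 h0
  · rcases min_choice (L.N - 1) (Nat.log 4 ⌊x⌋₊) with e | e <;> rw [sc, e]
    · obtain ⟨n, hn⟩ : ∃ n, L.N = n + 1 := ⟨L.N - 1, by have := L.hN; omega⟩
      rw [hn, pow_succ] at h2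
      rw [hn, Nat.add_sub_cancel]
      linarith
    · have h3 : ((⌊x⌋₊ + 1 : ℕ) : ℝ) ≤ (4 ^ (Nat.log 4 ⌊x⌋₊ + 1) : ℕ) :=
        Nat.cast_le.2 (Nat.lt_pow_succ_log_self (by norm_num) _)
      have h4 := Nat.lt_floor_add_one x
      have h5 : (0 : ℝ) < 4 ^ Nat.log 4 ⌊x⌋₊ := by positivity
      push_cast at h3
      rw [pow_succ] at h3
      linarith
theorem le_norm_al {m' : ℕ} (hm : m' < L.N) :
    (4 : ℝ) ^ m' ≤ ∑ k ∈ range L.N, 4 ^ k * al0 k m' := by
  simpa [al0] using single_le_sum (f := fun k => (4 : ℝ) ^ k * al0 k m')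
    (fun k _ => mul_nonneg (by positivity) (al0_nonneg k m')) (mem_range.2 hm)
theorem al_nonneg (m m' : ℕ) : 0 ≤ L.al m m' :=
  div_nonneg (mul_nonneg (al0_nonneg _ _) (by positivity))
    (sum_nonneg fun _ _ => mul_nonneg (by positivity) (al0_nonneg _ _))
theorem al_le {m' : ℕ} (hm : m' < L.N) (m : ℕ) : al0 m m' / 2 ≤ L.al m m' ∧ L.al m m' ≤ al0 m m' :=
  by
  have h1 := L.le_norm_al hm
  have h2 := norm_al0 (range L.N) m'
  have h3 : (0 : ℝ) < 4 ^ m' := by positivity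
  have h4 := al0_nonneg m m'
  rw [al, div_le_div_iff₀ two_pos (h3.trans_le h1), div_le_iff₀ (h3.trans_le h1)]
  exact ⟨by nlinarith, mul_le_mul_of_nonneg_left h1 h4⟩
theorem sum_al {m' : ℕ} (hm : m' < L.N) : ∑ m ∈ range L.N, 4 ^ m * L.al m m' = 4 ^ m' := by
  have h3 : (0 : ℝ) < 4 ^ m' := by positivity
  simp only [al, ← mul_div_assoc, ← mul_assoc]
  rw [← sum_div, ← sum_mul, mul_div_cancel_left₀ _ (h3.trans_le (L.le_norm_al hm)).ne']
theorem wh_nonneg (m : ℕ) (p q : L.P) : 0 ≤ L.wh m p q :=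
  sum_nonneg fun _ _ => mul_nonneg (L.al_nonneg _ _) (L.s4_nonneg _ _ _)
theorem wh_symm (m : ℕ) (p q : L.P) : L.wh m p q = L.wh m q p := by
  simp only [wh, s4, L.del_symm _ _ p.1 q.1]
theorem wh_self (m : ℕ) (p : L.P) : L.wh m p p = 0 := by simp [wh, s4, del]
theorem sum_wh (p q : L.P) : ∑ m ∈ range L.N, 4 ^ m * L.wh m p q = L.r2 p q := by
  simp only [wh, mul_sum, ← mul_assoc]
  rw [sum_comm, r2_eq_sum]
  exact sum_congr rfl fun k hk => by rw [← sum_mul, L.sum_al (mem_range.1 hk)]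
theorem wh_succ (m : ℕ) (p q : L.P) :
    L.wh m p q ≤ 16 * L.wh (m + 1) p q ∧ L.wh (m + 1) p q ≤ 2 * L.wh m p q := by
  have h : ∀ k, 0 ≤ (4 : ℝ) ^ k / (∑ j ∈ range L.N, 4 ^ j * al0 j k) * L.s4 k p q := fun k =>
    mul_nonneg (div_nonneg (by positivity)
      (sum_nonneg fun _ _ => mul_nonneg (by positivity) (al0_nonneg _ _))) (L.s4_nonneg _ _ _)
  simp only [wh, al, mul_sum, mul_div_assoc, mul_assoc]
  constructor <;> refine sum_le_sum fun k _ => ?_ <;> rw [← mul_assoc (_ : ℝ) (al0 _ k)]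
  exacts [mul_le_mul_of_nonneg_right (al0_succ m k).1 (h k),
    mul_le_mul_of_nonneg_right (al0_succ m k).2 (h k)]
theorem wh_le (m : ℕ) (p q : L.P) : L.wh m p q ≤ 67 := by
  refine (sum_le_sum fun k hk => mul_le_mul (L.al_le (mem_range.1 hk) m).2
    (L.s4_le (mem_range.1 hk) p q).1 (L.s4_nonneg _ _ _) (al0_nonneg _ _)).trans ?_
  rw [← sum_mul]
  linarith [sum_al0 (range L.N) m]
theorem sum_nn (K : L.Mat) (p : L.P) :
    ∑ m ∈ range L.N, 4 ^ m * L.nn K p m = Gam L.r2 K p := by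
  simp only [nn, Gam, mul_sum]
  rw [sum_comm]
  refine sum_congr rfl fun q _ => ?_
  rw [← L.sum_wh, mul_sum]
  exact sum_congr rfl fun k _ => by ring
theorem nn_nonneg (K : L.Mat) (p : L.P) (m : ℕ) : 0 ≤ L.nn K p m :=
  Gam_nonneg (L.wh_nonneg m) K p
theorem nn_le (K : L.Mat) (p : L.P) (m : ℕ) : L.nn K p m ≤ 67 * dd K p := by
  rw [nn, Gam, dd, mul_sum]
  exact sum_le_sum fun q _ => (mul_comm _ _).trans_le
    (mul_le_mul_of_nonneg_right (L.wh_le m p q) (cc_nonneg K p q))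
theorem nn_succ (K : L.Mat) (p : L.P) (m : ℕ) :
    L.nn K p m ≤ 16 * L.nn K p (m + 1) ∧ L.nn K p (m + 1) ≤ 2 * L.nn K p m := by
  simp only [nn, Gam, mul_sum]
  constructor <;> refine sum_le_sum fun q _ => ?_ <;> rw [mul_left_comm]
  exacts [mul_le_mul_of_nonneg_left (L.wh_succ m p q).1 (cc_nonneg K p q),
    mul_le_mul_of_nonneg_left (L.wh_succ m p q).2 (cc_nonneg K p q)]
theorem th_nonneg (K : L.Mat) (p : L.P) (m : ℕ) : 0 ≤ L.th K p m :=
  div_nonneg (L.nn_nonneg K p m) (dd_nonneg K p)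
theorem th_le (K : L.Mat) (p : L.P) (m : ℕ) : L.th K p m ≤ 67 :=
  div_le_of_le_mul₀ (dd_nonneg K p) (by norm_num) (L.nn_le K p m)
theorem th_mul (K : L.Mat) (p : L.P) (m : ℕ) : L.th K p m * dd K p = L.nn K p m := by
  rcases eq_or_ne (dd K p) 0 with h | h
  · have := L.nn_le K p m
    rw [h, mul_zero] at this ⊢
    exact le_antisymm (L.nn_nonneg K p m) this
  · exact div_mul_cancel₀ _ h
theorem gd_bdd (Y : Finset L.X) {i : ℝ} (hi : 0 ≤ i) (K : L.Mat) (p : L.P) (m : ℕ) :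
    -5 ≤ L.gd Y i K p m ∧ L.gd Y i K p m ≤ i := by
  have h0 := L.th_nonneg K p m
  have h1 := Real.exp_pos (-i)
  unfold gd
  split_ifs
  · rw [neg_le_neg_iff, neg_le, Real.log_le_iff_le_exp (by positivity),
      Real.le_log_iff_exp_le (by positivity)]
    have := Real.exp_le_one_iff.2 (neg_nonpos.2 hi)
    exact ⟨by linarith [L.th_le K p m, exp_five], by linarith⟩
  · exact ⟨by linarith, le_rfl⟩
theorem gd_lip (Y : Finset L.X) (i : ℝ) (K : L.Mat) (p : L.P) (m : ℕ) :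
    |L.gd Y i K p (m + 1) - L.gd Y i K p m| ≤ 3 := by
  have h0 := L.th_nonneg K p m
  have h0' := L.th_nonneg K p (m + 1)
  have h1 := Real.exp_pos (-i)
  have h2 : L.th K p m ≤ 16 * L.th K p (m + 1) := by
    rw [th, th, ← mul_div_assoc]
    exact div_le_div_of_nonneg_right (L.nn_succ K p m).1 (dd_nonneg K p)
  have h3 : L.th K p (m + 1) ≤ 2 * L.th K p m := by
    rw [th, th, ← mul_div_assoc]
    exact div_le_div_of_nonneg_right (L.nn_succ K p m).2 (dd_nonneg K p)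
  unfold gd
  split_ifs
  · have a := log_le_of (a := L.th K p m + Real.exp (-i)) (b := L.th K p (m + 1) + Real.exp (-i))
      (by positivity) (by positivity) (by linarith)
    have b := log_le_of (b := L.th K p m + Real.exp (-i)) (a := L.th K p (m + 1) + Real.exp (-i))
      (by positivity) (by positivity) (by linarith)
    exact abs_le.2 ⟨by linarith, by linarith⟩
  · simp
end Lat

end Crest.Agent.N334.G
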