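import Crest.Agent.N334.G.Law

/-!
# Row 334, S0519 GAIN: regularity of the smooth law against even and odd kernels (for `G/Qs`)
-/

set_option autoImplicit false

open MeasureTheory Finset Complex
open scoped BigOperators ComplexConjugate

noncomputable section

namespace Crest.Agent.N334.G.Qs

/-- the profile of the law -/
def ph (u : ℝ) : ℝ := (max (1 - u ^ 2) 0) ^ 2

theorem lawD_eq (a0 b a : ℝ) : lawD a0 b a = 15 / (16 * b) * ph ((a - a0) / b) := rfl

theorem max_le_one (u : ℝ) : max (1 - u ^ 2) 0 ≤ 1 :=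
  max_le (by nlinarith [sq_nonneg u]) zero_le_one

theorem ph_nonneg (u : ℝ) : 0 ≤ ph u := sq_nonneg _

theorem ph_le (u : ℝ) : ph u ≤ 1 := by
  have h0 : 0 ≤ max (1 - u ^ 2) 0 := le_max_right _ _
  have := max_le_one u
  unfold ph; nlinarith

theorem ph_zero {u : ℝ} (h : 1 ≤ |u|) : ph u = 0 := by
  unfold ph
  have : 1 ≤ u ^ 2 := by rw [← sq_abs]; nlinarith
  rw [max_eq_right (by linarith)]; simp

theorem taylor (t t' : ℝ) :
    |(max t' 0) ^ 2 - (max t 0) ^ 2 - 2 * max t 0 * (t' - t)| ≤ (t' - t) ^ 2 := by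
  rw [abs_le]
  rcases le_total t 0 with h | h <;> rcases le_total t' 0 with h' | h' <;>
    simp only [max_eq_left, max_eq_right, h, h'] <;> constructor <;>
    nlinarith [sq_nonneg t, sq_nonneg t', sq_nonneg (t' - t)]

theorem ph_two (u c : ℝ) : |ph (u + c) + ph (u - c) - 2 * ph u| ≤ 76 * c ^ 2 / (1 + c ^ 2) := by
  rw [le_div_iff₀ (by positivity)]
  by_cases hc : 1 ≤ c ^ 2
  · have : |ph (u + c) + ph (u - c) - 2 * ph u| ≤ 2 := by
      rw [abs_le]
      constructor <;>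
        linarith [ph_nonneg (u + c), ph_nonneg (u - c), ph_nonneg u, ph_le (u + c), ph_le (u - c),
          ph_le u]
    nlinarith
  push Not at hc
  have hc1 : |c| ≤ 1 := by rw [← sq_abs] at hc; nlinarith [abs_nonneg c]
  suffices h : |ph (u + c) + ph (u - c) - 2 * ph u| ≤ 38 * c ^ 2 by
    nlinarith [sq_nonneg c, abs_nonneg (ph (u + c) + ph (u - c) - 2 * ph u)]
  by_cases hu : 2 ≤ |u|
  · have h1 : 1 ≤ |u + c| := by
      have := abs_sub (u + c) c
      rw [add_sub_cancel_right] at this; linarith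
    have h2 : 1 ≤ |u - c| := by
      have := abs_add_le (u - c) c
      rw [sub_add_cancel] at this; linarith
    rw [ph_zero h1, ph_zero h2, ph_zero (u := u) (by linarith)]
    simp; positivity
  push Not at hu
  have hu2 : u ^ 2 ≤ 4 := by rw [← sq_abs]; nlinarith [abs_nonneg u]
  have t1 := abs_le.1 (taylor (1 - u ^ 2) (1 - (u + c) ^ 2))
  have t2 := abs_le.1 (taylor (1 - u ^ 2) (1 - (u - c) ^ 2))
  have h0 : 0 ≤ max (1 - u ^ 2) 0 := le_max_right _ _
  have h1 := max_le_one u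
  have e : (1 - (u + c) ^ 2 - (1 - u ^ 2)) ^ 2 + (1 - (u - c) ^ 2 - (1 - u ^ 2)) ^ 2 =
      8 * (u ^ 2 * c ^ 2) + 2 * (c ^ 2 * c ^ 2) := by ring
  have e2 : 2 * max (1 - u ^ 2) 0 * (1 - (u + c) ^ 2 - (1 - u ^ 2)) +
      2 * max (1 - u ^ 2) 0 * (1 - (u - c) ^ 2 - (1 - u ^ 2)) =
      -4 * (max (1 - u ^ 2) 0 * c ^ 2) := by ring
  have b1 : u ^ 2 * c ^ 2 ≤ 4 * c ^ 2 := by gcongr
  have b2 : c ^ 2 * c ^ 2 ≤ 1 * c ^ 2 := by gcongr
  have b3 : max (1 - u ^ 2) 0 * c ^ 2 ≤ 1 * c ^ 2 := by gcongr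
  have b4 : 0 ≤ max (1 - u ^ 2) 0 * c ^ 2 := by positivity
  unfold ph
  rw [abs_le]
  constructor <;> nlinarith [sq_nonneg c]

theorem ph_lip (u v : ℝ) : |ph v - ph u| ≤ 10 * |v - u| := by
  by_cases hc : 1 ≤ |v - u|
  · have : |ph v - ph u| ≤ 1 := by
      rw [abs_le]
      constructor <;> linarith [ph_nonneg u, ph_nonneg v, ph_le u, ph_le v]
    linarith
  push Not at hc
  have hv := abs_sub v (v - u)
  have hv' := abs_add_le u (v - u)
  rw [sub_sub_cancel] at hv
  rw [add_sub_cancel] at hv'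
  by_cases hu : 2 ≤ |u|
  · rw [ph_zero (u := v) (by linarith), ph_zero (u := u) (by linarith)]
    simp
  push Not at hu
  have h1 : |max (1 - v ^ 2) 0 - max (1 - u ^ 2) 0| ≤ 5 * |v - u| := by
    refine (abs_max_sub_max_le_abs _ _ _).trans ?_
    have e : 1 - v ^ 2 - (1 - u ^ 2) = -((v + u) * (v - u)) := by ring
    rw [e, abs_neg, abs_mul]
    have := abs_add_le v u
    gcongr
    linarith
  have h2 : |max (1 - v ^ 2) 0 + max (1 - u ^ 2) 0| ≤ 2 := by
    rw [abs_of_nonneg (by positivity)]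
    linarith [max_le_one u, max_le_one v]
  have e : ph v - ph u = (max (1 - v ^ 2) 0 + max (1 - u ^ 2) 0) *
      (max (1 - v ^ 2) 0 - max (1 - u ^ 2) 0) := by unfold ph; ring
  rw [e, abs_mul]
  calc _ ≤ 2 * (5 * |v - u|) := by gcongr
    _ = _ := by ring

theorem lawD_two (a0 : ℝ) {b : ℝ} (hb : 0 < b) (x c : ℝ) :
    |lawD a0 b (x + c) + lawD a0 b (x - c) - 2 * lawD a0 b x| ≤
      72 * c ^ 2 / (b * (c ^ 2 + b ^ 2)) := by
  have h := ph_two ((x - a0) / b) (c / b)
  have e1 : (x + c - a0) / b = (x - a0) / b + c / b := by ring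
  have e2 : (x - c - a0) / b = (x - a0) / b - c / b := by ring
  have e : lawD a0 b (x + c) + lawD a0 b (x - c) - 2 * lawD a0 b x = 15 / (16 * b) *
      (ph ((x - a0) / b + c / b) + ph ((x - a0) / b - c / b) - 2 * ph ((x - a0) / b)) := by
    simp only [lawD_eq, e1, e2]; ring
  rw [e, abs_mul, abs_of_pos (by positivity : 0 < 15 / (16 * b))]
  calc _ ≤ 15 / (16 * b) * (76 * (c / b) ^ 2 / (1 + (c / b) ^ 2)) := by gcongr
    _ = (285 / 4) * c ^ 2 / (b * (c ^ 2 + b ^ 2)) := by field_simp; ring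
    _ ≤ _ := by gcongr; norm_num

theorem lawD_lip (a0 : ℝ) {b : ℝ} (hb : 0 < b) (x c : ℝ) :
    |lawD a0 b (x + c) - lawD a0 b x| ≤ 10 / b ^ 2 * |c| := by
  have h := ph_lip ((x - a0) / b) ((x + c - a0) / b)
  have e1 : (x + c - a0) / b - (x - a0) / b = c / b := by ring
  rw [e1, abs_div, abs_of_pos hb] at h
  rw [lawD_eq, lawD_eq, ← mul_sub, abs_mul, abs_of_pos (by positivity : 0 < 15 / (16 * b))]
  calc _ ≤ 15 / (16 * b) * (10 * (|c| / b)) := by gcongr
    _ = (75 / 8) / b ^ 2 * |c| := by field_simp; ring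
    _ ≤ _ := by gcongr; norm_num

theorem int_shift (a0 : ℝ) {b : ℝ} (hb : 0 < b) {k : ℝ → ℝ} (hk : Integrable k) {g : ℝ → ℝ}
    (hg : Continuous g) : Integrable fun c => lawD a0 b (g c) * k c :=
  hk.bdd_mul (c := 1 / b) ((continuous_lawD a0 b).comp hg).aestronglyMeasurable
    (ae_of_all _ fun c => by
      rw [Real.norm_eq_abs, abs_of_nonneg (lawD_nonneg a0 hb _)]; exact lawD_le a0 hb _)

/-- even kernels see only second differences -/
theorem even_ker (a0 : ℝ) {b : ℝ} (hb : 0 < b) (x : ℝ) {k : ℝ → ℝ} (hk : Integrable k)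
    (he : ∀ c, k (-c) = k c) {κ : ℝ} (hκ : ∀ c, c ^ 2 * |k c| ≤ κ) :
    |(∫ c, lawD a0 b (x + c) * k c) - lawD a0 b x * ∫ c, k c| ≤ 36 * Real.pi * κ / b ^ 2 := by
  have i1 := int_shift a0 hb hk (g := fun c => x + c) (by fun_prop)
  have i2 := int_shift a0 hb hk (g := fun c => x - c) (by fun_prop)
  have i3 : Integrable fun c => lawD a0 b (x + c) * k c + lawD a0 b (x - c) * k c := i1.add i2
  have e1 : ∫ c, lawD a0 b (x - c) * k c = ∫ c, lawD a0 b (x + c) * k c := by
    rw [← integral_neg_eq_self]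
    simp only [he, sub_neg_eq_add]
  have e2 : ∫ c, (lawD a0 b (x + c) + lawD a0 b (x - c) - 2 * lawD a0 b x) * k c =
      2 * ((∫ c, lawD a0 b (x + c) * k c) - lawD a0 b x * ∫ c, k c) := by
    have : (fun c => (lawD a0 b (x + c) + lawD a0 b (x - c) - 2 * lawD a0 b x) * k c) = fun c =>
        (lawD a0 b (x + c) * k c + lawD a0 b (x - c) * k c) - 2 * lawD a0 b x * k c := by
      funext c; ring
    rw [this, integral_sub i3 (hk.const_mul _), integral_add i1 i2, e1, integral_const_mul]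
    ring
  have h := norm_integral_le_of_norm_le
    (f := fun c => (lawD a0 b (x + c) + lawD a0 b (x - c) - 2 * lawD a0 b x) * k c)
    ((Law.pois hb 0).1.const_mul (72 * κ / b ^ 2)) (ae_of_all _ fun c => by
      rw [Real.norm_eq_abs, abs_mul]
      calc _ ≤ 72 * c ^ 2 / (b * (c ^ 2 + b ^ 2)) * |k c| := by
            gcongr; exact lawD_two a0 hb x c
        _ = 72 / (b * (c ^ 2 + b ^ 2)) * (c ^ 2 * |k c|) := by ring
        _ ≤ 72 / (b * (c ^ 2 + b ^ 2)) * κ := by gcongr; exact hκ c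
        _ = _ := by rw [sub_zero]; field_simp)
  rw [e2, integral_const_mul, (Law.pois hb 0).2, Real.norm_eq_abs, abs_mul, abs_two] at h
  have e3 : 72 * κ / b ^ 2 * Real.pi = 2 * (36 * Real.pi * κ / b ^ 2) := by ring
  linarith

/-- odd kernels see only first differences -/
theorem odd_ker (a0 : ℝ) {b : ℝ} (hb : 0 < b) (x : ℝ) {k h : ℝ → ℝ} (hk : Integrable k)
    (ho : ∀ c, k (-c) = -k c) (hh : Integrable h) (hκ : ∀ c, |c| * |k c| ≤ h c) :
    |∫ c, lawD a0 b (x + c) * k c| ≤ 10 / b ^ 2 * ∫ c, h c := by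
  have i1 := int_shift a0 hb hk (g := fun c => x + c) (by fun_prop)
  have e1 : ∫ c, k c = 0 := by
    have := integral_neg_eq_self k volume
    simp only [ho, integral_neg] at this
    linarith
  have e2 : ∫ c, (lawD a0 b (x + c) - lawD a0 b x) * k c = ∫ c, lawD a0 b (x + c) * k c := by
    simp only [sub_mul]
    rw [integral_sub i1 (hk.const_mul _), integral_const_mul, e1]; simp
  have h1 := norm_integral_le_of_norm_le
    (f := fun c => (lawD a0 b (x + c) - lawD a0 b x) * k c)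
    (hh.const_mul (10 / b ^ 2)) (ae_of_all _ fun c => by
      rw [Real.norm_eq_abs, abs_mul]
      calc _ ≤ 10 / b ^ 2 * |c| * |k c| := by gcongr; exact lawD_lip a0 hb x c
        _ = 10 / b ^ 2 * (|c| * |k c|) := by ring
        _ ≤ _ := by gcongr; exact hκ c)
  rwa [e2, integral_const_mul, Real.norm_eq_abs] at h1

/-- Fubini for the ideal step -/
theorem fub (a0 : ℝ) {b δ : ℝ} (hb : 0 < b) (hδ : 0 < δ) {F : ℝ → ℝ} (hF : BM F) :
    Integrable (fun a' => (∫ a, lawD a0 b a * cau δ (a' - a)) * F a') ∧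
    Integrable (fun a => ∫ a', cau δ (a' - a) * F a') (law a0 b) ∧
    ∫ a', (∫ a, lawD a0 b a * cau δ (a' - a)) * F a' =
      ∫ a, (∫ a', cau δ (a' - a) * F a') ∂law a0 b := by
  obtain ⟨M, hM⟩ := hF.bdd
  have hc : Integrable (cau δ) := by simpa using (cau_integral hδ 0).1
  have h0 := (Law.integrable_lawD a0 hb).convolution_integrand (ContinuousLinearMap.mul ℝ ℝ) hc
  simp only [ContinuousLinearMap.mul_apply'] at h0
  have h1 : Integrable (fun p : ℝ × ℝ => lawD a0 b p.2 * cau δ (p.1 - p.2) * F p.1)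
      (volume.prod volume) :=
    h0.mul_bdd (c := M) (hF.meas.comp measurable_fst).aestronglyMeasurable
      (ae_of_all _ fun p => hM p.1)
  have e1 : ∀ a', ∫ a, lawD a0 b a * cau δ (a' - a) * F a' =
      (∫ a, lawD a0 b a * cau δ (a' - a)) * F a' := fun a' => integral_mul_const _ _
  have e2 : ∀ a, ∫ a', lawD a0 b a * cau δ (a' - a) * F a' =
      lawD a0 b a * ∫ a', cau δ (a' - a) * F a' := fun a => by
    simp only [mul_assoc]; exact integral_const_mul _ _
  refine ⟨?_, ?_, ?_⟩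
  · simpa only [e1] using h1.integral_prod_left
  · rw [Law.integrable_law_iff a0 hb]
    simpa only [e2, smul_eq_mul] using h1.integral_prod_right
  · rw [integral_law a0 hb]
    have := integral_integral_swap (f := fun a' a => lawD a0 b a * cau δ (a' - a) * F a') h1
    simpa only [e1, e2] using this

end Crest.Agent.N334.G.Qs
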