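import Crest.Agent.N334.G.S1
import Crest.Agent.N334.G.Quad

/-!
# Row 334, S0519 GAIN: static hierarchy, lifting and pointwise bounds (helper85)
-/

set_option autoImplicit false

open MeasureTheory Finset Complex
open scoped BigOperators ComplexConjugate

noncomputable section

namespace Crest.Agent.N334.G.S0
open S1

open Classical in
/-- real indicator of a proposition -/
def ind (p : Prop) : ℝ := if p then 1 else 0

theorem ind_pos {p : Prop} (h : p) : ind p = 1 := by simp [ind, h]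
theorem ind_neg {p : Prop} (h : ¬p) : ind p = 0 := by simp [ind, h]
theorem ind_nonneg (p : Prop) : 0 ≤ ind p := by
  by_cases h : p
  · rw [ind_pos h]; exact zero_le_one
  · rw [ind_neg h]
theorem ind_le_one (p : Prop) : ind p ≤ 1 := by
  by_cases h : p
  · rw [ind_pos h]
  · rw [ind_neg h]; exact zero_le_one
theorem ind_mul_le (p : Prop) {r : ℝ} (hr : 0 ≤ r) : ind p * r ≤ r :=
  mul_le_of_le_one_left hr (ind_le_one p)

open Classical in
theorem bm_ind {α : Type} [MeasurableSpace α] {p : α → Prop} (hp : MeasurableSet {a | p a}) :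
    BM fun a => ind (p a) := BM.ite hp (BM.const 1) (BM.const 0)
open Classical in
theorem nice_ind {P : Type} [Fintype P] {p : (P → P → ℂ) → Prop} (hp : MeasurableSet {K | p K}) :
    Nice fun K => ind (p K) := Nice.ite hp (Nice.const 1) (Nice.const 0)

/-- the matrix of the static ensemble -/
abbrev KK {L : Lat} (st : Stat L) (a : L.X → ℝ) : L.Mat := L.Km st.E st.η st.γ a

theorem bmK {L : Lat} (st : Stat L) {F : L.Mat → ℝ} (hF : Nice F) : BM fun a => F (KK st a) :=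
  st.bm_Km hF st.γ_nonneg
theorem bm_Gd {L : Lat} (st : Stat L) (x : L.X) : BM fun a => ind (x ∈ st.Gd a) :=
  bm_ind (st.measurableSet_Gd x)
theorem bm_nGd {L : Lat} (st : Stat L) (x : L.X) : BM fun a => ind (x ∉ st.Gd a) :=
  bm_ind (st.measurableSet_Gd x).compl
theorem portK {L : Lat} (st : Stat L) (a : L.X → ℝ) : IsPort (KK st a) :=
  L.port_Km st.E st.η_pos st.γ_nonneg a

open Classical in
/-- a one-site estimate on a good site lifts, with cavity-stable cut-offs -/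
theorem liftK {L : Lat} (st : Stat L) {x : L.X} (hx : x ∈ st.Y) {q q' : L.Mat → Prop}
    (hq : MeasurableSet {K | q K}) (hq' : MeasurableSet {K | q' K}) {F G : L.Mat → ℝ}
    (hF : Nice F) (hG : Nice G) (hF0 : ∀ K, 0 ≤ F K) (hG0 : ∀ K, 0 ≤ G K) {C : ℝ} (hC : 0 ≤ C)
    (hqq : ∀ (c : Cav ((x, true) : L.P)) t t', q (c.K t (st.γ x)) → q' (c.K t' (st.γ x)))
    (h : ∀ c : Cav ((x, true) : L.P),
      ∫ t, (if Good (st.a0 x) (st.b x) (st.γ x) c.s t then F (c.K t (st.γ x)) else 0)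
        ∂law (st.a0 x) (st.b x) ≤ C * ∫ t, G (c.K t (st.γ x)) ∂law (st.a0 x) (st.b x)) :
    st.Ia (fun a => ind (x ∈ st.Gd a) * (ind (q (KK st a)) * F (KK st a))) ≤
      C * st.Ia (fun a => ind (q' (KK st a)) * G (KK st a)) := by
  rw [← st.Ia_mul]
  refine st.lift ((bm_Gd st x).mul (bmK st ((nice_ind hq).mul hF)))
    ((bmK st ((nice_ind hq').mul hG)).const_mul C) x fun a => ?_
  obtain ⟨c, -, hK, -, hGd⟩ := st.cav a hx
  obtain ⟨hmu, hb, -, -⟩ := st.hY x hx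
  have := law_prob (st.a0 x) hb
  simp only [KK, hK, hGd, hmu]
  by_cases hex : ∃ t, q (c.K t (st.γ x))
  · obtain ⟨t0, ht0⟩ := hex
    simp only [ind_pos (hqq c t0 _ ht0), one_mul, integral_const_mul]
    refine le_trans ?_ (h c)
    refine integral_mono_of_nonneg (ae_of_all _ fun t => ?_)
      ((BM.ite (measurableSet_good' _ _ _ c.s) (bm_K c hF (st.γ_nonneg x))
        (BM.const 0)).integrable _) (ae_of_all _ fun t => ?_)
    · exact mul_nonneg (ind_nonneg _) (mul_nonneg (ind_nonneg _) (hF0 _))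
    · by_cases hg : Good (st.a0 x) (st.b x) (st.γ x) c.s t
      · simp only [ind_pos hg, if_pos hg, one_mul]; exact ind_mul_le _ (hF0 _)
      · simp only [ind_neg hg, if_neg hg, zero_mul, le_refl]
  · push Not at hex
    simp only [ind_neg (hex _), zero_mul, mul_zero, integral_zero]
    exact integral_nonneg fun t => mul_nonneg hC (mul_nonneg (ind_nonneg _) (hG0 _))

theorem Ia_sum_le {L : Lat} (st : Stat L) {ι : Type} (s : Finset ι) {F : ι → (L.X → ℝ) → ℝ}
    {H : (L.X → ℝ) → ℝ} (hF : ∀ i ∈ s, BM (F i)) (hH : BM H) (D : ℝ)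
    (h : ∀ a, ∑ i ∈ s, F i a ≤ D * H a) : ∑ i ∈ s, st.Ia (F i) ≤ D * st.Ia H := by
  rw [← st.Ia_sum s hF, ← st.Ia_mul]
  exact st.Ia_mono (BM.sum s hF) (hH.const_mul D) h

theorem Ia_sum2_le {L : Lat} (st : Stat L) {ι : Type} (s : Finset ι) (t : ι → Finset ι)
    {F : ι → ι → (L.X → ℝ) → ℝ} {H : (L.X → ℝ) → ℝ} (hF : ∀ i j, BM (F i j)) (hH : BM H) (D : ℝ)
    (h : ∀ a, ∑ i ∈ s, ∑ j ∈ t i, F i j a ≤ D * H a) :
    ∑ i ∈ s, ∑ j ∈ t i, st.Ia (F i j) ≤ D * st.Ia H := by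
  rw [sum_congr rfl fun i _ => (st.Ia_sum (t i) fun j _ => hF i j).symm]
  exact Ia_sum_le st s (fun i _ => BM.sum _ fun j _ => hF i j) hH D h

/-! ### cavity-stable quantities -/

theorem kap_osc : ∃ C0 : ℝ, 0 < C0 ∧ ∀ (L : Lat) (x : L.P) (c : Cav x) (Λ2 γ t t' : ℝ) (c0 : L.X)
    (m : ℕ), 1 ≤ Λ2 → 0 ≤ γ → L.kap Λ2 c0 m (c.K t' γ) ≤ L.kap Λ2 c0 m (c.K t γ) + C0 := by
  obtain ⟨C, hC, h⟩ := en_osc
  refine ⟨C, hC, fun L x c Λ2 γ t t' c0 m hΛ hγ => ?_⟩
  obtain ⟨F, hF1, hF⟩ := exists_stereo L c0 (R2 := Λ2 * 4 ^ m) (by positivity)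
  have := h L.P x c _ F t t' γ γ hγ hγ fun p q => by
    calc wt F p q ≤ ∑ j, (2 * F j p ^ 2 + 2 * F j q ^ 2) :=
          sum_le_sum fun j _ => by nlinarith [sq_nonneg (F j p + F j q)]
      _ = 4 := by rw [sum_add_distrib, ← mul_sum, ← mul_sum, hF1, hF1]; norm_num
  rw [hF] at this
  unfold Lat.kap
  linarith [(abs_le.1 this).2]

theorem th_const (L : Lat) {x : L.P} (c : Cav x) {γ : ℝ} (hγ : 0 ≤ γ) (t t' : ℝ) (m : ℕ) :
    L.th (c.K t γ) x m = L.th (c.K t' γ) x m := by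
  have key : ∀ t, L.th (c.K t γ) x m = if γ = 0 then 0 else c.V (L.wh m) / c.J γ := fun t => by
    rw [Lat.th, Lat.nn, c.Gam_y t γ hγ (L.wh_self m x), c.dd_y t γ hγ]
    split_ifs with h
    · simp [h]
    · have := norm_pos_iff.2 (z_ne c hγ t)
      have := c.J_pos hγ
      field_simp
  rw [key, key]

/-- the weight that dominates `d_x Om` -/
def WW (L : Lat) (i : ℝ) (K : L.Mat) (m : ℕ) (x z : L.P) : ℝ :=
  L.nn K x m * (Real.exp i * L.th K z m + cc K x z / (dd K x * dd K z + cc K x z))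
def RR (L : Lat) (K : L.Mat) (z y : L.P) : ℝ :=
  dd K z * L.GN K y + cc K z y * (L.GN K z / dd K z)
def HH (L : Lat) (Y Gd : Finset L.X) (K : L.Mat) (y : L.P) : ℝ :=
  L.GN K y + ∑ z ∈ Y, cc K (z, true) y * (L.GN K (z, true) / dd K (z, true)) +
    ∑ z ∈ Y, ind (z ∉ Gd) * L.T2 K (z, true) y

section
variable (L : Lat)

theorem fr_bd (K : L.Mat) (x z : L.P) : 0 ≤ cc K x z / (dd K x * dd K z + cc K x z) ∧
    cc K x z / (dd K x * dd K z + cc K x z) ≤ 1 := by
  have h1 := cc_nonneg K x z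
  have h2 := mul_nonneg (dd_nonneg K x) (dd_nonneg K z)
  exact ⟨by positivity, div_le_one_of_le₀ (by linarith) (by positivity)⟩

theorem WW_nonneg (i : ℝ) (K : L.Mat) (m : ℕ) (x z : L.P) : 0 ≤ WW L i K m x z :=
  mul_nonneg (nn_nonneg L K x m) (add_nonneg
    (mul_nonneg (Real.exp_pos i).le (L.th_nonneg K z m)) (fr_bd L K x z).1)

theorem CG_nonneg (K : L.Mat) (z y : L.P) : 0 ≤ cc K z y * (L.GN K z / dd K z) :=
  mul_nonneg (cc_nonneg _ _ _) (div_nonneg (GN_nonneg L _ _) (dd_nonneg _ _))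

theorem RR_nonneg (K : L.Mat) (z y : L.P) : 0 ≤ RR L K z y :=
  add_nonneg (mul_nonneg (dd_nonneg _ _) (GN_nonneg L _ _)) (CG_nonneg L K z y)

theorem nice_WW (i : ℝ) (m : ℕ) (x z : L.P) : Nice fun K => WW L i K m x z :=
  (L.nice_nn x m).mul (((Nice.const _).mul (L.nice_th z m)).add
    (Nice.div (M := 1) (nice_cc x z).meas
      (((nice_dd x).mul (nice_dd z)).add (nice_cc x z)).meas fun K _ => by
        rw [abs_of_nonneg (fr_bd L K x z).1]; exact (fr_bd L K x z).2))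

theorem nice_CG (z y : L.P) : Nice fun K => cc K z y * (L.GN K z / dd K z) := by
  have h := (Nice.div (M := 1) (nice_cc z y).meas (nice_dd z).meas fun K _ => by
    rw [abs_of_nonneg (div_nonneg (cc_nonneg K z y) (dd_nonneg K z))]
    exact div_le_one_of_le₀ (cc_le_dd K z y) (dd_nonneg K z)).mul (L.nice_GN z)
  convert h using 2
  ring

theorem nice_RR (z y : L.P) : Nice fun K => RR L K z y :=
  ((nice_dd z).mul (L.nice_GN y)).add (nice_CG L z y)

theorem WW_cav (i : ℝ) (m : ℕ) {z : L.P} (c : Cav z) {γ : ℝ} (hγ : 0 ≤ γ) {x : L.P} (hx : x ≠ z) :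
    ∃ (Wb : ℝ) (u0 : ℂ), 0 ≤ Wb ∧
      (∀ a, 0 ≤ WW L i (c.K a γ) m x z ∧ WW L i (c.K a γ) m x z ≤ 66 * Wb) ∧
      ∀ a, Wb * ‖(c.J γ : ℂ) * c.z a γ - u0‖ ^ 2 ≤ 66 * WW L i (c.K a γ) m x z := by
  rcases hγ.eq_or_lt with rfl | hγp
  · have h0 : ∀ a, WW L i (c.K a 0) m x z = 0 := fun a => by
      rw [WW, Lat.th, (c.port a le_rfl).cc_symm x z, cc_eq c le_rfl a hx, dd_zero]; simp
    exact ⟨0, 0, le_rfl, fun a => by simp [h0], fun a => by simp [h0]⟩
  have hJ := c.J_pos hγ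
  set β : ℝ := ‖c.rho x‖ ^ 2 / c.J γ with hβ
  have hβ0 : 0 ≤ β := by positivity
  set θ : ℝ := Real.exp i * L.th (c.K 0 γ) z m with hθ
  have hθ0 : 0 ≤ θ := mul_nonneg (Real.exp_pos i).le (L.th_nonneg _ _ _)
  have hW : ∀ a, WW L i (c.K a γ) m x z =
      L.nn (c.K a γ) x m * (θ + β / (dd (c.K a γ) x + β)) := fun a => by
    have hd := (dd_pos c hγp a).ne'
    rw [WW, th_const L c hγ a 0, (c.port a hγ).cc_symm x z, cc_eq c hγ a hx, ← hβ, ← hθ,
      mul_comm (dd (c.K a γ) x), ← mul_add, mul_div_mul_left _ _ hd]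
  have hc : ∀ a a', β / (dd (c.K a γ) x + β) ≤ 33 * (β / (dd (c.K a' γ) x + β)) := fun a a' => by
    rcases hβ0.eq_or_lt with h | h
    · rw [← h]; simp
    · have h1 := dd_nonneg (c.K a γ) x
      have h2 := dd_nonneg (c.K a' γ) x
      rw [← mul_div_assoc (33 : ℝ), div_le_div_iff₀ (by positivity) (by positivity)]
      have := mul_le_mul_of_nonneg_left (D_cmp c hγ a' a hx) hβ0
      calc _ ≤ _ := this
        _ = _ := by rw [← hβ]; ring
  have hf0 : ∀ a, 0 ≤ β / (dd (c.K a γ) x + β) := fun a =>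
    div_nonneg hβ0 (add_nonneg (dd_nonneg _ _) hβ0)
  obtain ⟨nb, hn, -⟩ := c.aff_Gam hγ (L.wh_nonneg m) x
  obtain ⟨hnb, hn2, u0, hu0⟩ := hn.le_two fun t => Gam_nonneg (L.wh_nonneg m) _ _
  refine ⟨nb * (θ + β / (dd (c.K 0 γ) x + β)), u0, mul_nonneg hnb (add_nonneg hθ0 (hf0 0)),
    fun a => ⟨WW_nonneg L _ _ _ _ _, ?_⟩, fun a => ?_⟩
  · obtain ⟨t, rfl⟩ : ∃ t, a = c.s.re + c.J γ * t := ⟨_, (arc_back c hγ a).symm⟩
    rw [hW]
    have := mul_le_mul (hn2 t) (show θ + β / (dd (c.K (c.s.re + c.J γ * t) γ) x + β) ≤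
      33 * (θ + β / (dd (c.K 0 γ) x + β)) by linarith [hc (c.s.re + c.J γ * t) 0])
      (add_nonneg hθ0 (hf0 _)) (by positivity)
    calc _ ≤ _ := this
      _ = _ := by ring
  · obtain ⟨t, rfl⟩ : ∃ t, a = c.s.re + c.J γ * t := ⟨_, (arc_back c hγ a).symm⟩
    rw [hW, J_z c hγ]
    have := mul_le_mul (hu0 t) (show θ + β / (dd (c.K 0 γ) x + β) ≤
      66 * (θ + β / (dd (c.K (c.s.re + c.J γ * t) γ) x + β)) by
        linarith [hc 0 (c.s.re + c.J γ * t), hf0 (c.s.re + c.J γ * t)])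
      (add_nonneg hθ0 (hf0 _)) (nn_nonneg L _ _ _)
    calc _ = nb * ‖uu t - u0‖ ^ 2 * (θ + β / (dd (c.K 0 γ) x + β)) := by ring
      _ ≤ _ := this
      _ = _ := by unfold Lat.nn; ring

/-! ### pointwise bounds -/

theorem sum_act_le {g : L.P → ℝ} (hg : ∀ p, 0 ≤ g p) (Z : Finset L.X) :
    ∑ z ∈ Z, g (z, true) ≤ ∑ p, g p := by
  rw [Fintype.sum_prod_type]
  refine le_trans (sum_le_sum_of_subset_of_nonneg (subset_univ Z) fun x _ _ => hg _)
    (sum_le_sum fun x _ => ?_)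
  exact single_le_sum (f := fun b => g (x, b)) (fun b _ => hg _) (mem_univ true)

theorem dd_le_nn {i : ℝ} {K : L.Mat} {x : L.P} {m : ℕ} (h : Real.exp (-i) ≤ L.th K x m) :
    dd K x ≤ Real.exp i * L.nn K x m := by
  rw [← L.th_mul, ← mul_assoc]
  refine le_mul_of_one_le_left (dd_nonneg K x) ?_
  have := mul_le_mul_of_nonneg_left h (Real.exp_pos i).le
  rwa [← Real.exp_add, add_neg_cancel, Real.exp_zero] at this

theorem Om_le {K : L.Mat} (hK : IsPort K) (i : ℝ) (m : ℕ) (x z : L.P) :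
    L.Om i K m x z ≤ Real.exp i * L.th K z m + cc K x z / (dd K x * dd K z + cc K x z) := by
  have hx := dd_nonneg K x
  have hc := cc_nonneg K x z
  have hn := nn_nonneg L K z m
  have he := Real.exp_pos i
  rcases (dd_nonneg K z).eq_or_lt with h | h
  · have h1 : cc K x z = 0 := le_antisymm (by rw [hK.cc_symm, h]; exact cc_le_dd K z x) hc
    rw [Lat.Om, Lat.th, h1, ← h]; simp
  rw [Lat.Om, add_div, Lat.th]
  refine add_le_add ?_ ?_
  · rw [← mul_div_assoc]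
    exact div_le_div_of_nonneg_left (by positivity) h (le_add_of_nonneg_right (by positivity))
  · rcases hx.eq_or_lt with h' | h'
    · have h1 : cc K x z = 0 := le_antisymm (by rw [h']; exact cc_le_dd K x z) hc
      rw [h1]; simp
    · refine le_of_eq ?_
      field_simp

theorem ph_le_T2 (K : L.Mat) (z y : L.P) : L.ph K z y ≤ L.T2 K z y := by
  rw [Lat.ph, mul_div_right_comm]
  exact mul_le_of_le_one_left (T2_nonneg L K z y) (fr_bd L K z y).2

theorem WW_le (i : ℝ) (K : L.Mat) (m : ℕ) (x z : L.P) :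
    WW L i K m x z ≤ L.nn K x m * (67 * Real.exp i + 1) := by
  refine mul_le_mul_of_nonneg_left (add_le_add ?_ (fr_bd L K x z).2) (nn_nonneg L K x m)
  rw [mul_comm 67]
  exact mul_le_mul_of_nonneg_left (L.th_le K z m) (Real.exp_pos i).le

theorem WW_dd (i : ℝ) (K : L.Mat) (m : ℕ) (x z : L.P) :
    WW L i K m x z * dd K z ≤ L.nn K x m * (Real.exp i * L.nn K z m + cc K x z / dd K x) := by
  rw [WW, mul_assoc, add_mul, mul_assoc, L.th_mul]
  refine mul_le_mul_of_nonneg_left (add_le_add le_rfl ?_) (nn_nonneg L K x m)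
  have hc := cc_nonneg K x z
  have hz := dd_nonneg K z
  rcases (dd_nonneg K x).eq_or_lt with h | h
  · have h1 : cc K x z = 0 := le_antisymm (by rw [h]; exact cc_le_dd K x z) hc
    rw [h1]; simp
  rcases (by positivity : 0 ≤ dd K x * dd K z + cc K x z).eq_or_lt with h' | h'
  · rw [← h']; simp only [div_zero, zero_mul]; positivity
  rw [div_mul_eq_mul_div, div_le_div_iff₀ h' h]
  nlinarith [sq_nonneg (cc K x z)]

theorem sum_WW_dd (i : ℝ) (K : L.Mat) (m : ℕ) (Z : Finset L.X) {n0 : ℝ}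
    (hn : ∑ x ∈ Z, L.nn K (x, true) m ≤ n0) :
    ∑ x ∈ Z, ∑ z ∈ Z, WW L i K m (x, true) (z, true) * dd K (z, true) ≤
      Real.exp i * n0 ^ 2 + n0 := by
  have h0 : 0 ≤ n0 := le_trans (sum_nonneg fun x _ => nn_nonneg L K _ m) hn
  have he := Real.exp_pos i
  calc _ ≤ ∑ x ∈ Z, L.nn K (x, true) m * (Real.exp i * n0 + 1) := by
        refine sum_le_sum fun x _ => le_trans (sum_le_sum fun z _ => WW_dd L i K m _ _) ?_
        rw [← mul_sum, sum_add_distrib, ← mul_sum, ← sum_div]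
        refine mul_le_mul_of_nonneg_left (add_le_add (mul_le_mul_of_nonneg_left hn he.le)
          (div_le_one_of_le₀ ?_ (dd_nonneg _ _))) (nn_nonneg L K _ m)
        exact sum_act_le L (cc_nonneg K (x, true)) Z
    _ ≤ n0 * (Real.exp i * n0 + 1) := by
        rw [← sum_mul]; exact mul_le_mul_of_nonneg_right hn (by positivity)
    _ = _ := by ring

theorem sum_WW_mul (i : ℝ) (K : L.Mat) (m : ℕ) {Z Y : Finset L.X} (hZ : Z ⊆ Y) {n0 : ℝ}
    (hn : ∑ x ∈ Z, L.nn K (x, true) m ≤ n0) {g : L.X → ℝ} (hg : ∀ z, 0 ≤ g z) :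
    ∑ x ∈ Z, ∑ z ∈ Z, WW L i K m (x, true) (z, true) * g z ≤
      (67 * Real.exp i + 1) * n0 * ∑ z ∈ Y, g z := by
  have h0 : 0 ≤ n0 := le_trans (sum_nonneg fun x _ => nn_nonneg L K _ m) hn
  have he := Real.exp_pos i
  have hs : 0 ≤ ∑ z ∈ Y, g z := sum_nonneg fun z _ => hg z
  calc _ ≤ ∑ x ∈ Z, L.nn K (x, true) m * ((67 * Real.exp i + 1) * ∑ z ∈ Y, g z) := by
        refine sum_le_sum fun x _ => le_trans (sum_le_sum fun z _ =>
          mul_le_mul_of_nonneg_right (WW_le L i K m _ _) (hg z)) ?_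
        rw [← mul_sum, ← mul_assoc]
        exact mul_le_mul_of_nonneg_left (sum_le_sum_of_subset_of_nonneg hZ fun z _ _ => hg z)
          (mul_nonneg (nn_nonneg L K _ m) (by positivity))
    _ ≤ n0 * ((67 * Real.exp i + 1) * ∑ z ∈ Y, g z) := by
        rw [← sum_mul]; exact mul_le_mul_of_nonneg_right hn (by positivity)
    _ = _ := by ring

theorem HH_parts (Y Gd : Finset L.X) (K : L.Mat) (y : L.P) :
    0 ≤ L.GN K y ∧ 0 ≤ ∑ z ∈ Y, cc K (z, true) y * (L.GN K (z, true) / dd K (z, true)) ∧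
      0 ≤ ∑ z ∈ Y, ind (z ∉ Gd) * L.T2 K (z, true) y :=
  ⟨GN_nonneg L K y, sum_nonneg fun _ _ => CG_nonneg L K _ _,
    sum_nonneg fun _ _ => mul_nonneg (ind_nonneg _) (T2_nonneg L K _ _)⟩

theorem HH_nonneg (Y Gd : Finset L.X) (K : L.Mat) (y : L.P) : 0 ≤ HH L Y Gd K y := by
  obtain ⟨h1, h2, h3⟩ := HH_parts L Y Gd K y
  exact add_nonneg (add_nonneg h1 h2) h3

theorem P2 {Y Z : Finset L.X} (hZ : Z ⊆ Y) (Gd : Finset L.X) (i : ℝ) (K : L.Mat) (m : ℕ) (y : L.P)
    {q : Prop} {n0 ψ : ℝ} (h0 : 0 ≤ n0) (hψ : 0 ≤ ψ) (hn : q → ∑ x ∈ Z, L.nn K (x, true) m ≤ n0) :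
    ∑ x ∈ Z, ind (q ∧ Real.exp (-i) ≤ L.th K (x, true) m) * (ψ * RR L K (x, true) y) ≤
      (Real.exp i * n0 + 1) * (ψ * HH L Y Gd K y) := by
  obtain ⟨h1, h2, h3⟩ := HH_parts L Y Gd K y
  have he := Real.exp_pos i
  have hH := HH_nonneg L Y Gd K y
  by_cases hq : q
  swap
  · simp only [hq, false_and, ind_neg not_false, zero_mul, sum_const_zero]; positivity
  calc _ ≤ ∑ x ∈ Z, ψ * (Real.exp i * L.nn K (x, true) m * L.GN K y +
        cc K (x, true) y * (L.GN K (x, true) / dd K (x, true))) := by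
        refine sum_le_sum fun x _ => ?_
        have := CG_nonneg L K (x, true) y
        by_cases ht : Real.exp (-i) ≤ L.th K (x, true) m
        · rw [ind_pos ⟨hq, ht⟩, one_mul]
          exact mul_le_mul_of_nonneg_left
            (add_le_add (mul_le_mul_of_nonneg_right (dd_le_nn L ht) h1) le_rfl) hψ
        · rw [ind_neg fun h => ht h.2, zero_mul]
          have := nn_nonneg L K (x, true) m
          positivity
    _ ≤ ψ * (Real.exp i * n0 * L.GN K y +
        ∑ z ∈ Y, cc K (z, true) y * (L.GN K (z, true) / dd K (z, true))) := by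
        rw [← mul_sum, sum_add_distrib, ← sum_mul, ← mul_sum]
        exact mul_le_mul_of_nonneg_left (add_le_add (mul_le_mul_of_nonneg_right
          (mul_le_mul_of_nonneg_left (hn hq) he.le) h1)
          (sum_le_sum_of_subset_of_nonneg hZ fun z _ _ => CG_nonneg L K _ _)) hψ
    _ ≤ ψ * ((Real.exp i * n0 + 1) * HH L Y Gd K y) := by
        refine mul_le_mul_of_nonneg_left ?_ hψ
        have := mul_nonneg he.le h0
        unfold HH
        nlinarith [mul_nonneg this h2, mul_nonneg this h3]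
    _ = _ := by ring

theorem sum_erase_le {Z : Finset L.X} {g : L.X → L.X → ℝ} (hg : ∀ x z, 0 ≤ g x z) :
    ∑ x ∈ Z, ∑ z ∈ Z.erase x, g x z ≤ ∑ x ∈ Z, ∑ z ∈ Z, g x z :=
  sum_le_sum fun x _ => sum_le_sum_of_subset_of_nonneg (erase_subset x Z) fun z _ _ => hg x z

theorem P3g {Y Z : Finset L.X} (hZ : Z ⊆ Y) (Gd : Finset L.X) (i : ℝ) (K : L.Mat) (m : ℕ) (y : L.P)
    {q : Prop} {n0 ψ : ℝ} (h0 : 0 ≤ n0) (hψ : 0 ≤ ψ) (hn : q → ∑ x ∈ Z, L.nn K (x, true) m ≤ n0) :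
    ∑ x ∈ Z, ∑ z ∈ Z.erase x,
      ind q * (WW L i K m (x, true) (z, true) * (ψ * RR L K (z, true) y)) ≤
      (Real.exp i * n0 ^ 2 + n0 + (67 * Real.exp i + 1) * n0) * (ψ * HH L Y Gd K y) := by
  obtain ⟨h1, h2, h3⟩ := HH_parts L Y Gd K y
  have he := Real.exp_pos i
  have hH := HH_nonneg L Y Gd K y
  by_cases hq : q
  swap
  · simp only [ind_neg hq, zero_mul, sum_const_zero]; positivity
  simp only [ind_pos hq, one_mul]
  refine (sum_erase_le L fun x z => mul_nonneg (WW_nonneg L _ _ _ _ _)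
    (mul_nonneg hψ (RR_nonneg L _ _ _))).trans ?_
  have e1 := sum_WW_dd L i K m Z (hn hq)
  have e2 := sum_WW_mul L i K m hZ (hn hq) fun z => CG_nonneg L K (z, true) y
  calc _ = ψ * ((∑ x ∈ Z, ∑ z ∈ Z, WW L i K m (x, true) (z, true) * dd K (z, true)) * L.GN K y +
        ∑ x ∈ Z, ∑ z ∈ Z, WW L i K m (x, true) (z, true) *
          (cc K (z, true) y * (L.GN K (z, true) / dd K (z, true)))) := by
        simp only [sum_mul, ← sum_add_distrib, mul_sum]
        refine sum_congr rfl fun x _ => sum_congr rfl fun z _ => ?_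
        unfold RR; ring
    _ ≤ ψ * ((Real.exp i * n0 ^ 2 + n0 + (67 * Real.exp i + 1) * n0) * HH L Y Gd K y) := by
        refine mul_le_mul_of_nonneg_left
          ((add_le_add (mul_le_mul_of_nonneg_right e1 h1) e2).trans ?_) hψ
        have p1 : 0 ≤ Real.exp i * n0 ^ 2 + n0 := by positivity
        have p2 : 0 ≤ (67 * Real.exp i + 1) * n0 := by positivity
        unfold HH
        nlinarith [mul_nonneg p1 h2, mul_nonneg p1 h3, mul_nonneg p2 h1, mul_nonneg p2 h3]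
    _ = _ := by ring

theorem P3b {Y Z : Finset L.X} (hZ : Z ⊆ Y) (Gd : Finset L.X) (i : ℝ) (K : L.Mat) (m : ℕ) (y : L.P)
    {q : Prop} {n0 ψ : ℝ} (h0 : 0 ≤ n0) (hψ : 0 ≤ ψ) (hn : q → ∑ x ∈ Z, L.nn K (x, true) m ≤ n0) :
    ∑ x ∈ Z, ∑ z ∈ Z.erase x, ind (z ∉ Gd) *
      (ind q * (WW L i K m (x, true) (z, true) * (ψ * L.T2 K (z, true) y))) ≤
      (67 * Real.exp i + 1) * n0 * (ψ * HH L Y Gd K y) := by
  obtain ⟨h1, h2, h3⟩ := HH_parts L Y Gd K y
  have he := Real.exp_pos i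
  have hH := HH_nonneg L Y Gd K y
  by_cases hq : q
  swap
  · simp only [ind_neg hq, zero_mul, mul_zero, sum_const_zero]; positivity
  simp only [ind_pos hq, one_mul]
  refine (sum_erase_le L fun x z => mul_nonneg (ind_nonneg _) (mul_nonneg (WW_nonneg L _ _ _ _ _)
    (mul_nonneg hψ (T2_nonneg L _ _ _)))).trans ?_
  have e2 := sum_WW_mul L i K m hZ (hn hq) fun z =>
    mul_nonneg (ind_nonneg (z ∉ Gd)) (T2_nonneg L K (z, true) y)
  calc _ = ψ * ∑ x ∈ Z, ∑ z ∈ Z, WW L i K m (x, true) (z, true) *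
          (ind (z ∉ Gd) * L.T2 K (z, true) y) := by
        simp only [mul_sum]
        refine sum_congr rfl fun x _ => sum_congr rfl fun z _ => ?_
        ring
    _ ≤ ψ * ((67 * Real.exp i + 1) * n0 * HH L Y Gd K y) := by
        refine mul_le_mul_of_nonneg_left (e2.trans
          (mul_le_mul_of_nonneg_left ?_ (by positivity))) hψ
        unfold HH; linarith
    _ = _ := by ring

theorem P3s {K : L.Mat} (hK : IsPort K) (i : ℝ) (m : ℕ) (x y z : L.P) (q g : Prop) {ψ : ℝ}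
    (hψ : 0 ≤ ψ) :
    ind (q ∧ Real.exp (-i) ≤ L.th K x m) * (ψ * (L.Om i K m x z * (dd K x * L.ph K z y))) ≤
      Real.exp i * (ind g * (ind q * (WW L i K m x z * (ψ * L.ph K z y))) +
        ind (¬g) * (ind q * (WW L i K m x z * (ψ * L.T2 K z y)))) := by
  have he := Real.exp_pos i
  have hW := WW_nonneg L i K m x z
  have hp := ph_nonneg L K z y
  have hT := T2_nonneg L K z y
  by_cases h : q ∧ Real.exp (-i) ≤ L.th K x m
  swap
  · rw [ind_neg h, zero_mul]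
    have := ind_nonneg g
    have := ind_nonneg (¬g)
    have := ind_nonneg q
    positivity
  rw [ind_pos h, ind_pos h.1, one_mul, one_mul, one_mul]
  have h1 : L.Om i K m x z * dd K x ≤ Real.exp i * WW L i K m x z := by
    have := mul_le_mul (Om_le L hK i m x z) (dd_le_nn L h.2) (dd_nonneg K x)
      ((Om_nonneg L i K m x z).trans (Om_le L hK i m x z))
    calc _ ≤ _ := this
      _ = _ := by unfold WW; ring
  have h2 : ψ * (L.Om i K m x z * (dd K x * L.ph K z y)) ≤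
      Real.exp i * (WW L i K m x z * (ψ * L.ph K z y)) := by
    have := mul_le_mul_of_nonneg_right h1 (mul_nonneg hψ hp)
    calc _ = L.Om i K m x z * dd K x * (ψ * L.ph K z y) := by ring
      _ ≤ _ := this
      _ = _ := by ring
  refine h2.trans (mul_le_mul_of_nonneg_left ?_ he.le)
  by_cases hg : g
  · rw [ind_pos hg, ind_neg (not_not.2 hg)]; simp
  · rw [ind_neg hg, ind_pos hg, zero_mul, zero_add, one_mul]
    exact mul_le_mul_of_nonneg_left (mul_le_mul_of_nonneg_left (ph_le_T2 L K z y) hψ) hW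

end

end Crest.Agent.N334.G.S0
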