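import Crest.Agent.N334.G.S0

/-!
# Row 334, S0519 GAIN: static hierarchy, one cell and the sum over cells (helper85)
-/

set_option autoImplicit false

open MeasureTheory Finset Complex
open scoped BigOperators ComplexConjugate

noncomputable section

namespace Crest.Agent.N334.G.S0
open S1

def Zc (L : Lat) (Y : Finset L.X) (Λ2 : ℝ) (c : L.X) (m : ℕ) (y : L.X) : Finset L.X :=
  (Y.filter fun x => L.rx x c ≤ Λ2 * 4 ^ m).erase y

def qq (L : Lat) (i Λ2 κ : ℝ) (c : L.X) (m : ℕ) (x : L.X) (K : L.Mat) : Prop :=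
  L.kap Λ2 c m K ≤ κ ∧ Real.exp (-i) ≤ L.th K (x, true) m

def cellF {L : Lat} (st : Stat L) (i Λ2 κ0 : ℝ) (c : L.X) (m : ℕ) (y : L.X) (a : L.X → ℝ) : ℝ :=
  ind (L.kap Λ2 c m (KK st a) ≤ κ0) * (L.psi (KK st a) (y, true) m * L.GN (KK st a) (y, true)) +
  ∑ x ∈ Zc L st.Y Λ2 c m y,
    (ind (x ∈ st.Gd a) * (ind (qq L i Λ2 κ0 c m x (KK st a)) *
      (L.psi (KK st a) (y, true) m * L.ph (KK st a) (x, true) (y, true))) +
    ∑ z ∈ (Zc L st.Y Λ2 c m y).erase x, ind (x ∈ st.Gd a) * (ind (qq L i Λ2 κ0 c m x (KK st a)) *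
      (L.psi (KK st a) (y, true) m * (L.Om i (KK st a) m (x, true) (z, true) *
        L.XX (KK st a) (x, true) (y, true) (z, true)))))

theorem Gd_subset {L : Lat} (st : Stat L) (a : L.X → ℝ) : st.Gd a ⊆ st.Y := by
  classical
  unfold Stat.Gd
  exact filter_subset _ _

theorem main_eq {L : Lat} (st : Stat L) (i Λ2 κ0 : ℝ) (c : L.X) (m : ℕ) (a : L.X → ℝ) :
    (if L.kap Λ2 c m (KK st a) ≤ κ0 then L.Main st.Y (st.Gd a) i Λ2 (KK st a) c m / 4 ^ m else 0) =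
      ∑ y ∈ st.Y.filter (fun y => L.rx y c ≤ 4 ^ m), 1 / 4 ^ m * cellF st i Λ2 κ0 c m y a := by
  by_cases hk : L.kap Λ2 c m (KK st a) ≤ κ0
  swap
  · have hq : ∀ x, ind (qq L i Λ2 κ0 c m x (KK st a)) = 0 := fun x => ind_neg fun h => hk h.1
    simp [cellF, hk, hq, ind_neg]
  rw [if_pos hk, Lat.Main, sum_div]
  refine sum_congr rfl fun y _ => ?_
  rw [one_div_mul_eq_div, cellF, mul_add, ind_pos hk, one_mul, mul_sum]
  congr 2
  have e1 : ((st.Gd a).erase y).filter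
      (fun x => L.rx x c ≤ Λ2 * 4 ^ m ∧ Real.exp (-i) ≤ L.th (KK st a) (x, true) m) =
      (Zc L st.Y Λ2 c m y).filter
        (fun x => x ∈ st.Gd a ∧ Real.exp (-i) ≤ L.th (KK st a) (x, true) m) := by
    ext x
    have := @Gd_subset L st a x
    simp only [Zc, mem_filter, mem_erase]
    tauto
  rw [e1, sum_filter]
  refine sum_congr rfl fun x _ => ?_
  have e2 : ((st.Y.erase y).erase x).filter (fun z => L.rx z c ≤ Λ2 * 4 ^ m) =
      (Zc L st.Y Λ2 c m y).erase x := by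
    ext z
    simp only [Zc, mem_filter, mem_erase]
    tauto
  rw [e2]
  split_ifs with h
  · rw [ind_pos h.1, ind_pos (show qq L i Λ2 κ0 c m x (KK st a) from ⟨hk, h.2⟩)]
    simp only [one_mul, mul_add, mul_sum]
  · have : ind (x ∈ st.Gd a) = 0 ∨ ind (qq L i Λ2 κ0 c m x (KK st a)) = 0 := by
      by_cases hx : x ∈ st.Gd a
      · exact Or.inr (ind_neg fun h' => h ⟨hx, h'.2⟩)
      · exact Or.inl (ind_neg hx)
    rcases this with h | h <;> simp [h]

theorem ms_kap (L : Lat) (Λ2 κ : ℝ) (c : L.X) (m : ℕ) :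
    MeasurableSet {K | L.kap Λ2 c m K ≤ κ} :=
  measurableSet_le (nice_En _).meas measurable_const

theorem ms_qq (L : Lat) (i Λ2 κ : ℝ) (c : L.X) (m : ℕ) (x : L.X) :
    MeasurableSet {K | qq L i Λ2 κ c m x K} :=
  (ms_kap L Λ2 κ c m).inter (measurableSet_le measurable_const (L.nice_th _ m).meas)

theorem bm_HH {L : Lat} (st : Stat L) (y : L.P) : BM fun a => HH L st.Y (st.Gd a) (KK st a) y :=
  ((bmK st (L.nice_GN y)).add (BM.sum _ fun _ _ => bmK st (nice_CG L _ _))).add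
    (BM.sum _ fun z _ => (bm_nGd st z).mul (bmK st (L.nice_T2 _ _)))

theorem bm_F2 {L : Lat} (st : Stat L) (i Λ2 κ0 : ℝ) (c : L.X) (m : ℕ) (y x : L.X) :
    BM fun a => ind (x ∈ st.Gd a) * (ind (qq L i Λ2 κ0 c m x (KK st a)) *
      (L.psi (KK st a) (y, true) m * L.ph (KK st a) (x, true) (y, true))) :=
  (bm_Gd st x).mul (bmK st ((nice_ind (ms_qq L i Λ2 κ0 c m x)).mul
    ((L.nice_psi _ m).mul (L.nice_ph _ _))))

theorem bm_F3 {L : Lat} (st : Stat L) (i Λ2 κ0 : ℝ) (c : L.X) (m : ℕ) (y x z : L.X) :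
    BM fun a => ind (x ∈ st.Gd a) * (ind (qq L i Λ2 κ0 c m x (KK st a)) *
      (L.psi (KK st a) (y, true) m * (L.Om i (KK st a) m (x, true) (z, true) *
        L.XX (KK st a) (x, true) (y, true) (z, true)))) :=
  (bm_Gd st x).mul (bmK st ((nice_ind (ms_qq L i Λ2 κ0 c m x)).mul
    ((L.nice_psi _ m).mul ((L.nice_Om i m _ _).mul (L.nice_XX _ _ _)))))

theorem bm_F1 {L : Lat} (st : Stat L) (Λ2 κ0 : ℝ) (c : L.X) (m : ℕ) (y : L.X) :
    BM fun a => ind (L.kap Λ2 c m (KK st a) ≤ κ0) *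
      (L.psi (KK st a) (y, true) m * L.GN (KK st a) (y, true)) :=
  bmK st ((nice_ind (ms_kap L Λ2 κ0 c m)).mul ((L.nice_psi _ m).mul (L.nice_GN _)))

theorem bm_cellF {L : Lat} (st : Stat L) (i Λ2 κ0 : ℝ) (c : L.X) (m : ℕ) (y : L.X) :
    BM (cellF st i Λ2 κ0 c m y) :=
  (bm_F1 st Λ2 κ0 c m y).add (BM.sum _ fun x _ => (bm_F2 st i Λ2 κ0 c m y x).add
    (BM.sum _ fun z _ => bm_F3 st i Λ2 κ0 c m y x z))

theorem act_ne {L : Lat} {x y : L.X} (h : x ≠ y) : ((x, true) : L.P) ≠ (y, true) :=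
  fun e => h (congrArg Prod.fst e)

theorem cell (i Λ2 : ℝ) (hΛ : 1 ≤ Λ2) : ∃ C : ℝ, 0 < C ∧ ∀ (L : Lat) (st : Stat L) (κ0 : ℝ),
    1 ≤ κ0 → ∀ (c : L.X) (m : ℕ) (y : L.X), m < L.N →
    st.Ia (cellF st i Λ2 κ0 c m y) ≤ C * κ0 ^ 2 *
      st.Ia fun a => L.psi (KK st a) (y, true) m * HH L st.Y (st.Gd a) (KK st a) (y, true) := by
  obtain ⟨C1, hC1, h1⟩ := stat1
  obtain ⟨C2, hC2, h2⟩ := stat2
  obtain ⟨C0, hC0, h0⟩ := kap_osc
  obtain ⟨Cn, hCn, hn⟩ := sum_nn_le_kap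
  have he := Real.exp_pos i
  set e := Real.exp i with hedef
  set A : ℝ := Cn * Λ2 * (1 + 2 * C0) with hA
  have hA0 : 0 < A := by positivity
  refine ⟨1 + C2 * 1 ^ 2 * (e * A + 1) + C1 * (e * (C2 * 66 ^ 2 *
    (e * A ^ 2 + A + (67 * e + 1) * A) + (67 * e + 1) * A)), by positivity, ?_⟩
  intro L st κ0 hκ c m y hm
  set Z := Zc L st.Y Λ2 c m y with hZ
  have hZY : Z ⊆ st.Y := (erase_subset _ _).trans (filter_subset _ _)
  have hZy : ∀ x ∈ Z, x ≠ y := fun x hx => ne_of_mem_erase hx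
  have hnZ : ∀ K : L.Mat, L.kap Λ2 c m K ≤ κ0 + C0 + C0 →
      ∑ x ∈ Z, L.nn K (x, true) m ≤ A * κ0 := fun K hK => by
    refine (hn L c m Λ2 K Z hm hΛ fun x hx => (mem_filter.1 (mem_of_mem_erase hx)).2).trans ?_
    rw [hA, mul_assoc (Cn * Λ2)]
    exact mul_le_mul_of_nonneg_left (by nlinarith) (by positivity)
  have hψ : ∀ K, 0 ≤ L.psi K (y, true) m := fun K => psi_nonneg L K _ m
  have nψ := L.nice_psi (y, true) m
  have hH : BM fun a => L.psi (KK st a) (y, true) m * HH L st.Y (st.Gd a) (KK st a) (y, true) :=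
    (bmK st nψ).mul (bm_HH st _)
  set I := st.Ia fun a => L.psi (KK st a) (y, true) m * HH L st.Y (st.Gd a) (KK st a) (y, true)
    with hI
  have hI0 : 0 ≤ I := st.Ia_nonneg fun a => mul_nonneg (hψ _) (HH_nonneg L _ _ _ _)
  have hosc : ∀ (x : L.X) (k : ℝ) (cv : Cav ((x, true) : L.P)) t t',
      L.kap Λ2 c m (cv.K t (st.γ x)) ≤ k → L.kap Λ2 c m (cv.K t' (st.γ x)) ≤ k + C0 :=
    fun x k cv t t' h => (h0 L _ cv Λ2 _ t t' c m hΛ (st.γ_nonneg x)).trans (by linarith)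
  have hqq : ∀ (x : L.X) (cv : Cav ((x, true) : L.P)) t t',
      qq L i Λ2 κ0 c m x (cv.K t (st.γ x)) → qq L i Λ2 (κ0 + C0) c m x (cv.K t' (st.γ x)) :=
    fun x cv t t' h => ⟨hosc x _ cv t t' h.1, th_const L cv (st.γ_nonneg x) t t' m ▸ h.2⟩
  have n0 : 0 ≤ A * κ0 := by positivity
  -- first term
  have T1 : st.Ia (fun a => ind (L.kap Λ2 c m (KK st a) ≤ κ0) *
      (L.psi (KK st a) (y, true) m * L.GN (KK st a) (y, true))) ≤ I := by
    refine st.Ia_mono (bm_F1 st Λ2 κ0 c m y) hH fun a => ?_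
    obtain ⟨p1, p2, p3⟩ := HH_parts L st.Y (st.Gd a) (KK st a) (y, true)
    refine (ind_mul_le _ (mul_nonneg (hψ _) p1)).trans (mul_le_mul_of_nonneg_left ?_ (hψ _))
    unfold HH; linarith
  -- second term
  have T2' : ∑ x ∈ Z, st.Ia (fun a => ind (x ∈ st.Gd a) * (ind (qq L i Λ2 κ0 c m x (KK st a)) *
      (L.psi (KK st a) (y, true) m * L.ph (KK st a) (x, true) (y, true)))) ≤
      C2 * 1 ^ 2 * ((e * (A * κ0) + 1) * I) := by
    calc _ ≤ ∑ x ∈ Z, C2 * 1 ^ 2 * st.Ia (fun a => ind (qq L i Λ2 (κ0 + C0) c m x (KK st a)) *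
          (L.psi (KK st a) (y, true) m * RR L (KK st a) (x, true) (y, true))) := by
          refine sum_le_sum fun x hx => liftK st (hZY hx) (ms_qq L i Λ2 κ0 c m x)
            (ms_qq L i Λ2 _ c m x) (nψ.mul (L.nice_ph _ _)) (nψ.mul (nice_RR L _ _))
            (fun K => mul_nonneg (hψ K) (ph_nonneg L _ _ _))
            (fun K => mul_nonneg (hψ K) (RR_nonneg L _ _ _)) (by positivity) (hqq x) fun cv => ?_
          have := h2 L _ cv (st.a0 x) (st.b x) (st.γ x) (y, true) m (fun _ => 1) 1 1 0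
            (st.hY x (hZY hx)).2.1 (st.γ_nonneg x) (act_ne (hZy x hx).symm) (BM.const 1) le_rfl
            zero_le_one (fun _ => by norm_num) fun a => by
              have h1 := norm_zz_le (cv.J_pos (st.γ_nonneg x)) a
              have h2 := cv.J_pos (st.γ_nonneg x)
              rw [sub_zero, norm_mul, Complex.norm_real, Real.norm_eq_abs, abs_of_pos h2, one_mul,
                one_mul]
              exact pow_le_one₀ (by positivity) h1
          simpa only [one_mul, RR] using this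
      _ ≤ _ := by
          rw [← mul_sum]
          refine mul_le_mul_of_nonneg_left (Ia_sum_le st Z (fun x _ => bmK st
            ((nice_ind (ms_qq L i Λ2 _ c m x)).mul (nψ.mul (nice_RR L _ _)))) hH _ fun a => ?_)
            (by positivity)
          exact P2 L hZY _ i _ m _ n0 (hψ _) fun h => hnZ _ (by linarith)
  -- third term
  have T3 : ∑ x ∈ Z, ∑ z ∈ Z.erase x, st.Ia (fun a => ind (x ∈ st.Gd a) *
      (ind (qq L i Λ2 κ0 c m x (KK st a)) *
      (L.psi (KK st a) (y, true) m * (L.Om i (KK st a) m (x, true) (z, true) *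
        L.XX (KK st a) (x, true) (y, true) (z, true))))) ≤
      C1 * (e * (C2 * 66 ^ 2 * ((e * (A * κ0) ^ 2 + A * κ0 + (67 * e + 1) * (A * κ0)) * I) +
        (67 * e + 1) * (A * κ0) * I)) := by
    have b5 : ∀ x z : L.X, BM fun a => ind (z ∉ st.Gd a) *
        (ind (L.kap Λ2 c m (KK st a) ≤ κ0 + C0) * (WW L i (KK st a) m (x, true) (z, true) *
          (L.psi (KK st a) (y, true) m * L.T2 (KK st a) (z, true) (y, true)))) := fun x z =>
      (bm_nGd st z).mul (bmK st ((nice_ind (ms_kap L Λ2 _ c m)).mul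
        ((nice_WW L i m _ _).mul (nψ.mul (L.nice_T2 _ _)))))
    have b6 : ∀ x z : L.X, BM fun a =>
        ind (L.kap Λ2 c m (KK st a) ≤ κ0 + C0 + C0) * (WW L i (KK st a) m (x, true) (z, true) *
          (L.psi (KK st a) (y, true) m * RR L (KK st a) (z, true) (y, true))) := fun x z =>
      bmK st ((nice_ind (ms_kap L Λ2 _ c m)).mul
        ((nice_WW L i m _ _).mul (nψ.mul (nice_RR L _ _))))
    have s5 := Ia_sum2_le st Z (fun x => Z.erase x) b5 hH _ fun a =>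
      P3b L hZY (st.Gd a) i (KK st a) m (y, true) n0 (hψ _) fun h => hnZ _ (by linarith)
    have s6 := Ia_sum2_le st Z (fun x => Z.erase x) b6 hH _ fun a =>
      P3g L hZY (st.Gd a) i (KK st a) m (y, true) n0 (hψ _) fun h => hnZ _ h
    refine le_trans ?_ (mul_le_mul_of_nonneg_left (mul_le_mul_of_nonneg_left (add_le_add
      (mul_le_mul_of_nonneg_left s6 (by positivity : 0 ≤ C2 * 66 ^ 2)) s5) he.le) hC1.le)
    simp only [mul_sum, ← sum_add_distrib]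
    refine sum_le_sum fun x hx => sum_le_sum fun z hz => ?_
    have hzZ := mem_of_mem_erase hz
    have hzx := ne_of_mem_erase hz
    have nG : Nice fun K : L.Mat => L.psi K (y, true) m * (L.Om i K m (x, true) (z, true) *
        (dd K (x, true) * L.ph K (z, true) (y, true))) :=
      nψ.mul ((L.nice_Om i m _ _).mul ((nice_dd _).mul (L.nice_ph _ _)))
    refine (liftK st (hZY hx) (ms_qq L i Λ2 κ0 c m x) (ms_qq L i Λ2 _ c m x)
      (nψ.mul ((L.nice_Om i m _ _).mul (L.nice_XX _ _ _))) nG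
      (fun K => mul_nonneg (hψ K) (mul_nonneg (Om_nonneg L _ _ _ _ _) (XX_nonneg L _ _ _ _)))
      (fun K => mul_nonneg (hψ K) (mul_nonneg (Om_nonneg L _ _ _ _ _)
        (mul_nonneg (dd_nonneg _ _) (ph_nonneg L _ _ _)))) hC1.le (hqq x) fun cv =>
      h1 L _ cv _ _ _ i _ _ m (st.hY x (hZY hx)).2.1 (st.γ_nonneg x) (act_ne (hZy x hx).symm)
        (act_ne hzx)).trans (mul_le_mul_of_nonneg_left ?_ hC1.le)
    have nF : Nice fun K : L.Mat => WW L i K m (x, true) (z, true) *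
        (L.psi K (y, true) m * L.ph K (z, true) (y, true)) :=
      (nice_WW L i m _ _).mul (nψ.mul (L.nice_ph _ _))
    have b4 := (bm_Gd st z).mul (bmK st ((nice_ind (ms_kap L Λ2 (κ0 + C0) c m)).mul nF))
    have s4 := st.Ia_mono (bmK st ((nice_ind (ms_qq L i Λ2 (κ0 + C0) c m x)).mul nG))
      ((b4.add (b5 x z)).const_mul e) fun a =>
        P3s L (portK st a) i m (x, true) (y, true) (z, true) _ (z ∈ st.Gd a) (hψ _)
    rw [st.Ia_mul, st.Ia_add b4 (b5 x z)] at s4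
    refine s4.trans (mul_le_mul_of_nonneg_left (add_le_add ?_ le_rfl) he.le)
    refine liftK st (hZY hzZ) (ms_kap L Λ2 _ c m) (ms_kap L Λ2 _ c m) nF
      ((nice_WW L i m _ _).mul (nψ.mul (nice_RR L _ _)))
      (fun K => mul_nonneg (WW_nonneg L _ _ _ _ _) (mul_nonneg (hψ K) (ph_nonneg L _ _ _)))
      (fun K => mul_nonneg (WW_nonneg L _ _ _ _ _) (mul_nonneg (hψ K) (RR_nonneg L _ _ _)))
      (by positivity) (hosc z _) fun cv => ?_
    obtain ⟨Wb, u0, hWb, hW1, hW2⟩ := WW_cav L i m cv (st.γ_nonneg z) (act_ne hzx.symm)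
    exact h2 L _ cv (st.a0 z) (st.b z) (st.γ z) (y, true) m _ Wb 66 u0 (st.hY z (hZY hzZ)).2.1
      (st.γ_nonneg z) (act_ne (hZy z hzZ).symm) (bm_K cv (nice_WW L i m _ _) (st.γ_nonneg z))
      (by norm_num) hWb hW1 hW2
  refine le_trans (le_of_eq ?_) ((add_le_add T1 (add_le_add T2' T3)).trans ?_)
  · unfold cellF
    rw [st.Ia_add (bm_F1 st Λ2 κ0 c m y) (BM.sum _ fun x _ => (bm_F2 st i Λ2 κ0 c m y x).add
        (BM.sum _ fun z _ => bm_F3 st i Λ2 κ0 c m y x z)),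
      st.Ia_sum _ fun x _ => (bm_F2 st i Λ2 κ0 c m y x).add
        (BM.sum _ fun z _ => bm_F3 st i Λ2 κ0 c m y x z), ← sum_add_distrib]
    congr 1
    refine sum_congr rfl fun x _ => ?_
    rw [st.Ia_add (bm_F2 st i Λ2 κ0 c m y x) (BM.sum _ fun z _ => bm_F3 st i Λ2 κ0 c m y x z),
      st.Ia_sum _ fun z _ => bm_F3 st i Λ2 κ0 c m y x z]
  have k1 : κ0 ≤ κ0 ^ 2 := by nlinarith
  have k2 : 1 ≤ κ0 ^ 2 := hκ.trans k1
  have k3 : A * κ0 ≤ A * κ0 ^ 2 := mul_le_mul_of_nonneg_left k1 hA0.le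
  calc _ = (1 + C2 * 1 ^ 2 * (e * (A * κ0) + 1) + C1 * (e * (C2 * 66 ^ 2 *
        (e * (A * κ0) ^ 2 + A * κ0 + (67 * e + 1) * (A * κ0)) + (67 * e + 1) * (A * κ0)))) * I := by
        ring
    _ ≤ (κ0 ^ 2 + C2 * 1 ^ 2 * (e * (A * κ0 ^ 2) + κ0 ^ 2) + C1 * (e * (C2 * 66 ^ 2 *
        (e * (A * κ0) ^ 2 + A * κ0 ^ 2 + (67 * e + 1) * (A * κ0 ^ 2)) +
          (67 * e + 1) * (A * κ0 ^ 2)))) * I := by gcongr
    _ = _ := by ring

theorem cells : ∃ C : ℝ, 0 < C ∧ ∀ (L : Lat) (K : L.Mat) (Y : Finset L.X) (H : L.X → ℝ),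
    (∀ y, 0 ≤ H y) →
    ∑ m ∈ range L.N, ∑ c, ∑ y ∈ Y.filter (fun y => L.rx y c ≤ 4 ^ m),
      1 / 4 ^ m * (L.psi K (y, true) m * H y) ≤ C * ∑ y ∈ Y, H y := by
  obtain ⟨C, hC, h⟩ := sum_psi
  refine ⟨3 * C, by positivity, fun L K Y H hH => ?_⟩
  calc _ ≤ ∑ m ∈ range L.N, ∑ y ∈ Y, 3 * (L.psi K (y, true) m * H y) := by
        refine sum_le_sum fun m _ => ?_
        simp only [sum_filter]
        rw [sum_comm]
        refine sum_le_sum fun y _ => ?_
        rw [← sum_filter, sum_const, nsmul_eq_mul, ← mul_assoc]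
        refine mul_le_mul_of_nonneg_right ?_ (mul_nonneg (psi_nonneg L K _ m) (hH y))
        have h1 : ((univ.filter fun c => L.rx y c ≤ 4 ^ m).card : ℝ) ≤ 2 + 4 ^ m :=
          L.ball_le y (4 ^ m) (by positivity)
        have h2 : (1 : ℝ) ≤ 4 ^ m := one_le_pow₀ (by norm_num)
        rw [mul_one_div, div_le_iff₀ (by positivity)]
        linarith
    _ = ∑ y ∈ Y, 3 * ((∑ m ∈ range L.N, L.psi K (y, true) m) * H y) := by
        rw [sum_comm]; simp only [sum_mul, mul_sum]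
    _ ≤ ∑ y ∈ Y, 3 * (C * H y) := sum_le_sum fun y _ =>
        mul_le_mul_of_nonneg_left (mul_le_mul_of_nonneg_right (h L K _) (hH y)) (by norm_num)
    _ = _ := by rw [mul_sum]; exact sum_congr rfl fun y _ => by ring

theorem sum_T2_le (L : Lat) {K : L.Mat} (hK : IsPort K) (z : L.P) (Y : Finset L.X) :
    ∑ y ∈ Y, L.T2 K z (y, true) ≤ Gam L.r2 K z := by
  refine (sum_act_le L (T2_nonneg L K z) Y).trans (le_of_eq ?_)
  have e : ∀ j p, ‖Tm (L.Phi L.N j) K z p‖ = ‖Tm (L.Phi L.N j) K p z‖ := fun j p => by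
    rw [hK.T_herm, Complex.norm_conj]
  simp only [Lat.T2, e]
  rw [sum_comm]
  simp only [hK.T_col]
  rw [sum_comm, Gam]
  refine sum_congr rfl fun p _ => ?_
  rw [← mul_sum]
  exact congrArg _ (congrFun (congrFun (L.wt_Phi L.N) z) p)

theorem sum_HH (L : Lat) {K : L.Mat} (hK : IsPort K) (Y Gd : Finset L.X) :
    ∑ y ∈ Y, HH L Y Gd K (y, true) ≤
      2 * ∑ y ∈ Y, L.GN K (y, true) + ∑ z ∈ Y, ind (z ∉ Gd) * Gam L.r2 K (z, true) := by
  simp only [HH, sum_add_distrib]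
  rw [two_mul]
  refine add_le_add (add_le_add le_rfl ?_) ?_
  · rw [sum_comm]
    refine sum_le_sum fun z _ => ?_
    rw [← sum_mul]
    have h1 := sum_act_le L (cc_nonneg K (z, true)) Y
    have h2 := GN_nonneg L K (z, true)
    have h3 := dd_nonneg K (z, true)
    refine (mul_le_mul_of_nonneg_right h1 (div_nonneg h2 h3)).trans ?_
    rw [← dd, mul_div_left_comm]
    exact mul_le_of_le_one_right h2 (div_self_le_one _)
  · rw [sum_comm]
    refine sum_le_sum fun z _ => ?_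
    rw [← mul_sum]
    exact mul_le_mul_of_nonneg_left (sum_T2_le L hK _ Y) (ind_nonneg _)

theorem sum_ind_eq {X : Type} [DecidableEq X] (Y Gd : Finset X) (g : X → ℝ) :
    ∑ z ∈ Y, ind (z ∉ Gd) * g z = ∑ z ∈ Y \ Gd, g z := by
  rw [sdiff_eq_filter, sum_filter]
  refine sum_congr rfl fun z _ => ?_
  split_ifs with h
  · rw [ind_neg (not_not.2 h), zero_mul]
  · rw [ind_pos h, one_mul]

theorem smain' (i Λ2 : ℝ) (hΛ : 1 ≤ Λ2) : ∃ C : ℝ, 0 < C ∧ ∀ (L : Lat) (st : Stat L) (κ0 : ℝ),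
    1 ≤ κ0 →
    st.Ia (fun a => ∑ m ∈ range L.N, ∑ c,
      if L.kap Λ2 c m (L.Km st.E st.η st.γ a) ≤ κ0 then
        L.Main st.Y (st.Gd a) i Λ2 (L.Km st.E st.η st.γ a) c m / 4 ^ m else 0) ≤
      C * κ0 ^ 2 * (st.I0 (fun K => ∑ y ∈ st.Y, L.GN K (y, true)) +
        st.IB st.Y (fun _ => 1) L.r2) := by
  obtain ⟨C1, hC1, h1⟩ := cell i Λ2 hΛ
  obtain ⟨C2, hC2, h2⟩ := cells
  obtain ⟨C3, hC3, h3⟩ := badShare
  refine ⟨C1 * (C2 * (2 + C3)), by positivity, fun L st κ0 hκ => ?_⟩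
  have bF := fun m c y => (bm_cellF st i Λ2 κ0 c m y).const_mul (1 / 4 ^ m)
  have bH := fun m (y : L.X) => ((bmK st (L.nice_psi (y, true) m)).mul
    (bm_HH st (y, true))).const_mul (1 / 4 ^ m)
  have key : ∀ F : ℕ → L.X → L.X → (L.X → ℝ) → ℝ, (∀ m c y, BM (F m c y)) →
      st.Ia (fun a => ∑ m ∈ range L.N, ∑ c, ∑ y ∈ st.Y.filter (fun y => L.rx y c ≤ 4 ^ m),
        F m c y a) = ∑ m ∈ range L.N, ∑ c, ∑ y ∈ st.Y.filter (fun y => L.rx y c ≤ 4 ^ m),
          st.Ia (F m c y) := fun F hF => by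
    rw [st.Ia_sum _ fun m _ => BM.sum _ fun c _ => BM.sum _ fun y _ => hF m c y]
    refine sum_congr rfl fun m _ => ?_
    rw [st.Ia_sum _ fun c _ => BM.sum _ fun y _ => hF m c y]
    exact sum_congr rfl fun c _ => st.Ia_sum _ fun y _ => hF m c y
  have hr0 : ∀ p, L.r2 p p = 0 := fun p => L.rx_self p.1
  have hB := h3 L st L.r2 (r2_nonneg L) hr0
  simp only [← sum_ind_eq] at hB
  have hB0 := st.IB_nonneg (subset_refl st.Y) (W := fun _ => 1) (fun _ => zero_le_one) (r2_nonneg L)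
  have bG : BM fun a => ∑ y ∈ st.Y, L.GN (KK st a) (y, true) :=
    BM.sum _ fun y _ => bmK st (L.nice_GN _)
  have bB : BM fun a => ∑ z ∈ st.Y, ind (z ∉ st.Gd a) * Gam L.r2 (KK st a) (z, true) :=
    BM.sum _ fun z _ => (bm_nGd st z).mul (bmK st (nice_Gam _ _))
  have hG0 : 0 ≤ st.Ia fun a => ∑ y ∈ st.Y, L.GN (KK st a) (y, true) :=
    st.Ia_nonneg fun a => sum_nonneg fun y _ => GN_nonneg L _ _
  simp only [main_eq st i Λ2 κ0]
  calc _ = _ := key _ bF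
    _ ≤ C1 * κ0 ^ 2 * ∑ m ∈ range L.N, ∑ c, ∑ y ∈ st.Y.filter (fun y => L.rx y c ≤ 4 ^ m),
        st.Ia fun a => 1 / 4 ^ m *
          (L.psi (KK st a) (y, true) m * HH L st.Y (st.Gd a) (KK st a) (y, true)) := by
        simp only [mul_sum, st.Ia_mul]
        refine sum_le_sum fun m hm => sum_le_sum fun c _ => sum_le_sum fun y _ => ?_
        have := mul_le_mul_of_nonneg_left (h1 L st κ0 hκ c m y (mem_range.1 hm))
          (by positivity : (0 : ℝ) ≤ 1 / 4 ^ m)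
        calc _ ≤ _ := this
          _ = _ := by ring
    _ ≤ C1 * κ0 ^ 2 * (C2 * (2 * st.Ia (fun a => ∑ y ∈ st.Y, L.GN (KK st a) (y, true)) +
        st.Ia fun a => ∑ z ∈ st.Y, ind (z ∉ st.Gd a) * Gam L.r2 (KK st a) (z, true))) := by
        refine mul_le_mul_of_nonneg_left ?_ (by positivity)
        rw [← key _ fun m _ y => bH m y, ← st.Ia_mul, ← st.Ia_add (bG.const_mul 2) bB,
          ← st.Ia_mul]
        refine st.Ia_mono (BM.sum _ fun m _ => BM.sum _ fun c _ => BM.sum _ fun y _ => bH m y)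
          (((bG.const_mul 2).add bB).const_mul C2) fun a => ?_
        exact (h2 L (KK st a) st.Y _ fun y => HH_nonneg L _ _ _ _).trans
          (mul_le_mul_of_nonneg_left (sum_HH L (portK st a) _ _) hC2.le)
    _ ≤ C1 * κ0 ^ 2 * (C2 * ((2 + C3) * (st.Ia (fun a => ∑ y ∈ st.Y, L.GN (KK st a) (y, true)) +
        st.IB st.Y (fun _ => 1) L.r2))) := by
        refine mul_le_mul_of_nonneg_left (mul_le_mul_of_nonneg_left ?_ hC2.le) (by positivity)
        nlinarith [mul_nonneg hC3.le hG0]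
    _ = _ := by unfold Stat.I0 Stat.Ig; ring

end Crest.Agent.N334.G.S0
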