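import Crest.Agent.N334.G.S12

/-!
# Row 334, S0519 GAIN: static hierarchy, one-site averages
-/

set_option autoImplicit false

open MeasureTheory Finset Complex
open scoped BigOperators ComplexConjugate

noncomputable section

namespace Crest.Agent.N334.G

open Classical in
theorem stat1 : ∃ C : ℝ, 0 < C ∧ ∀ (L : Lat) (x : L.P) (c : Cav x) (a0 b γ i : ℝ) (y z : L.P)
    (m : ℕ), 0 < b → 0 ≤ γ → y ≠ x → z ≠ x →
    ∫ a, (if Good a0 b γ c.s a then L.psi (c.K a γ) y m * (L.Om i (c.K a γ) m x z *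
        L.XX (c.K a γ) x y z) else 0) ∂law a0 b ≤
      C * ∫ a, L.psi (c.K a γ) y m * (L.Om i (c.K a γ) m x z *
        (dd (c.K a γ) x * L.ph (c.K a γ) z y)) ∂law a0 b := S1.stat1'
open Classical in
theorem stat2 : ∃ C : ℝ, 0 < C ∧ ∀ (L : Lat) (z : L.P) (c : Cav z) (a0 b γ : ℝ) (y : L.P)
    (m : ℕ) (W : ℝ → ℝ) (Wb C1 : ℝ) (u0 : ℂ), 0 < b → 0 ≤ γ → y ≠ z → BM W → 1 ≤ C1 → 0 ≤ Wb →
    (∀ a, 0 ≤ W a ∧ W a ≤ C1 * Wb) → (∀ a, Wb * ‖(c.J γ : ℂ) * c.z a γ - u0‖ ^ 2 ≤ C1 * W a) →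
    ∫ a, (if Good a0 b γ c.s a then W a * (L.psi (c.K a γ) y m * L.ph (c.K a γ) z y) else 0)
        ∂law a0 b ≤
      C * C1 ^ 2 * ∫ a, W a * (L.psi (c.K a γ) y m * (dd (c.K a γ) z * L.GN (c.K a γ) y +
        cc (c.K a γ) z y * (L.GN (c.K a γ) z / dd (c.K a γ) z))) ∂law a0 b := S1.stat2'

end Crest.Agent.N334.G
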