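import Crest.Agent.N334.G.Lift

/-!
# Row 334, S0519 GAIN: helpers for the one-site averages (helper85)
-/

set_option autoImplicit false

open MeasureTheory Finset Complex
open scoped BigOperators ComplexConjugate

noncomputable section

namespace Crest.Agent.N334.G.S1

theorem uu_norm_le (t : ℝ) : ‖uu t‖ ≤ 1 := by
  have h := (uu_normSq t).1
  have h1 : 1 / (1 + t ^ 2) ≤ 1 := by
    rw [div_le_one (by positivity)]; nlinarith [sq_nonneg t]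
  nlinarith [norm_nonneg (uu t)]

theorem uu_sq_im (t : ℝ) : ‖uu t‖ ^ 2 = (uu t).im := by
  rw [(uu_normSq t).1, (uu_normSq t).2.1]

theorem measurable_uu : Measurable uu := by
  unfold uu; fun_prop

theorem aff_sq_le (f0 f1 f2 : ℂ) (t : ℝ) :
    ‖f0 + f1 * (uu t).re + f2 * (uu t).im‖ ^ 2 ≤ 3 * (‖f0‖ ^ 2 + ‖f1‖ ^ 2 + ‖f2‖ ^ 2) := by
  have h1 : |(uu t).re| ≤ 1 := (abs_re_le_norm _).trans (uu_norm_le t)
  have h2 : |(uu t).im| ≤ 1 := (abs_im_le_norm _).trans (uu_norm_le t)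
  have h : ‖f0 + f1 * (uu t).re + f2 * (uu t).im‖ ≤ ‖f0‖ + ‖f1‖ + ‖f2‖ := by
    refine (norm_add₃_le).trans ?_
    rw [norm_mul, norm_mul, Complex.norm_real, Complex.norm_real, Real.norm_eq_abs,
      Real.norm_eq_abs]
    have := mul_le_of_le_one_right (norm_nonneg f1) h1
    have := mul_le_of_le_one_right (norm_nonneg f2) h2
    linarith
  have := pow_le_pow_left₀ (norm_nonneg _) h 2
  nlinarith [sq_nonneg (‖f0‖ - ‖f1‖), sq_nonneg (‖f0‖ - ‖f2‖), sq_nonneg (‖f1‖ - ‖f2‖)]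

theorem bm_remez {k : ℕ} (l : ℝ) (f0 f1 f2 : ℂ) (u0 : Fin k → ℂ) :
    BM fun t : ℝ => if ∀ j, l ≤ ‖uu t - u0 j‖ then
      ‖f0 + f1 * (uu t).re + f2 * (uu t).im‖ ^ 2 else 0 := by
  have hu := measurable_uu
  refine BM.ite ?_ ⟨by fun_prop, 3 * (‖f0‖ ^ 2 + ‖f1‖ ^ 2 + ‖f2‖ ^ 2), fun t => ?_⟩ (BM.const 0)
  · simp only [Set.ofPred_forall]
    exact MeasurableSet.iInter fun j => measurableSet_le measurable_const (by fun_prop)
  · rw [abs_of_nonneg (by positivity)]; exact aff_sq_le f0 f1 f2 t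

/-- Remez for a finite family plus a constant -/
theorem remez_sum (k : ℕ) : ∃ C l : ℝ, 0 < C ∧ 0 < l ∧ ∀ (ι : Type) [Fintype ι]
    (f0 f1 f2 : ι → ℂ) (u0 : Fin k → ℂ) (g : ℝ → ℝ) (lam κ : ℝ), BM g → (∀ t, 0 ≤ g t) →
    0 ≤ lam → 0 ≤ κ →
    (∀ t, (∀ j, l ≤ ‖uu t - u0 j‖) →
      lam * (∑ i, ‖f0 i + f1 i * (uu t).re + f2 i * (uu t).im‖ ^ 2 + κ) ≤ g t) →
    lam * (∑ i, (‖f0 i‖ ^ 2 + ‖f1 i‖ ^ 2 + ‖f2 i‖ ^ 2) + κ) ≤
      C * ∫ t in Set.Icc (-1 : ℝ) 1, g t := by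
  obtain ⟨C, l, hC, hl, h⟩ := remez k
  refine ⟨C, l, hC, hl, fun ι _ f0 f1 f2 u0 g lam κ hg hg0 hlam hκ hle => ?_⟩
  set H : ℂ → ℂ → ℂ → ℝ → ℝ := fun a b c t => if ∀ j, l ≤ ‖uu t - u0 j‖ then
      ‖a + b * (uu t).re + c * (uu t).im‖ ^ 2 else 0 with hH
  have hb : ∀ a b c, BM (H a b c) := fun a b c => bm_remez l a b c u0
  have hi : ∀ a b c, Integrable (H a b c) (volume.restrict (Set.Icc (-1 : ℝ) 1)) :=
    fun a b c => (hb a b c).integrable _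
  have h1 : ∑ i, (‖f0 i‖ ^ 2 + ‖f1 i‖ ^ 2 + ‖f2 i‖ ^ 2) ≤
      C * ∑ i, ∫ t in Set.Icc (-1 : ℝ) 1, H (f0 i) (f1 i) (f2 i) t := by
    rw [mul_sum]; exact sum_le_sum fun i _ => h _ _ _ u0
  have h2 : κ ≤ C * ∫ t in Set.Icc (-1 : ℝ) 1, H (Real.sqrt κ) 0 0 t := by
    have := h (Real.sqrt κ) 0 0 u0
    simpa [Real.sq_sqrt hκ, hH] using this
  have h3 : lam * ((∑ i, ∫ t in Set.Icc (-1 : ℝ) 1, H (f0 i) (f1 i) (f2 i) t) +
      ∫ t in Set.Icc (-1 : ℝ) 1, H (Real.sqrt κ) 0 0 t) ≤ ∫ t in Set.Icc (-1 : ℝ) 1, g t := by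
    rw [← integral_finsetSum _ fun i _ => hi _ _ _,
      ← integral_add (integrable_finsetSum _ fun i _ => hi _ _ _) (hi _ _ _),
      ← integral_const_mul]
    refine integral_mono (((integrable_finsetSum _ fun i _ => hi _ _ _).add
      (hi _ _ _)).const_mul _) (hg.integrable _) fun t => ?_
    by_cases ht : ∀ j, l ≤ ‖uu t - u0 j‖
    · have := hle t ht
      simpa [hH, ht, Real.sq_sqrt hκ] using this
    · simpa [hH, ht] using hg0 t
  calc _ ≤ lam * (C * (∑ i, ∫ t in Set.Icc (-1 : ℝ) 1, H (f0 i) (f1 i) (f2 i) t) +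
        C * ∫ t in Set.Icc (-1 : ℝ) 1, H (Real.sqrt κ) 0 0 t) :=
        mul_le_mul_of_nonneg_left (add_le_add h1 h2) hlam
    _ = C * (lam * ((∑ i, ∫ t in Set.Icc (-1 : ℝ) 1, H (f0 i) (f1 i) (f2 i) t) +
        ∫ t in Set.Icc (-1 : ℝ) 1, H (Real.sqrt κ) 0 0 t)) := by ring
    _ ≤ _ := mul_le_mul_of_nonneg_left h3 hC.le

theorem measurableSet_good' (a0 b γ : ℝ) (s : ℂ) : MeasurableSet {a : ℝ | Good a0 b γ s a} :=
  (measurableSet_good a0 b γ).preimage (f := fun a : ℝ => (s, a)) (by fun_prop)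

section cav
variable {P : Type} [Fintype P] [DecidableEq P] {x : P} (c : Cav x)

theorem bm_K {F : (P → P → ℂ) → ℝ} (hF : Nice F) {γ : ℝ} (hγ : 0 ≤ γ) :
    BM fun a => F (c.K a γ) := hF.bm (c.measurable_K γ) fun a => c.port a hγ

theorem arc_back {γ : ℝ} (hγ : 0 ≤ γ) (a : ℝ) :
    c.s.re + c.J γ * ((a - c.s.re) / (γ + c.s.im)) = a := by
  have := (c.J_pos hγ).ne'
  unfold Cav.J at this ⊢
  field_simp; ring

theorem J_z {γ : ℝ} (hγ : 0 ≤ γ) (t : ℝ) :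
    (c.J γ : ℂ) * c.z (c.s.re + c.J γ * t) γ = uu t := zz_eq_uu (c.J_pos hγ) t

theorem cc_eq {γ : ℝ} (hγ : 0 ≤ γ) (a : ℝ) {p : P} (hp : p ≠ x) :
    cc (c.K a γ) x p = dd (c.K a γ) x * (‖c.rho p‖ ^ 2 / c.J γ) := by
  have := (c.J_pos hγ).ne'
  rw [c.cc_y a γ hγ, c.dd_y a γ hγ, Cav.vec, if_neg hp]; field_simp

omit [DecidableEq P] in
theorem z_ne {γ : ℝ} (hγ : 0 ≤ γ) (a : ℝ) : c.z a γ ≠ 0 := by
  unfold Cav.z zz
  refine one_div_ne_zero fun h => ?_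
  have := congrArg Complex.im h
  simp at this
  linarith [c.s_pos]

theorem dd_pos {γ : ℝ} (hγ : 0 < γ) (a : ℝ) : 0 < dd (c.K a γ) x := by
  rw [c.dd_y a γ hγ.le]
  have := c.J_pos hγ.le
  have := norm_pos_iff.2 (z_ne c hγ.le a)
  positivity

theorem cc_div {γ : ℝ} (hγ : 0 < γ) (a : ℝ) {p : P} (hp : p ≠ x) :
    cc (c.K a γ) x p / dd (c.K a γ) x = ‖c.rho p‖ ^ 2 / c.J γ := by
  rw [cc_eq c hγ.le a hp, mul_div_cancel_left₀ _ (dd_pos c hγ a).ne']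

theorem D_cmp {γ : ℝ} (hγ : 0 ≤ γ) (a a' : ℝ) {p : P} (hp : p ≠ x) :
    dd (c.K a γ) p + ‖c.rho p‖ ^ 2 / c.J γ ≤ 33 * (dd (c.K a' γ) p + ‖c.rho p‖ ^ 2 / c.J γ) := by
  have h := c.dd_cmp hγ a a' hp
  have h1 := dd_nonneg (c.K a' γ) p
  linarith

theorem dd_zero (a : ℝ) : dd (c.K a 0) x = 0 := by rw [c.dd_y a 0 le_rfl]; ring

end cav

open Classical in
/-- transfer of an arc estimate to the law on a good site -/
theorem transfer : ∃ C : ℝ, 0 < C ∧ ∀ (P : Type) [Fintype P] [DecidableEq P] (x : P) (c : Cav x)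
    (a0 b γ Λ E ψb : ℝ) (u0 : ℂ) (ψ F G : ℝ → ℝ), 0 < b → 0 ≤ γ → 0 ≤ Λ → 0 ≤ E → 0 ≤ ψb →
    BM ψ → BM G → (∀ a, 0 ≤ ψ a) → (∀ a, 0 ≤ G a) →
    (∀ t, ψ (c.s.re + c.J γ * t) ^ 2 * ‖uu t - u0‖ ≤ (2 * ψb) ^ 2) →
    (∀ a, 0 ≤ F a ∧ F a ≤ dd (c.K a γ) x * (ψ a * E)) →
    ψb * E ≤ Λ * ∫ t in Set.Icc (-1 : ℝ) 1, G (c.s.re + c.J γ * t) →
    ∫ a, (if Good a0 b γ c.s a then F a else 0) ∂law a0 b ≤
      C * Λ * ∫ a, dd (c.K a γ) x * G a ∂law a0 b := by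
  obtain ⟨Ca, hCa, ha⟩ := arc_sing
  obtain ⟨Cc, hCc, hc⟩ := cmp
  refine ⟨2 * Ca * Cc, by positivity, ?_⟩
  intro P _ _ x c a0 b γ Λ E ψb u0 ψ F G hb hγ hΛ hE hψb hψ hG hψ0 hG0 hsing hF hint
  have := law_prob a0 hb
  have hm : Measurable fun t : ℝ => c.s.re + c.J γ * t := by fun_prop
  have hf : BM fun t => ψ (c.s.re + c.J γ * t) * E := (hψ.comp hm).mul (BM.const E)
  have hg : BM fun t => G (c.s.re + c.J γ * t) := hG.comp hm
  have h1 := ha u0 _ (2 * ψb * E) hf (by positivity) (fun t => mul_nonneg (hψ0 _) hE) fun t => by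
    have := mul_le_mul_of_nonneg_left (hsing t) (sq_nonneg E)
    calc _ = E ^ 2 * (ψ (c.s.re + c.J γ * t) ^ 2 * ‖uu t - u0‖) := by ring
      _ ≤ _ := this
      _ = _ := by ring
  have h2 := hc c.s a0 b γ (2 * Ca * Λ) _ _ c.s_pos hγ hb (by positivity) hf hg
    (fun t => mul_nonneg (hψ0 _) hE) (fun t => hG0 _) (by
      refine h1.trans ?_
      have := mul_le_mul_of_nonneg_left hint (by positivity : 0 ≤ 2 * Ca)
      calc _ = 2 * Ca * (ψb * E) := by ring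
        _ ≤ _ := this
        _ = _ := by ring)
  simp only [arc_back c hγ] at h2
  have hJ := c.J_pos hγ
  have h3 := mul_le_mul_of_nonneg_left h2 (by positivity : 0 ≤ 4 * γ * c.J γ)
  have hd : ∀ a, dd (c.K a γ) x = 4 * γ * c.J γ * ‖zz c.s a γ‖ ^ 2 := fun a => by
    rw [c.dd_y a γ hγ, Cav.z]; ring
  have e1 : 4 * γ * c.J γ * ∫ a, (if Good a0 b γ c.s a then ‖zz c.s a γ‖ ^ 2 * (ψ a * E) else 0)
      ∂law a0 b = ∫ a, (if Good a0 b γ c.s a then dd (c.K a γ) x * (ψ a * E) else 0) ∂law a0 b := by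
    rw [← integral_const_mul]
    refine integral_congr_ae (ae_of_all _ fun a => ?_)
    by_cases h : Good a0 b γ c.s a
    · simp only [h, if_true, hd]; ring
    · simp [h]
  have e2 : 4 * γ * c.J γ * ∫ a, ‖zz c.s a γ‖ ^ 2 * G a ∂law a0 b =
      ∫ a, dd (c.K a γ) x * G a ∂law a0 b := by
    rw [← integral_const_mul]
    refine integral_congr_ae (ae_of_all _ fun a => ?_)
    simp only [hd]; ring
  rw [e1] at h3
  calc _ ≤ ∫ a, (if Good a0 b γ c.s a then dd (c.K a γ) x * (ψ a * E) else 0) ∂law a0 b := by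
        refine integral_mono_of_nonneg (ae_of_all _ fun a => ?_)
          ((BM.ite (measurableSet_good' a0 b γ c.s)
            ((bm_K c (nice_dd x) hγ).mul (hψ.mul (BM.const E))) (BM.const 0)).integrable _)
          (ae_of_all _ fun a => ?_)
        · by_cases h : Good a0 b γ c.s a
          · simpa [h] using (hF a).1
          · simp [h]
        · by_cases h : Good a0 b γ c.s a
          · simpa [h] using (hF a).2
          · simp [h]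
    _ ≤ _ := h3
    _ = _ := by rw [← e2]; ring

theorem psi_up {A d g db gb r : ℝ} (hA : 0 < A) (hd : 0 ≤ d) (hg : 0 ≤ g) (h1 : d ≤ 2 * db)
    (h2 : g ≤ 2 * gb) (h3 : (A * db + gb) * r ^ 2 ≤ A * d + g) :
    A * d * g / (A * d + g) ^ 2 * r ^ 4 ≤ 4 * (A * db * gb / (A * db + gb) ^ 2) := by
  have hdb : 0 ≤ db := by linarith
  have hgb : 0 ≤ gb := by linarith
  rcases (by positivity : 0 ≤ A * d + g).eq_or_lt with h | h
  · rw [← h]; simp only [ne_eq, OfNat.ofNat_ne_zero, not_false_eq_true, zero_pow, div_zero,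
      zero_mul]; positivity
  rcases (by positivity : 0 ≤ A * db + gb).eq_or_lt with h' | h'
  · have : g = 0 := by nlinarith [mul_nonneg hA.le hdb]
    rw [this]; simp only [mul_zero, zero_div, zero_mul]; positivity
  rw [div_mul_eq_mul_div, ← mul_div_assoc, div_le_div_iff₀ (by positivity) (by positivity)]
  have e1 : A * d * g ≤ 4 * (A * db * gb) := by
    have := mul_le_mul h1 h2 hg (by linarith)
    nlinarith
  have e2 : r ^ 4 * (A * db + gb) ^ 2 ≤ (A * d + g) ^ 2 := by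
    have := pow_le_pow_left₀ (by positivity) h3 2
    calc _ = ((A * db + gb) * r ^ 2) ^ 2 := by ring
      _ ≤ _ := this
  calc _ = (A * d * g) * (r ^ 4 * (A * db + gb) ^ 2) := by ring
    _ ≤ _ := mul_le_mul e1 e2 (by positivity) (by positivity)

theorem psi_low {A d g db gb l : ℝ} (hA : 0 < A) (hdb : 0 ≤ db) (hgb : 0 ≤ gb)
    (h1 : db * l ^ 2 ≤ d) (h2 : gb * l ^ 2 ≤ g) (h3 : A * d + g ≤ 2 * (A * db + gb)) :
    l ^ 4 * (A * db * gb / (A * db + gb) ^ 2) ≤ 4 * (A * d * g / (A * d + g) ^ 2) := by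
  have hd : 0 ≤ d := le_trans (by positivity) h1
  have hg : 0 ≤ g := le_trans (by positivity) h2
  have e1 : l ^ 4 * (A * db * gb) ≤ A * d * g := by
    have := mul_le_mul h1 h2 (by positivity) hd
    calc _ = A * (db * l ^ 2 * (gb * l ^ 2)) := by ring
      _ ≤ A * (d * g) := mul_le_mul_of_nonneg_left this hA.le
      _ = _ := by ring
  rcases (by positivity : 0 ≤ A * db + gb).eq_or_lt with h' | h'
  · rw [← h']; simp only [ne_eq, OfNat.ofNat_ne_zero, not_false_eq_true, zero_pow, div_zero,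
      mul_zero]; positivity
  rcases (by positivity : 0 ≤ A * d + g).eq_or_lt with h | h
  · have : g = 0 := by nlinarith [mul_nonneg hA.le hd]
    rw [this, mul_zero] at e1
    rw [this, ← mul_div_assoc]
    simp only [mul_zero, zero_div]
    exact div_nonpos_of_nonpos_of_nonneg e1 (by positivity)
  rw [← mul_div_assoc, ← mul_div_assoc, div_le_div_iff₀ (by positivity) (by positivity)]
  have e2 : (A * d + g) ^ 2 ≤ 4 * (A * db + gb) ^ 2 := by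
    have := pow_le_pow_left₀ h.le h3 2
    calc _ ≤ _ := this
      _ = _ := by ring
  calc _ ≤ (A * d * g) * (4 * (A * db + gb) ^ 2) :=
        mul_le_mul e1 e2 (by positivity) (by positivity)
    _ = _ := by ring

theorem rpow8 {q : ℝ} (hq : 0 ≤ q) : (q ^ (1 / 8 : ℝ)) ^ 8 = q := by
  rw [← Real.rpow_natCast, ← Real.rpow_mul hq]; norm_num

theorem dd_eq_Gam {P : Type} [Fintype P] (K : P → P → ℂ) (p : P) :
    dd K p = Gam (fun _ _ => 1) K p := by simp [dd, Gam]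

theorem r2_nonneg (L : Lat) (p q : L.P) : 0 ≤ L.r2 p q := L.rho2_nonneg _ p q

/-- two-sided control of `ψ` on the arc -/
theorem psi_two (L : Lat) {x : L.P} (c : Cav x) {γ : ℝ} (hγ : 0 ≤ γ) (y : L.P) (m : ℕ) :
    ∃ (ψb : ℝ) (u0 u1 u2 : ℂ), 0 ≤ ψb ∧
      (∀ t, L.psi (c.K (c.s.re + c.J γ * t) γ) y m ^ 2 * ‖uu t - u0‖ ≤ (2 * ψb) ^ 2) ∧
      ∀ t l, 0 ≤ l → l ≤ ‖uu t - u1‖ → l ≤ ‖uu t - u2‖ →
        Real.sqrt l / 2 * ψb ≤ L.psi (c.K (c.s.re + c.J γ * t) γ) y m := by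
  obtain ⟨db, hd, -⟩ := c.aff_Gam hγ (w := fun _ _ => 1) (fun _ _ => zero_le_one) y
  obtain ⟨gb, hg, -⟩ := c.aff_Gam hγ (r2_nonneg L) y
  simp only [← dd_eq_Gam] at hd
  have hA : (0 : ℝ) < 4 ^ m := by positivity
  have hs := (hd.smul (4 ^ m)).add hg
  have hd0 := fun t => dd_nonneg (c.K (c.s.re + c.J γ * t) γ) y
  have hg0 := fun t => Gam_nonneg (r2_nonneg L) (c.K (c.s.re + c.J γ * t) γ) y
  obtain ⟨hdb, hd2, u1, hu1⟩ := hd.le_two hd0
  obtain ⟨hgb, hg2, u2, hu2⟩ := hg.le_two hg0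
  obtain ⟨-, hs2, u0, hu0⟩ := hs.le_two fun t => add_nonneg (mul_nonneg hA.le (hd0 t)) (hg0 t)
  have hq : (0 : ℝ) ≤ 4 ^ m * db * gb / (4 ^ m * db + gb) ^ 2 := by positivity
  have h8 : ∀ t, L.psi (c.K (c.s.re + c.J γ * t) γ) y m ^ 8 = _ := fun t =>
    rpow8 (div_nonneg (mul_nonneg (mul_nonneg hA.le (hd0 t)) (hg0 t)) (sq_nonneg _))
  refine ⟨(4 ^ m * db * gb / (4 ^ m * db + gb) ^ 2) ^ (1 / 8 : ℝ), u0, u1, u2, by positivity,
    fun t => ?_, fun t l hl h1 h2 => ?_⟩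
  · refine le_of_pow_le_pow_left₀ (n := 4) (by norm_num) (by positivity) ?_
    have := psi_up hA (hd0 t) (hg0 t) (hd2 t) (hg2 t) (hu0 t)
    rw [← h8 t, ← rpow8 hq] at this
    have h0 : 0 ≤ ((4 ^ m * db * gb / (4 ^ m * db + gb) ^ 2 : ℝ) ^ (1 / 8 : ℝ)) ^ 8 := by
      positivity
    calc _ = L.psi (c.K (c.s.re + c.J γ * t) γ) y m ^ 8 * ‖uu t - u0‖ ^ 4 := by ring
      _ ≤ _ := this
      _ ≤ 256 * ((4 ^ m * db * gb / (4 ^ m * db + gb) ^ 2 : ℝ) ^ (1 / 8 : ℝ)) ^ 8 := by linarith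
      _ = _ := by ring
  · refine le_of_pow_le_pow_left₀ (n := 8) (by norm_num) (psi_nonneg L _ _ _) ?_
    have := psi_low (l := l) hA hdb hgb
      ((mul_le_mul_of_nonneg_left (pow_le_pow_left₀ hl h1 2) hdb).trans (hu1 t))
      ((mul_le_mul_of_nonneg_left (pow_le_pow_left₀ hl h2 2) hgb).trans (hu2 t)) (hs2 t)
    rw [← h8 t, ← rpow8 hq] at this
    have h0 : 0 ≤ L.psi (c.K (c.s.re + c.J γ * t) γ) y m ^ 8 := pow_nonneg (psi_nonneg L _ _ _) 8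
    have e : Real.sqrt l ^ 8 = l ^ 4 := by
      calc _ = (Real.sqrt l ^ 2) ^ 4 := by ring
        _ = _ := by rw [Real.sq_sqrt hl]
    rw [mul_pow, div_pow, e]
    linarith

end Crest.Agent.N334.G.S1
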