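import Crest.Agent.N334.G.S10

/-!
# Row 334, S0519 GAIN: the three-point one-site average (helper85)
-/

set_option autoImplicit false

open MeasureTheory Finset Complex
open scoped BigOperators ComplexConjugate

noncomputable section

namespace Crest.Agent.N334.G.S1

theorem T2_nonneg (L : Lat) (K : L.Mat) (p q : L.P) : 0 ≤ L.T2 K p q :=
  sum_nonneg fun _ _ => sq_nonneg _

theorem ph_nonneg (L : Lat) (K : L.Mat) (p q : L.P) : 0 ≤ L.ph K p q :=
  div_nonneg (mul_nonneg (cc_nonneg K p q) (T2_nonneg L K p q))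
    (add_nonneg (mul_nonneg (dd_nonneg K p) (dd_nonneg K q)) (cc_nonneg K p q))

theorem nn_nonneg (L : Lat) (K : L.Mat) (p : L.P) (m : ℕ) : 0 ≤ L.nn K p m :=
  Gam_nonneg (L.wh_nonneg m) K p

theorem Om_nonneg (L : Lat) (i : ℝ) (K : L.Mat) (m : ℕ) (p q : L.P) : 0 ≤ L.Om i K m p q := by
  have := div_nonneg (cc_nonneg K p q) (dd_nonneg K p)
  exact div_nonneg (add_nonneg (mul_nonneg (Real.exp_pos i).le (nn_nonneg L K q m)) this)
    (add_nonneg (dd_nonneg K q) this)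

theorem XX_nonneg (L : Lat) (K : L.Mat) (x y z : L.P) : 0 ≤ L.XX K x y z := by
  have h1 := div_nonneg (cc_nonneg K x y) (dd_nonneg K x)
  have h2 := div_nonneg (cc_nonneg K x z) (dd_nonneg K x)
  exact div_nonneg (mul_nonneg (mul_nonneg (cc_nonneg K x y) (cc_nonneg K x z))
    (T2_nonneg L K z y)) (mul_nonneg (mul_nonneg (dd_nonneg K x)
      (add_nonneg (dd_nonneg K y) h1)) (add_nonneg (dd_nonneg K z) h2))

theorem GN_nonneg (L : Lat) (K : L.Mat) (p : L.P) : 0 ≤ L.GN K p := Gn_nonneg _ K p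

theorem ph_ineq {c e B D T l : ℝ} (hl : 0 < l) (hB : 0 < B) (hBD : B ≤ D) (he0 : 0 ≤ e)
    (he : e ≤ 1089 * D) (hc : 4 * B * l ^ 2 ≤ c) (hT : 0 ≤ T) :
    4 * l ^ 2 / (1089 + 4 * l ^ 2) * (B / D) * T ≤ c * T / (e + c) := by
  have hD : 0 < D := hB.trans_le hBD
  have hc0 : 0 < c := lt_of_lt_of_le (by positivity) hc
  rw [mul_div_right_comm c]
  refine mul_le_mul_of_nonneg_right ?_ hT
  rw [div_mul_div_comm, div_le_div_iff₀ (by positivity) (by positivity)]
  have h1 : 4 * B * l ^ 2 * e ≤ c * (1089 * D) := mul_le_mul hc he he0 hc0.le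
  have h2 : 4 * l ^ 2 * c * B ≤ 4 * l ^ 2 * c * D :=
    mul_le_mul_of_nonneg_left hBD (by positivity)
  nlinarith

/-- lower bound for an off-diagonal conductance off a short arc -/
theorem cc_low {P : Type} [Fintype P] [DecidableEq P] {x : P} (c : Cav x) {γ : ℝ} (hγ : 0 ≤ γ)
    {y z : P} (hy : y ≠ x) (hz : z ≠ x) : ∃ u4 : ℂ, ∀ t l, 0 ≤ l → l ≤ ‖uu t - u4‖ →
      4 * (‖c.rho y‖ ^ 2 / c.J γ * (‖c.rho z‖ ^ 2 / c.J γ)) * l ^ 2 ≤
        cc (c.K (c.s.re + c.J γ * t) γ) z y := by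
  set w : ℂ := 2 * I * c.vec γ z * c.vec γ y / c.J γ with hw
  have hJ := c.J_pos hγ
  have hn : ‖w‖ ^ 2 = 4 * (‖c.rho y‖ ^ 2 / c.J γ * (‖c.rho z‖ ^ 2 / c.J γ)) := by
    rw [hw, Cav.vec, Cav.vec, if_neg hy, if_neg hz]
    simp only [norm_div, norm_mul, Complex.norm_I, Complex.norm_real, Real.norm_eq_abs,
      abs_of_pos hJ, Complex.norm_ofNat]
    field_simp; ring
  refine ⟨-c.K0 z y / w, fun t l hl h => ?_⟩
  rw [← hn]
  by_cases h0 : w = 0
  · rw [h0]; simpa using cc_nonneg _ z y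
  · have e : c.K (c.s.re + c.J γ * t) γ z y = w * (uu t - -c.K0 z y / w) := by
      rw [c.K_arc hγ, ← hw]; field_simp; ring
    rw [cc, e, norm_mul, mul_pow]
    exact mul_le_mul_of_nonneg_left (pow_le_pow_left₀ hl h 2) (sq_nonneg _)

open Classical in
theorem stat1' : ∃ C : ℝ, 0 < C ∧ ∀ (L : Lat) (x : L.P) (c : Cav x) (a0 b γ i : ℝ) (y z : L.P)
    (m : ℕ), 0 < b → 0 ≤ γ → y ≠ x → z ≠ x →
    ∫ a, (if Good a0 b γ c.s a then L.psi (c.K a γ) y m * (L.Om i (c.K a γ) m x z *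
        L.XX (c.K a γ) x y z) else 0) ∂law a0 b ≤
      C * ∫ a, L.psi (c.K a γ) y m * (L.Om i (c.K a γ) m x z *
        (dd (c.K a γ) x * L.ph (c.K a γ) z y)) ∂law a0 b := by
  obtain ⟨Ct, hCt, ht⟩ := transfer
  obtain ⟨Cr, l, hCr, hl, hr⟩ := remez_sum 4
  have hsl := Real.sqrt_pos.2 hl
  set c1 : ℝ := Real.sqrt l / 2 * (l ^ 2 / 33) * (4 * l ^ 2 / (1089 + 4 * l ^ 2)) with hc1
  have hc10 : 0 < c1 := by positivity
  refine ⟨Ct * (66 * 1089 * 3 / c1 * Cr), by positivity, ?_⟩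
  intro L x c a0 b γ i y z m hb hγ hy hz
  have hJ := c.J_pos hγ
  set βy : ℝ := ‖c.rho y‖ ^ 2 / c.J γ with hβy
  set βz : ℝ := ‖c.rho z‖ ^ 2 / c.J γ with hβz
  by_cases htriv : γ = 0 ∨ βy = 0 ∨ βz = 0
  · have h0 : ∀ a, L.XX (c.K a γ) x y z = 0 := fun a => by
      have : cc (c.K a γ) x y * cc (c.K a γ) x z = 0 := by
        rw [cc_eq c hγ a hy, cc_eq c hγ a hz, ← hβy, ← hβz]
        rcases htriv with h | h | h
        · subst h; rw [dd_zero]; ring
        · rw [h]; ring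
        · rw [h]; ring
      rw [Lat.XX, this]; simp
    simp only [h0, mul_zero, ite_self, integral_zero]
    refine mul_nonneg (by positivity) (integral_nonneg fun a => ?_)
    exact mul_nonneg (psi_nonneg L _ _ _) (mul_nonneg (Om_nonneg L _ _ _ _ _)
      (mul_nonneg (dd_nonneg _ _) (ph_nonneg L _ _ _)))
  push Not at htriv
  obtain ⟨hγ0, hy0, hz0⟩ := htriv
  have hγp : 0 < γ := lt_of_le_of_ne hγ (Ne.symm hγ0)
  have hyp : 0 < βy := lt_of_le_of_ne (by positivity) (Ne.symm hy0)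
  have hzp : 0 < βz := lt_of_le_of_ne (by positivity) (Ne.symm hz0)
  set Dy : ℝ := dd (c.K 0 γ) y + βy with hDy
  set Dz : ℝ := dd (c.K 0 γ) z + βz with hDz
  have hDy1 : βy ≤ Dy := le_add_of_nonneg_left (dd_nonneg _ _)
  have hDz1 : βz ≤ Dz := le_add_of_nonneg_left (dd_nonneg _ _)
  have hDy0 : 0 < Dy := hyp.trans_le hDy1
  have hDz0 : 0 < Dz := hzp.trans_le hDz1
  obtain ⟨ψb, u0, u1, u2, hψb, hup, hlow⟩ := psi_two L c hγ y m
  obtain ⟨nb, hn, -⟩ := c.aff_Gam hγ (L.wh_nonneg m) z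
  obtain ⟨hNb, hN2, u3, hu3⟩ := ((hn.smul (Real.exp i)).add (IsAff.const βz)).le_two fun t =>
    add_nonneg (mul_nonneg (Real.exp_pos i).le (Gam_nonneg (L.wh_nonneg m) _ _)) hzp.le
  set Nb : ℝ := Real.exp i * nb + βz with hNbd
  obtain ⟨u4, hu4⟩ := cc_low c hγ hy hz
  choose f0 f1 f2 hf using fun j => c.aff_T hγ (L.Phi L.N j) z y
  set S : ℝ := ∑ j, (‖f0 j‖ ^ 2 + ‖f1 j‖ ^ 2 + ‖f2 j‖ ^ 2) with hS
  have hS0 : 0 ≤ S := sum_nonneg fun _ _ => by positivity
  have hOm : ∀ a, L.Om i (c.K a γ) m x z =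
      (Real.exp i * Gam (L.wh m) (c.K a γ) z + βz) / (dd (c.K a γ) z + βz) := fun a => by
    rw [Lat.Om, cc_div c hγp a hz]; rfl
  have key := ht L.P x c a0 b γ (66 * 1089 * 3 / c1 * Cr)
    (66 * Nb / Dz * (1089 * (βy * βz / (Dy * Dz)) * (3 * S))) ψb u0
    (fun a => L.psi (c.K a γ) y m)
    (fun a => L.psi (c.K a γ) y m * (L.Om i (c.K a γ) m x z * L.XX (c.K a γ) x y z))
    (fun a => L.psi (c.K a γ) y m * (L.Om i (c.K a γ) m x z * L.ph (c.K a γ) z y))
    hb hγ (by positivity) (by positivity) hψb (bm_K c (L.nice_psi y m) hγ)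
    (bm_K c ((L.nice_psi y m).mul ((L.nice_Om i m x z).mul (L.nice_ph z y))) hγ)
    (fun a => psi_nonneg L _ _ _)
    (fun a => mul_nonneg (psi_nonneg L _ _ _)
      (mul_nonneg (Om_nonneg L _ _ _ _ _) (ph_nonneg L _ _ _))) hup ?_ ?_
  · refine key.trans (le_of_eq ?_)
    congr 2; funext a; ring
  · intro a
    refine ⟨mul_nonneg (psi_nonneg L _ _ _)
      (mul_nonneg (Om_nonneg L _ _ _ _ _) (XX_nonneg L _ _ _ _)), ?_⟩
    obtain ⟨t, rfl⟩ : ∃ t, a = c.s.re + c.J γ * t := ⟨_, (arc_back c hγ a).symm⟩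
    set K := c.K (c.s.re + c.J γ * t) γ with hK
    have hy1 : Dy ≤ 33 * (dd K y + βy) := D_cmp c hγ _ _ hy
    have hz1 : Dz ≤ 33 * (dd K z + βz) := D_cmp c hγ _ _ hz
    have hdy := dd_nonneg K y
    have hdz := dd_nonneg K z
    have hdx : 0 < dd K x := dd_pos c hγp _
    have h1 : L.Om i K m x z ≤ 66 * Nb / Dz := by
      rw [hK, hOm, ← hK, div_le_div_iff₀ (by positivity) hDz0]
      have := mul_le_mul (hN2 t) hz1 hDz0.le (by positivity)
      calc _ ≤ _ := this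
        _ = _ := by ring
    have hT : L.T2 K z y ≤ 3 * S := by
      rw [hS, mul_sum]
      exact sum_le_sum fun j _ => by rw [hK, hf]; exact aff_sq_le _ _ _ t
    have h2 : L.XX K x y z ≤ dd K x * (1089 * (βy * βz / (Dy * Dz)) * (3 * S)) := by
      have e : L.XX K x y z =
          dd K x * (βy * βz / ((dd K y + βy) * (dd K z + βz)) * L.T2 K z y) := by
        rw [Lat.XX, hK, cc_div c hγp _ hy, cc_div c hγp _ hz, cc_eq c hγ _ hy, cc_eq c hγ _ hz,
          ← hK, ← hβy, ← hβz]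
        field_simp
      rw [e]
      refine mul_le_mul_of_nonneg_left
        (mul_le_mul ?_ hT (T2_nonneg L _ _ _) (by positivity)) hdx.le
      rw [← mul_div_assoc (1089 : ℝ), div_le_div_iff₀ (by positivity) (by positivity)]
      have := mul_le_mul_of_nonneg_left (mul_le_mul hy1 hz1 hDz0.le (by positivity))
        (mul_pos hyp hzp).le
      calc _ ≤ _ := this
        _ = _ := by ring
    have h3 := mul_le_mul_of_nonneg_left
      (mul_le_mul h1 h2 (XX_nonneg L _ _ _ _) (by positivity)) (psi_nonneg L K y m)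
    calc _ ≤ _ := h3
      _ = _ := by ring
  · have hm : Measurable fun t : ℝ => c.s.re + c.J γ * t := by fun_prop
    have h := hr _ f0 f1 f2 ![u1, u2, u3, u4]
      (fun t => L.psi (c.K (c.s.re + c.J γ * t) γ) y m *
        (L.Om i (c.K (c.s.re + c.J γ * t) γ) m x z * L.ph (c.K (c.s.re + c.J γ * t) γ) z y))
      (c1 * (ψb * (Nb / Dz) * (βy * βz / (Dy * Dz)))) 0
      ((bm_K c ((L.nice_psi y m).mul ((L.nice_Om i m x z).mul (L.nice_ph z y))) hγ).comp hm)
      (fun a => mul_nonneg (psi_nonneg L _ _ _)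
        (mul_nonneg (Om_nonneg L _ _ _ _ _) (ph_nonneg L _ _ _))) (by positivity) le_rfl ?_
    · have := mul_le_mul_of_nonneg_left h (by positivity : 0 ≤ 66 * 1089 * 3 / c1)
      calc _ = 66 * 1089 * 3 / c1 *
            (c1 * (ψb * (Nb / Dz) * (βy * βz / (Dy * Dz))) * (S + 0)) := by field_simp; ring
        _ ≤ _ := this
        _ = _ := by ring
    intro t hj
    have p1 := hlow t l hl.le (hj 0) (hj 1)
    have p4 := hu4 t l hl.le (hj 3)
    have p3 : Nb * l ^ 2 ≤ _ :=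
      (mul_le_mul_of_nonneg_left (pow_le_pow_left₀ hl.le (hj 2) 2) hNb).trans (hu3 t)
    simp only [← hf]
    set K := c.K (c.s.re + c.J γ * t) γ with hK
    have hy1 : dd K y + βy ≤ 33 * Dy := D_cmp c hγ _ _ hy
    have hz1 : dd K z + βz ≤ 33 * Dz := D_cmp c hγ _ _ hz
    have hdy := dd_nonneg K y
    have hdz := dd_nonneg K z
    have h1 : l ^ 2 / 33 * (Nb / Dz) ≤ L.Om i K m x z := by
      rw [hK, hOm, ← hK, div_mul_div_comm, div_le_div_iff₀ (by positivity) (by positivity)]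
      have := mul_le_mul p3 hz1 (by positivity) (le_trans (by positivity) p3)
      calc _ = Nb * l ^ 2 * (dd K z + βz) := by ring
        _ ≤ _ := this
    have h2 := ph_ineq (e := dd K z * dd K y) (D := Dy * Dz) hl (mul_pos hyp hzp)
      (mul_le_mul hDy1 hDz1 hzp.le hDy0.le) (by positivity)
      (by
        have := mul_le_mul (le_trans (le_add_of_nonneg_right hzp.le) hz1)
          (le_trans (le_add_of_nonneg_right hyp.le) hy1) hdy (by positivity)
        calc _ ≤ _ := this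
          _ = _ := by ring) p4 (T2_nonneg L K z y)
    have hT := T2_nonneg L K z y
    have h3 := mul_le_mul p1 (mul_le_mul h1 h2 (by positivity) (Om_nonneg L _ _ _ _ _))
      (by positivity) (psi_nonneg L K y m)
    calc _ = Real.sqrt l / 2 * ψb * (l ^ 2 / 33 * (Nb / Dz) *
          (4 * l ^ 2 / (1089 + 4 * l ^ 2) * (βy * βz / (Dy * Dz)) * L.T2 K z y)) := by
          rw [hc1, Lat.T2]; ring
      _ ≤ _ := h3

end Crest.Agent.N334.G.S1
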