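import Crest.Agent.N334.G.S11

/-!
# Row 334, S0519 GAIN: the two-point one-site average (helper85)
-/

set_option autoImplicit false

open MeasureTheory Finset Complex
open scoped BigOperators ComplexConjugate

noncomputable section

namespace Crest.Agent.N334.G.S1

section alg
variable {P : Type} [Fintype P] [DecidableEq P]

omit [DecidableEq P] in
theorem mv_sq_le {ι : Type} [Fintype ι] (Φ : ι → P → ℝ) (K : P → P → ℂ) (p : P) :
    ∑ j, mv (Φ j) K p ^ 2 ≤ 2 * dd K p * Gn Φ K p := by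
  have h1 := dd_le_nu K p
  have h2 := nu_le K p
  rcases (dd_nonneg K p).eq_or_lt with h | h
  · have : ∀ q, cc K p q = 0 := fun q => le_antisymm (h ▸ cc_le_dd K p q) (cc_nonneg K p q)
    simp [mv, this, ← h]
  · have hn : 0 < nu K p := h.trans_le h1
    rw [Gn, ← mul_div_assoc, le_div_iff₀ hn, mul_comm]
    exact mul_le_mul_of_nonneg_right h2 (sum_nonneg fun _ _ => sq_nonneg _)

theorem normSq_add_mul (a w r : ℂ) :
    ‖a + w * r‖ ^ 2 = ‖a‖ ^ 2 + 2 * (w * (conj a * r)).re + ‖w‖ ^ 2 * ‖r‖ ^ 2 := by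
  simp only [← Complex.normSq_eq_norm_sq, Complex.normSq_apply, add_re, add_im, mul_re, mul_im,
    conj_re, conj_im]
  ring

variable {z : P} (c : Cav z)

theorem Sm_y (a γ : ℝ) {y r : P} (hy : y ≠ z) (hr : r ≠ z) :
    Sm (c.K a γ) r y = Sm c.K0 r y + 2 * I * c.z a γ * c.rho y * c.rho r := by
  simp only [Sm, Cav.K, Cav.vec, if_neg hy, if_neg hr]; ring

theorem Sm_z (a γ : ℝ) {r : P} (hr : r ≠ z) :
    Sm (c.K a γ) r z = 2 * I * c.z a γ * (Real.sqrt γ : ℂ) * c.rho r := by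
  simp only [Sm, Cav.K, Cav.vec, if_neg hr, c.K0_y, if_true]; ring

theorem T_zy {γ : ℝ} (hγ : 0 ≤ γ) (a : ℝ) {y : P} (hy : y ≠ z) (f : P → ℝ) :
    Tm f (c.K a γ) z y = conj (2 * I * c.z a γ * (Real.sqrt γ : ℂ)) *
      (∑ r, conj (c.rho r) * ((f r - f z : ℝ) : ℂ) * Sm c.K0 r y +
        2 * I * c.z a γ * c.rho y * ((∑ r, ‖c.rho r‖ ^ 2 * (f r - f z) : ℝ) : ℂ)) := by
  rw [← (c.port a hγ).T_shift f (f z), Tm, if_neg hy.symm, sub_zero]
  push_cast
  rw [mul_sum, ← sum_add_distrib, mul_sum]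
  refine sum_congr rfl fun r _ => ?_
  by_cases hr : r = z
  · subst hr; simp
  · rw [Sm_y c a γ hy hr, Sm_z c a γ hr, map_mul _ _ (c.rho r), ← Complex.conj_mul' (c.rho r)]
    ring

theorem mv_y {γ : ℝ} (hγ : 0 ≤ γ) (a : ℝ) {y : P} (hy : y ≠ z) (f : P → ℝ) :
    mv f (c.K a γ) y = (∑ r, (f r - f z) * ‖Sm c.K0 r y‖ ^ 2 - (f y - f z)) +
      2 * (2 * I * c.z a γ * c.rho y *
        conj (∑ r, conj (c.rho r) * ((f r - f z : ℝ) : ℂ) * Sm c.K0 r y)).re +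
      ‖2 * I * c.z a γ * c.rho y‖ ^ 2 * ∑ r, ‖c.rho r‖ ^ 2 * (f r - f z) := by
  have h := (c.port a hγ).T_diag f y
  rw [← (c.port a hγ).T_shift f (f z), Tm, if_pos rfl] at h
  have h2 : mv f (c.K a γ) y = ∑ r, (f r - f z) * ‖Sm (c.K a γ) r y‖ ^ 2 - (f y - f z) := by
    apply Complex.ofReal_injective
    rw [← h]
    push_cast
    congr 1
    refine sum_congr rfl fun r _ => ?_
    rw [← Complex.conj_mul']; ring
  rw [h2, map_sum, mul_sum, re_sum, mul_sum, mul_sum, sub_add_eq_add_sub, sub_add_eq_add_sub,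
    ← sum_add_distrib, ← sum_add_distrib]
  congr 1
  refine sum_congr rfl fun r _ => ?_
  by_cases hr : r = z
  · subst hr; simp
  · rw [Sm_y c a γ hy hr, normSq_add_mul]
    have : 2 * I * c.z a γ * c.rho y * conj (conj (c.rho r) * ((f r - f z : ℝ) : ℂ) * Sm c.K0 r y) =
        ((f r - f z : ℝ) : ℂ) * (2 * I * c.z a γ * c.rho y * (conj (Sm c.K0 r y) * c.rho r)) := by
      simp only [map_mul, conj_conj, conj_ofReal]; ring
    rw [this, re_ofReal_mul]; ring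

theorem mv_z {γ : ℝ} (hγ : 0 ≤ γ) (a : ℝ) (f : P → ℝ) :
    mv f (c.K a γ) z = dd (c.K a γ) z * ((∑ r, ‖c.rho r‖ ^ 2 * (f r - f z)) / c.J γ) := by
  rw [mv, sum_div, mul_sum]
  refine sum_congr rfl fun r _ => ?_
  by_cases hr : r = z
  · subst hr; simp
  · rw [cc_eq c hγ a hr]; ring

theorem zalg {γ : ℝ} (hγ : 0 ≤ γ) {y : P} (hy : y ≠ z) (f : P → ℝ) : ∃ f0 f1 f2 M : ℝ,
    (∀ t, mv f (c.K (c.s.re + c.J γ * t) γ) y = f0 + f1 * (uu t).re + f2 * (uu t).im) ∧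
    (∀ a, mv f (c.K a γ) z = dd (c.K a γ) z * M) ∧
    ∀ a, ‖c.rho y‖ ^ 2 / c.J γ * ‖Tm f (c.K a γ) z y‖ ^ 2 ≤
      dd (c.K a γ) z * (f1 ^ 2 + f2 ^ 2 + 12 * (‖c.rho y‖ ^ 2 / c.J γ) ^ 2 * M ^ 2) := by
  have hJ := c.J_pos hγ
  have hJc : (c.J γ : ℂ) ≠ 0 := by exact_mod_cast hJ.ne'
  set α : ℂ := ∑ r, conj (c.rho r) * ((f r - f z : ℝ) : ℂ) * Sm c.K0 r y with hα
  set Sg : ℝ := ∑ r, ‖c.rho r‖ ^ 2 * (f r - f z) with hSg
  set c1 : ℂ := 4 * I * c.rho y * conj α / c.J γ with hc1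
  set β : ℝ := ‖c.rho y‖ ^ 2 / c.J γ with hβ
  refine ⟨∑ r, (f r - f z) * ‖Sm c.K0 r y‖ ^ 2 - (f y - f z), c1.re,
    -c1.im + 4 * β * (Sg / c.J γ), Sg / c.J γ, fun t => ?_, fun a => mv_z c hγ a f, fun a => ?_⟩
  · rw [mv_y c hγ _ hy, ← hα, ← hSg]
    have hz : c.z (c.s.re + c.J γ * t) γ = uu t / c.J γ := by
      rw [← J_z c hγ t]; field_simp
    have e1 : 2 * (2 * I * c.z (c.s.re + c.J γ * t) γ * c.rho y * conj α).re = (c1 * uu t).re := by
      rw [hz, hc1, ← re_ofReal_mul]; congr 1; push_cast; ring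
    have e2 : ‖2 * I * c.z (c.s.re + c.J γ * t) γ * c.rho y‖ ^ 2 =
        4 * (uu t).im * β / c.J γ := by
      rw [hz, hβ, ← uu_sq_im]
      simp only [norm_div, norm_mul, Complex.norm_I, Complex.norm_real, Real.norm_eq_abs,
        abs_of_pos hJ, Complex.norm_ofNat]
      field_simp; ring
    rw [e1, e2, mul_re]; ring
  · rw [T_zy c hγ a hy, ← hα, ← hSg, norm_mul, mul_pow, Complex.norm_conj]
    have e1 : ‖2 * I * c.z a γ * (Real.sqrt γ : ℂ)‖ ^ 2 = dd (c.K a γ) z / c.J γ := by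
      rw [c.dd_y a γ hγ]
      simp only [norm_mul, Complex.norm_I, Complex.norm_real, Real.norm_eq_abs,
        Complex.norm_ofNat, mul_pow, sq_abs, Real.sq_sqrt hγ]
      field_simp; ring
    have hz : c.J γ * ‖c.z a γ‖ ≤ 1 := norm_zz_le hJ a
    have e2 : ‖2 * I * c.z a γ * c.rho y * (Sg : ℂ)‖ ^ 2 ≤
        4 * ‖c.rho y‖ ^ 2 * (Sg / c.J γ) ^ 2 := by
      have := pow_le_pow_left₀ (by positivity) hz 2
      calc _ = 4 * ‖c.rho y‖ ^ 2 * (Sg / c.J γ) ^ 2 * (c.J γ * ‖c.z a γ‖) ^ 2 := by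
            simp only [norm_mul, Complex.norm_I, Complex.norm_real, Real.norm_eq_abs,
              Complex.norm_ofNat, mul_pow, sq_abs]
            field_simp; ring
        _ ≤ 4 * ‖c.rho y‖ ^ 2 * (Sg / c.J γ) ^ 2 * 1 ^ 2 :=
            mul_le_mul_of_nonneg_left this (by positivity)
        _ = _ := by ring
    have e3 : ‖α + 2 * I * c.z a γ * c.rho y * (Sg : ℂ)‖ ^ 2 ≤
        2 * ‖α‖ ^ 2 + 8 * ‖c.rho y‖ ^ 2 * (Sg / c.J γ) ^ 2 := by
      have := pow_le_pow_left₀ (norm_nonneg _)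
        (norm_add_le α (2 * I * c.z a γ * c.rho y * (Sg : ℂ))) 2
      nlinarith [sq_nonneg (‖α‖ - ‖2 * I * c.z a γ * c.rho y * (Sg : ℂ)‖)]
    have e4 : c1.re ^ 2 + c1.im ^ 2 = 16 * (β / c.J γ * ‖α‖ ^ 2) := by
      rw [← Complex.normSq_add_mul_I, re_add_im, Complex.normSq_eq_norm_sq, hc1, hβ]
      simp only [norm_div, norm_mul, Complex.norm_I, Complex.norm_real, Real.norm_eq_abs,
        abs_of_pos hJ, Complex.norm_ofNat, Complex.norm_conj]
      field_simp; ring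
    have hβ0 : 0 ≤ β := by positivity
    have e5 := mul_le_mul_of_nonneg_left e3 (div_nonneg hβ0 hJ.le)
    have e6 : β / c.J γ * (2 * ‖α‖ ^ 2 + 8 * ‖c.rho y‖ ^ 2 * (Sg / c.J γ) ^ 2) =
        2 * (β / c.J γ * ‖α‖ ^ 2) + 8 * (β * (Sg / c.J γ)) ^ 2 := by rw [hβ]; ring
    rw [e1]
    calc _ = dd (c.K a γ) z * (β / c.J γ * ‖α + 2 * I * c.z a γ * c.rho y * (Sg : ℂ)‖ ^ 2) := by
          ring
      _ ≤ _ := mul_le_mul_of_nonneg_left ?_ (dd_nonneg _ _)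
    rw [e6] at e5
    refine e5.trans ?_
    nlinarith [sq_nonneg c1.re, sq_nonneg (-c1.im + 4 * β * (Sg / c.J γ)),
      sq_nonneg (-c1.im + 8 * β * (Sg / c.J γ))]

end alg

open Classical in
theorem stat2' : ∃ C : ℝ, 0 < C ∧ ∀ (L : Lat) (z : L.P) (c : Cav z) (a0 b γ : ℝ) (y : L.P)
    (m : ℕ) (W : ℝ → ℝ) (Wb C1 : ℝ) (u0 : ℂ), 0 < b → 0 ≤ γ → y ≠ z → BM W → 1 ≤ C1 → 0 ≤ Wb →
    (∀ a, 0 ≤ W a ∧ W a ≤ C1 * Wb) → (∀ a, Wb * ‖(c.J γ : ℂ) * c.z a γ - u0‖ ^ 2 ≤ C1 * W a) →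
    ∫ a, (if Good a0 b γ c.s a then W a * (L.psi (c.K a γ) y m * L.ph (c.K a γ) z y) else 0)
        ∂law a0 b ≤
      C * C1 ^ 2 * ∫ a, W a * (L.psi (c.K a γ) y m * (dd (c.K a γ) z * L.GN (c.K a γ) y +
        cc (c.K a γ) z y * (L.GN (c.K a γ) z / dd (c.K a γ) z))) ∂law a0 b := by
  obtain ⟨Ct, hCt, ht⟩ := transfer
  obtain ⟨Cr, l, hCr, hl, hr⟩ := remez_sum 3
  have hsl := Real.sqrt_pos.2 hl
  set c1 : ℝ := Real.sqrt l / 2 * l ^ 2 with hc1
  have hc10 : 0 < c1 := by positivity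
  refine ⟨Ct * (33 * 66 / c1 * Cr), by positivity, ?_⟩
  intro L z c a0 b γ y m W Wb C1 u0 hb hγ hy hW hC1 hWb hW1 hW2
  have hJ := c.J_pos hγ
  have hC0 : 0 < C1 := by linarith
  set β : ℝ := ‖c.rho y‖ ^ 2 / c.J γ with hβ
  by_cases htriv : γ = 0 ∨ β = 0
  · have h0 : ∀ a, L.ph (c.K a γ) z y = 0 := fun a => by
      have : cc (c.K a γ) z y = 0 := by
        rw [cc_eq c hγ a hy, ← hβ]
        rcases htriv with h | h
        · subst h; rw [dd_zero]; ring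
        · rw [h]; ring
      rw [Lat.ph, this]; simp
    simp only [h0, mul_zero, ite_self, integral_zero]
    refine mul_nonneg (by positivity) (integral_nonneg fun a => ?_)
    exact mul_nonneg (hW1 a).1 (mul_nonneg (psi_nonneg L _ _ _) (add_nonneg
      (mul_nonneg (dd_nonneg _ _) (GN_nonneg L _ _))
      (mul_nonneg (cc_nonneg _ _ _) (div_nonneg (GN_nonneg L _ _) (dd_nonneg _ _)))))
  push Not at htriv
  obtain ⟨hγ0, hy0⟩ := htriv
  have hγp : 0 < γ := lt_of_le_of_ne hγ (Ne.symm hγ0)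
  have hyp : 0 < β := lt_of_le_of_ne (by positivity) (Ne.symm hy0)
  set D : ℝ := dd (c.K 0 γ) y + β with hD
  have hD1 : β ≤ D := le_add_of_nonneg_left (dd_nonneg _ _)
  have hD0 : 0 < D := hyp.trans_le hD1
  obtain ⟨ψb, v0, u1, u2, hψb, hup, hlow⟩ := psi_two L c hγ y m
  choose f0 f1 f2 M hf hM hT using fun j => zalg c hγ hy (L.Phi L.N j)
  simp only [← hβ] at hT
  set S : ℝ := ∑ j, (‖(f0 j : ℂ)‖ ^ 2 + ‖(f1 j : ℂ)‖ ^ 2 + ‖(f2 j : ℂ)‖ ^ 2) with hS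
  have hS0 : 0 ≤ S := sum_nonneg fun _ _ => by positivity
  set M2 : ℝ := ∑ j, M j ^ 2 with hM2
  have hM20 : 0 ≤ M2 := sum_nonneg fun _ _ => sq_nonneg _
  have hJγ : 0 < 2 * c.J γ - γ := by unfold Cav.J; linarith [c.s_pos]
  set κ : ℝ := β * (c.J γ / (2 * c.J γ - γ) * M2) with hκ
  have hκ0 : 0 ≤ κ := by positivity
  have hκ1 : β * M2 ≤ 2 * κ := by
    have : 1 ≤ 2 * (c.J γ / (2 * c.J γ - γ)) := by
      rw [← mul_div_assoc, le_div_iff₀ hJγ]; linarith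
    have := mul_le_mul_of_nonneg_left this (mul_nonneg hyp.le hM20)
    calc _ = β * M2 * 1 := by ring
      _ ≤ _ := this
      _ = _ := by rw [hκ]; ring
  have hGz : ∀ a, cc (c.K a γ) z y * (L.GN (c.K a γ) z / dd (c.K a γ) z) =
      dd (c.K a γ) z * κ := fun a => by
    have hd := (dd_pos c hγp a).ne'
    have hz := norm_pos_iff.2 (z_ne c hγ a)
    have e : L.GN (c.K a γ) z = dd (c.K a γ) z * (c.J γ / (2 * c.J γ - γ) * M2) := by
      rw [Lat.GN, Gn]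
      simp only [hM, mul_pow, ← mul_sum, ← hM2]
      rw [c.nu_y a γ hγ, c.dd_y a γ hγ]
      field_simp
    rw [e, cc_eq c hγ a hy, ← hβ, hκ]
    field_simp
  have hGb : BM fun a => W a * (L.psi (c.K a γ) y m * (L.GN (c.K a γ) y + κ)) :=
    hW.mul (bm_K c ((L.nice_psi y m).mul ((L.nice_GN y).add (Nice.const κ))) hγ)
  have hG0 : ∀ a, 0 ≤ W a * (L.psi (c.K a γ) y m * (L.GN (c.K a γ) y + κ)) := fun a =>
    mul_nonneg (hW1 a).1 (mul_nonneg (psi_nonneg L _ _ _) (add_nonneg (GN_nonneg L _ _) hκ0))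
  have key := ht L.P z c a0 b γ (33 * 66 / c1 * Cr * C1 ^ 2)
    (C1 * Wb * (33 / D * (S + 66 * D * κ))) ψb v0
    (fun a => L.psi (c.K a γ) y m)
    (fun a => W a * (L.psi (c.K a γ) y m * L.ph (c.K a γ) z y))
    (fun a => W a * (L.psi (c.K a γ) y m * (L.GN (c.K a γ) y + κ)))
    hb hγ (by positivity) (by positivity) hψb (bm_K c (L.nice_psi y m) hγ) hGb
    (fun a => psi_nonneg L _ _ _) hG0 hup ?_ ?_
  · refine key.trans (le_of_eq ?_)
    simp only [hGz]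
    rw [← mul_assoc Ct]
    congr 2; funext a; ring
  · intro a
    refine ⟨mul_nonneg (hW1 a).1 (mul_nonneg (psi_nonneg L _ _ _) (ph_nonneg L _ _ _)), ?_⟩
    have hy1 : D ≤ 33 * (dd (c.K a γ) y + β) := D_cmp c hγ _ _ hy
    have hdy := dd_nonneg (c.K a γ) y
    have hdz := dd_pos c hγp a
    have h1 : β * L.T2 (c.K a γ) z y ≤ dd (c.K a γ) z * (S + 66 * D * κ) := by
      have e1 : β * L.T2 (c.K a γ) z y ≤ dd (c.K a γ) z * (S + 12 * β ^ 2 * M2) := by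
        rw [Lat.T2, hS, hM2, mul_sum, mul_sum, ← sum_add_distrib, mul_sum]
        refine sum_le_sum fun j _ => (hT j a).trans (mul_le_mul_of_nonneg_left ?_ hdz.le)
        simp only [Complex.norm_real, Real.norm_eq_abs, sq_abs]
        linarith [sq_nonneg (f0 j)]
      refine e1.trans (mul_le_mul_of_nonneg_left ?_ hdz.le)
      have := mul_le_mul hD1 hκ1 (by positivity) hD0.le
      nlinarith [mul_nonneg hD0.le hκ0]
    have h2 : L.ph (c.K a γ) z y ≤ dd (c.K a γ) z * (33 / D * (S + 66 * D * κ)) := by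
      have e : L.ph (c.K a γ) z y = β * L.T2 (c.K a γ) z y / (dd (c.K a γ) y + β) := by
        rw [Lat.ph, cc_eq c hγ _ hy, ← hβ]
        field_simp
      rw [e, div_le_iff₀ (by positivity)]
      refine h1.trans ?_
      have : 1 ≤ 33 / D * (dd (c.K a γ) y + β) := by
        rw [div_mul_eq_mul_div, le_div_iff₀ hD0]; linarith
      have := mul_le_mul_of_nonneg_left this
        (by positivity : 0 ≤ dd (c.K a γ) z * (S + 66 * D * κ))
      calc _ = dd (c.K a γ) z * (S + 66 * D * κ) * 1 := by ring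
        _ ≤ _ := this
        _ = _ := by ring
    have h3 := mul_le_mul (hW1 a).2 (mul_le_mul_of_nonneg_left h2 (psi_nonneg L (c.K a γ) y m))
      (mul_nonneg (psi_nonneg L _ _ _) (ph_nonneg L _ _ _)) (by positivity)
    calc _ ≤ _ := h3
      _ = _ := by ring
  · have hm : Measurable fun t : ℝ => c.s.re + c.J γ * t := by fun_prop
    have h := hr _ (fun j => (f0 j : ℂ)) (fun j => (f1 j : ℂ)) (fun j => (f2 j : ℂ)) ![u1, u2, u0]
      _ (c1 * (ψb * (Wb / C1) / (66 * D))) (66 * D * κ) (hGb.comp hm) (fun t => hG0 _)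
      (by positivity) (by positivity) ?_
    · have := mul_le_mul_of_nonneg_left h (by positivity : 0 ≤ 33 * 66 / c1 * C1 ^ 2)
      calc _ = 33 * 66 / c1 * C1 ^ 2 *
            (c1 * (ψb * (Wb / C1) / (66 * D)) * (S + 66 * D * κ)) := by field_simp
        _ ≤ _ := this
        _ = _ := by ring
    intro t hj
    have p1 := hlow t l hl.le (hj 0) (hj 1)
    have p2 : Wb / C1 * l ^ 2 ≤ W (c.s.re + c.J γ * t) := by
      have := hW2 (c.s.re + c.J γ * t)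
      rw [J_z c hγ] at this
      rw [div_mul_eq_mul_div, div_le_iff₀ hC0, mul_comm _ C1]
      exact (mul_le_mul_of_nonneg_left (pow_le_pow_left₀ hl.le (hj 2) 2) hWb).trans this
    have e : ∀ j, ‖(f0 j : ℂ) + f1 j * (uu t).re + f2 j * (uu t).im‖ ^ 2 =
        mv (L.Phi L.N j) (c.K (c.s.re + c.J γ * t) γ) y ^ 2 := fun j => by
      rw [hf, ← sq_abs (_ + _), ← Real.norm_eq_abs, ← Complex.norm_real]; push_cast; rfl
    simp only [e]
    set K := c.K (c.s.re + c.J γ * t) γ with hK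
    have hy1 : dd K y + β ≤ 33 * D := D_cmp c hγ _ _ hy
    have p3 : ∑ j, mv (L.Phi L.N j) K y ^ 2 + 66 * D * κ ≤ 66 * D * (L.GN K y + κ) := by
      have := mv_sq_le (L.Phi L.N) K y
      have h2 := mul_le_mul_of_nonneg_right (by linarith : 2 * dd K y ≤ 66 * D) (GN_nonneg L K y)
      unfold Lat.GN at h2 ⊢
      linarith
    have hg := add_nonneg (GN_nonneg L K y) hκ0
    calc _ ≤ c1 * (ψb * (Wb / C1) / (66 * D)) * (66 * D * (L.GN K y + κ)) :=
          mul_le_mul_of_nonneg_left p3 (by positivity)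
      _ = Wb / C1 * l ^ 2 * (Real.sqrt l / 2 * ψb * (L.GN K y + κ)) := by
          rw [hc1]; field_simp
      _ ≤ _ := mul_le_mul p2 (mul_le_mul_of_nonneg_right p1 hg) (by positivity) (hW1 _).1

end Crest.Agent.N334.G.S1
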